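import Vale.Agent.P004C.Al.St

/-!
# P004 C, block AL: the rows A0, A1, A5, A6, A7
-/

namespace Vale.Agent.P004C.Al

open Subgroup

section tools

variable {X D Y : Type} [CommGroup X] [CommGroup D] [CommGroup Y] {f : X → Y} {U V : Subgroup X}
  {x y : X} {d : X →* D}

/-- the homomorphism -/
def Mu.hom (h : Mu f U) : U →* Y := MonoidHom.mk' (fun x => f x) fun x y => h x x.2 y y.2

theorem Mu.one (h : Mu f U) : f 1 = 1 := h.hom.map_one

theorem Mu.div (h : Mu f U) (hx : x ∈ U) (hy : y ∈ U) : f (x / y) = f x / f y :=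
  h.hom.map_div ⟨x, hx⟩ ⟨y, hy⟩

theorem Mu.pow (h : Mu f U) (hx : x ∈ U) (n : ℕ) : f (x ^ n) = f x ^ n := h.hom.map_pow ⟨x, hx⟩ n

theorem Mu.mono (h : Mu f U) (k : V ≤ U) : Mu f V := fun x a y b => h x (k a) y (k b)

theorem Mu.comp {Z : Type} [CommGroup Z] (h : Mu f U) (π : Y →* Z) : Mu (π ∘ f) U :=
  fun x a y b => by simp only [Function.comp, h x a y b, map_mul]

theorem Mu.pre {Z : Type} [CommGroup Z] (h : Mu f U) (φ : Z →* X) {W : Subgroup Z}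
    (k : ∀ z ∈ W, φ z ∈ U) : Mu (f ∘ φ) W :=
  fun x a y b => by simp only [Function.comp, map_mul, h _ (k x a) _ (k y b)]

theorem Mu.mem_im (h : Mu f U) {z : Y} : z ∈ closure (f '' U) ↔ ∃ x ∈ U, f x = z := by
  have : f '' U = h.hom.range := by
    ext z
    exact ⟨fun ⟨x, a, b⟩ => ⟨⟨x, a⟩, b⟩, fun ⟨x, b⟩ => ⟨x, x.2, b⟩⟩
  rw [this, closure_eq, ← SetLike.mem_coe, ← this]
  rfl

theorem Mu.mem_cl (h : Mu f U) {p : D × Y} :
    p ∈ closure ((fun x => (d x, f x)) '' U) ↔ ∃ x ∈ U, d x = p.1 ∧ f x = p.2 := by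
  rw [Mu.mem_im fun x a y b => by simp only [map_mul, h x a y b, Prod.mk_mul_mk]]
  simp only [Prod.ext_iff]

theorem Mu.mem_Kf (h : Mu f U) : x ∈ Kf d f U ↔ x ∈ U ∧ d x = 1 ∧ f x = 1 := by
  refine ⟨fun k => ?_, fun k => subset_closure k⟩
  induction k using closure_induction with
  | mem x k => exact k
  | one => exact ⟨one_mem _, map_one _, h.one⟩
  | mul x y _ _ a b => exact ⟨mul_mem a.1 b.1, by rw [map_mul, a.2.1, b.2.1, mul_one],
      by rw [h x a.1 y b.1, a.2.2, b.2.2, mul_one]⟩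
  | inv x _ a => exact ⟨inv_mem a.1, by rw [map_inv, a.2.1, inv_one],
      by rw [← one_div, h.div (one_mem _) a.1, h.one, a.2.2, div_one]⟩

namespace Ab

/-- isomorphic quotients -/
theorem tr {A B : Subgroup X} {C E : Subgroup Y} (h : Mu f B) (h1 : ∀ x ∈ B, x ∈ A ↔ f x ∈ C)
    (h2 : ∀ x ∈ B, f x ∈ E) (h3 : ∀ y ∈ E, ∃ x ∈ B, y / f x ∈ C) : A.relIndex B = C.relIndex E := by
  have e1 : A.subgroupOf B = C.comap h.hom := by
    ext x
    exact h1 x x.2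
  have e2 : h.hom.range ⊔ C = E ⊔ C := by
    refine le_antisymm (sup_le_sup_right ?_ _) (sup_le (fun y hy => ?_) le_sup_right)
    · rintro _ ⟨x, rfl⟩
      exact h2 x x.2
    · obtain ⟨x, a, b⟩ := h3 y hy
      exact mem_sup.2 ⟨f x, ⟨⟨x, a⟩, rfl⟩, _, b, mul_div_cancel _ _⟩
  rw [relIndex, e1, index_comap, ← relIndex_sup_right, e2, relIndex_sup_right]

theorem mh (φ : X →* Y) (B : Subgroup X) : Mu φ B := fun x _ y _ => map_mul φ x y

theorem cut {A B : Subgroup X} (E : Subgroup X) (h : A ≤ E) :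
    A.relIndex B = A.relIndex (E ⊓ B) * E.relIndex B := by
  rw [relIndex_inf_mul_relIndex, inf_of_le_left h]

theorem mem_sq {A : Subgroup X} : x ∈ sq A ↔ ∃ y ∈ A, y ^ 2 = x := Iff.rfl

theorem nm_ap (s : X →* X) (x : X) : nm s x = x * s x := rfl

theorem mem_Hn {t : D →* D} {I : Subgroup D} {p : D × X} :
    p ∈ Hn d t U I ↔ (p.1 ∈ I ∧ p.2 ∈ U) ∧ nm t p.1 = d p.2 := Iff.rfl

theorem mem_Hd {s : X →* X} {p : D × X} : p ∈ Hd d s U ↔ ∃ x ∈ U, d x = p.1 ∧ nm s x = p.2 := by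
  simp only [Hd, mem_map, Prod.ext_iff, MonoidHom.prod_apply]

theorem mem_Em {s : X →* X} : x ∈ Em d s U ↔ (x ∈ U ∧ d x = 1) ∧ nm s x = 1 := Iff.rfl

variable {s : X →* X} {t : D →* D} {U' : Subgroup X} {I' I : Subgroup D}

theorem d_nm (h : Pa d s t U' U I' I) (x : X) : d (nm s x) = nm t (d x) := by
  rw [nm_ap, map_mul, h.eq, nm_ap]

theorem nm_mem (h : Pa d s t U' U I' I) (k : x ∈ U) : nm s x ∈ U' := (h.st x k).2.2

theorem nm_sq (h : Pa d s t U' U I' I) (k : x ∈ U') : nm s x = x ^ 2 := by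
  rw [nm_ap, h.fx x k, pow_two]

theorem d_mem (h : Pa d s t U' U I' I) (k : x ∈ U) : d x ∈ I := h.dv ⟨x, k, rfl⟩

theorem Hd_le (h : Pa d s t U' U I' I) : Hd d s U ≤ Hn d t U' I := by
  intro p k
  obtain ⟨x, a, b, c⟩ := mem_Hd.1 k
  rw [mem_Hn, ← b, ← c, d_nm h]
  exact ⟨⟨d_mem h a, nm_mem h a⟩, rfl⟩

/-- an odd index and exponent two -/
theorem le_of_odd {A B : Subgroup X} (h : Odd (A.relIndex B)) (k : ∀ x ∈ B, x ^ 2 ∈ A) : B ≤ A := by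
  intro x hx
  obtain ⟨n, e⟩ := h
  have : x ^ A.relIndex B ∈ A := (A.subgroupOf B).pow_index_mem ⟨x, hx⟩
  rw [e, pow_succ, pow_mul] at this
  exact (A.mul_mem_cancel_left (A.pow_mem (k x hx) n)).1 this

/-- the comparison of two levels -/
theorem lift {Y₁ : Type} [CommGroup Y₁] {f : X → Y₁} {π : Y₁ →* Y} {U₁ : Subgroup X} (h : Mu f U)
    (le : U₁ ≤ U) (hs : sq U ≤ U₁) (dv : U.map d ≤ I) (su : Function.Surjective π)
    (ex : ∀ y ∈ π.ker, y ^ 2 = 1) (ne : Jx d f U₁ I ≠ 0)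
    (e : v2 (Jx d f U₁ I) = v2 (Jx d (π ∘ f) U I)) (hx : x ∈ U) {y : Y₁} (hy : π y = π (f x)) :
    ∃ x₁ ∈ U₁, d x₁ = d x ∧ f x₁ = y := by
  have m1 := fun p => (h.mono le).mem_cl (d := d) (p := p)
  have m2 := fun p => (h.comp π).mem_cl (d := d) (p := p)
  let φ : D × Y₁ →* D × Y := (MonoidHom.id D).prodMap π
  have e1 : Jx d f U₁ I = _ := cut ((closure ((fun x => (d x, (π ∘ f) x)) '' U)).comap φ) fun p k => by
    obtain ⟨x, a, b, c⟩ := (m1 p).1 k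
    exact (m2 _).2 ⟨x, le a, b, congrArg π c⟩
  have e2 : ((closure ((fun x => (d x, (π ∘ f) x)) '' U)).comap φ).relIndex (I.prod ⊤) =
      Jx d (π ∘ f) U I := tr (mh φ _) (fun _ _ => Iff.rfl) (fun p k => ⟨k.1, trivial⟩) fun p k => by
    obtain ⟨z, hz⟩ := su p.2
    exact ⟨(p.1, z), ⟨k.1, trivial⟩, by
      rw [show φ (p.1, z) = p from Prod.ext rfl hz, div_self']; exact one_mem _⟩
  rw [e2] at e1
  rw [e1] at ne e
  rw [v2, padicValNat.mul (left_ne_zero_of_mul ne) (right_ne_zero_of_mul ne), add_eq_right,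
    padicValNat.eq_zero_iff] at e
  have od := Nat.odd_iff.2 (Nat.two_dvd_ne_zero.1 ((e.resolve_left (by norm_num)).resolve_left
    (left_ne_zero_of_mul ne)))
  refine (m1 (d x, y)).1 (le_of_odd od (fun p k => ?_)
    ⟨(m2 _).2 ⟨x, hx, rfl, hy.symm⟩, dv ⟨x, hx, rfl⟩, trivial⟩)
  obtain ⟨z, a, b, c⟩ := (m2 _).1 k.1
  refine (m1 _).2 ⟨z ^ 2, hs ⟨z, a, rfl⟩, by rw [map_pow, b]; rfl, ?_⟩
  have := ex (f z / p.2) (by rw [MonoidHom.mem_ker, map_div, div_eq_one]; exact c)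
  rw [div_pow, div_eq_one] at this
  rw [h.pow a, this]
  rfl

end Ab

end tools

open Ab

/-- **row A7** -/
theorem a7 : A7 := by
  intro X D Y _ _ _ d f U I h dv
  have m := fun p => h.mem_cl (d := d) (p := p)
  rw [Jx, cut ((U.map d).comap (MonoidHom.fst D Y)) fun p k => by
    obtain ⟨x, a, b, -⟩ := (m p).1 k
    exact ⟨x, a, b⟩, mul_comm, ← relIndex_top_right]
  congr 1
  · exact tr (mh (MonoidHom.fst D Y) _) (fun _ _ => Iff.rfl) (fun p k => k.1) fun p k =>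
      ⟨(p, 1), ⟨k, trivial⟩, by rw [show MonoidHom.fst D Y (p, 1) = p from rfl, div_self']; exact one_mem _⟩
  · symm
    refine tr (mh (MonoidHom.inr D Y) _) (fun y _ => ?_)
      (fun y _ => ⟨one_mem (U.map d), one_mem I, trivial⟩) ?_
    · rw [(h.mono inf_le_left).mem_im, m]
      exact ⟨fun ⟨x, a, b⟩ => ⟨x, a.1, a.2, b⟩, fun ⟨x, a, b, c⟩ => ⟨x, ⟨a, b⟩, c⟩⟩
    · rintro p ⟨⟨x, a, b⟩, -⟩
      exact ⟨p.2 / f x, trivial, (m _).2 ⟨x, a, b.trans (div_one _).symm, (div_div_cancel _ _).symm⟩⟩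

/-- **row A0** -/
theorem a0 : A0 := by
  intro X D _ _ d s t U' U I' I h h1 h2
  rw [hh, cut ((U.map d).comap (MonoidHom.fst D X)) fun p k => by
    obtain ⟨x, a, b, -⟩ := mem_Hd.1 k
    exact ⟨x, a, b⟩]
  refine mul_ne_zero ?_ ?_
  · rw [← tr (A := (Hd d s U).comap (MonoidHom.inr D X)) (B := U' ⊓ d.ker) (C := Hd d s U)
      (E := (U.map d).comap (MonoidHom.fst D X) ⊓ Hn d t U' I) (mh (MonoidHom.inr D X) _)
      (fun _ _ => Iff.rfl) (fun x k => ⟨one_mem (U.map d), mem_Hn.2 ⟨⟨one_mem I, k.1⟩,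
        (map_one _).trans k.2.symm⟩⟩) ?_]
    · refine fun e => h2 (relIndex_eq_zero_of_le_left ?_ e)
      rintro _ ⟨x, a, rfl⟩
      exact mem_Hd.2 ⟨x, h.le a.1, a.2, nm_sq h a.1⟩
    · rintro p ⟨⟨x, a, b⟩, c⟩
      refine ⟨p.2 / nm s x, ⟨U'.div_mem c.1.2 (nm_mem h a), show d _ = 1 from ?_⟩,
        mem_Hd.2 ⟨x, a, b.trans (div_one _).symm, (div_div_cancel _ _).symm⟩⟩
      rw [map_div, div_eq_one, d_nm h, b]
      exact (mem_Hn.1 c).2.symm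
  · rw [relIndex_comap]
    refine fun e => h1 (relIndex_eq_zero_of_le_right ?_ e)
    rintro _ ⟨p, k, rfl⟩
    exact k.1.1

/-- **row A1** -/
theorem a1 : A1 := by
  intro X D Y _ _ _ d s t f U' U I' I h hf _ _
  have hf' : Mu (f ∘ nm s) U := hf.pre _ fun _ => nm_mem h
  have m1 := fun p => hf.mem_cl (d := d) (p := p)
  have m2 := fun p => hf'.mem_cl (d := d) (p := p)
  let ν : D × Y →* D × Y := (nm t).prodMap (MonoidHom.id Y)
  let ψ : D × X → D × Y := fun p => (p.1, f p.2)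
  have hψ : Mu ψ (Hn d t U' I) := fun p a q b => Prod.ext rfl (hf _ a.1.2 _ b.1.2)
  let E : Subgroup (D × X) := Hd d s U ⊔ (Kf d f U').map (MonoidHom.inr D X)
  have e1 : Jx d (f ∘ nm s) U I = _ := cut ((closure ((fun x => (d x, f x)) '' U')).comap ν)
    fun p k => by
      obtain ⟨x, a, b, c⟩ := (m2 p).1 k
      exact (m1 _).2 ⟨nm s x, nm_mem h a, by rw [d_nm h, b]; rfl, c⟩
  have e2 : Jx d f U' I' = _ := (relIndex_mul_relIndex _
    ((I.map (nm t) ⊔ U'.map d).comap (MonoidHom.fst D Y) ⊓ I'.prod ⊤) _ (fun p k => by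
      obtain ⟨x, a, b, -⟩ := (m1 p).1 k
      exact ⟨mem_sup_right ⟨x, a, b⟩, h.dv' ⟨x, a, b⟩, trivial⟩) inf_le_right).symm
  have e3 : ((I.map (nm t) ⊔ U'.map d).comap (MonoidHom.fst D Y) ⊓ I'.prod ⊤).relIndex (I'.prod ⊤) =
      h2 d t U' I' I := tr (mh (MonoidHom.fst D Y) _) (fun _ k => ⟨fun a => a.1, fun a => ⟨a, k⟩⟩)
    (fun p k => k.1) fun p k => ⟨(p, 1), ⟨k, trivial⟩, by
      rw [show MonoidHom.fst D Y (p, 1) = p from rfl, div_self']; exact one_mem _⟩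
  have e4 : ((closure ((fun x => (d x, f x)) '' U')).comap ν).relIndex (I.prod ⊤) = _ :=
    tr (E := (I.map (nm t) ⊔ U'.map d).comap (MonoidHom.fst D Y) ⊓ I'.prod ⊤) (mh ν _)
      (fun _ _ => Iff.rfl)
      (fun p k => ⟨mem_sup_left ⟨p.1, k.1, rfl⟩, (h.st' _ k.1).2.2, trivial⟩) fun p k => by
      obtain ⟨_, ⟨q, a, rfl⟩, _, ⟨x, b, rfl⟩, c⟩ := mem_sup.1 k.1
      exact ⟨(q, p.2 / f x), ⟨a, trivial⟩, (m1 _).2 ⟨x, b, eq_div_of_mul_eq' ((mul_comm _ _).trans c),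
        (div_div_cancel _ _).symm⟩⟩
  have e5 : hh d s t U' U I = _ := cut E le_sup_left
  have e6 : E.relIndex (Hn d t U' I) = (closure ((fun x => (d x, (f ∘ nm s) x)) '' U)).relIndex
      ((closure ((fun x => (d x, f x)) '' U')).comap ν ⊓ I.prod ⊤) := by
    refine tr hψ (fun p k => ⟨fun a => ?_, fun a => ?_⟩)
      (fun p k => ⟨(m1 _).2 ⟨p.2, k.1.2, (mem_Hn.1 k).2.symm, rfl⟩, k.1.1, trivial⟩) fun p k => ?_
    · obtain ⟨q, a', _, ⟨x, b, rfl⟩, rfl⟩ := mem_sup.1 a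
      obtain ⟨z, c1, c2, c3⟩ := mem_Hd.1 a'
      have b := hf.mem_Kf.1 b
      refine (m2 _).2 ⟨z, c1, c2.trans (mul_one _).symm, ?_⟩
      show f (nm s z) = f (q.2 * x)
      rw [← c3, hf _ (nm_mem h c1) _ b.1, b.2.2, mul_one]
    · obtain ⟨z, c1, c2, c3⟩ := (m2 _).1 a
      refine mem_sup.2 ⟨(d z, nm s z), mem_Hd.2 ⟨z, c1, rfl, rfl⟩, _, ⟨p.2 / nm s z,
        hf.mem_Kf.2 ⟨div_mem k.1.2 (nm_mem h c1), ?_, ?_⟩, rfl⟩,
        Prod.ext ((mul_one _).trans c2) (mul_div_cancel _ _)⟩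
      · rw [map_div, div_eq_one, d_nm h, c2]
        exact (mem_Hn.1 k).2.symm
      · rw [hf.div k.1.2 (nm_mem h c1), div_eq_one]
        exact c3.symm
    · obtain ⟨x, a, b, c⟩ := (m1 _).1 k.1
      exact ⟨(p.1, x), ⟨⟨k.2.1, a⟩, b.symm⟩, by
        rw [show ψ (p.1, x) = p from Prod.ext rfl c, div_self']; exact one_mem _⟩
  have e7 : ((Kf d (f ∘ nm s) U).map (nm s)).relIndex (Kf d f U') =
      (Hd d s U).relIndex (E ⊓ Hn d t U' I) := by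
    refine tr (mh (MonoidHom.inr D X) _) (fun x k => ⟨?_, fun a => ?_⟩)
      (fun x k => ⟨mem_sup_right ⟨x, k, rfl⟩, mem_Hn.2 ⟨⟨one_mem I, (hf.mem_Kf.1 k).1⟩,
        (map_one _).trans (hf.mem_Kf.1 k).2.1.symm⟩⟩) fun p k => ?_
    · rintro ⟨z, a, rfl⟩
      exact mem_Hd.2 ⟨z, (hf'.mem_Kf.1 a).1, (hf'.mem_Kf.1 a).2.1, rfl⟩
    · obtain ⟨z, c1, c2, c3⟩ := mem_Hd.1 a
      exact ⟨z, hf'.mem_Kf.2 ⟨c1, c2, (congrArg f c3).trans (hf.mem_Kf.1 k).2.2⟩, c3⟩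
    · obtain ⟨q, a, _, ⟨x, b, rfl⟩, rfl⟩ := mem_sup.1 k.1
      exact ⟨x, b, by rwa [mul_div_cancel_right]⟩
  rw [e1, e2, e3, ← e4, e5, e6, e7]
  ring

/-- **row A5** -/
theorem a5 : A5 := by
  intro X D _ _ d s t U' U U₁' U₁ I' I h h₁ l' l
  let θ : X →* D × X := d.prod (nm s)
  have e1 : hh d s t U₁' U₁ I = _ := cut (Hd d s U) (map_mono l)
  have e2 : bb s U₁' U₁ U = _ := cut (U₁ ⊔ θ.ker) le_sup_left
  have e3 : (U₁ ⊔ θ.ker).relIndex (U ⊓ U₁'.comap (nm s)) =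
      (Hd d s U₁).relIndex (Hd d s U ⊓ Hn d t U₁' I) := by
    refine tr (mh θ _) (fun x _ => ?_)
      (fun x k => ⟨⟨x, k.1, rfl⟩, ⟨d_mem h k.1, k.2⟩, (d_nm h x).symm⟩) ?_
    · rw [← comap_map_eq]; rfl
    · rintro _ ⟨⟨x, a, rfl⟩, k⟩
      exact ⟨x, ⟨a, k.1.2⟩, by rw [div_self']; exact one_mem _⟩
  have e4 : (Em d s U₁).relIndex (Em d s U) =
      U₁.relIndex ((U₁ ⊔ θ.ker) ⊓ (U ⊓ U₁'.comap (nm s))) := by
    refine tr (mh (MonoidHom.id X) _) (fun x k => ⟨fun a => a.1.1, fun a => ⟨⟨a, k.1.2⟩, k.2⟩⟩)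
      (fun x k => ⟨mem_sup_right (Prod.ext k.1.2 k.2), k.1.1, ?_⟩) fun x k => ?_
    · show nm s x ∈ U₁'
      rw [(mem_Em.1 k).2]
      exact one_mem _
    · obtain ⟨y, a, z, b, rfl⟩ := mem_sup.1 k.1
      exact ⟨z, ⟨⟨(U.mul_mem_cancel_left (l a)).1 k.2.1, congrArg Prod.fst b⟩, congrArg Prod.snd b⟩,
        by rwa [MonoidHom.id_apply, mul_div_cancel_right]⟩
  have e5 := relIndex_mul_relIndex (Hd d s U) (Hn d t U₁' I ⊔ Hd d s U) (Hn d t U' I) le_sup_right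
    (sup_le (fun p k => ⟨⟨k.1.1, l' k.1.2⟩, k.2⟩) (Hd_le h))
  rw [relIndex_sup_right] at e5
  rw [e1, e2, e3, e4, hh, ← e5]
  exact ⟨(Hn d t U₁' I ⊔ Hd d s U).relIndex (Hn d t U' I), by ring⟩

/-- **row A6** -/
theorem a6 : A6 := by
  intro X D Y Y₁ _ _ _ _ d s t f π U' U U₁' U₁ I' I h h₁ l' l q q' on hf su ex n' n e' e n2 le
  have hf' : Mu (f ∘ nm s) U := hf.pre _ fun _ => nm_mem h
  have L' := fun x a y => lift (x := x) (y := y) hf l' q' h.dv' su ex n' e' a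
  have L := fun x a y => lift (x := x) (y := y) hf' l q h.dv su ex n e a
  have m0 := fun x => (hf.comp π).mem_Kf (d := d) (x := x)
  have m1 := fun x => (hf.mono l').mem_Kf (d := d) (x := x)
  have m2 : ∀ x, x ∈ Kf d ((π ∘ f) ∘ nm s) U ↔ _ := fun x => (hf'.comp π).mem_Kf (d := d) (x := x)
  have e1 : (Kf d f U₁').relIndex (Kf d (π ∘ f) U') = _ := cut U₁' fun x k => ((m1 x).1 k).1
  have e2 : U₁'.relIndex (Kf d (π ∘ f) U') = U₁'.relIndex U' :=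
    tr (mh (MonoidHom.id X) _) (fun _ _ => Iff.rfl) (fun x k => ((m0 x).1 k).1) fun x k => by
      obtain ⟨z, a, b, c⟩ := L' x k _ rfl
      refine ⟨x / z, (m0 _).2 ⟨div_mem k (l' a), by rw [map_div, b, div_self'], ?_⟩,
        by rwa [MonoidHom.id_apply, div_div_cancel]⟩
      rw [Function.comp, hf.div k (l' a), c, div_self', map_one]
  have e3 : (Kf d f U₁').relIndex (U₁' ⊓ Kf d (π ∘ f) U') = (⊥ : Subgroup Y₁).relIndex π.ker :=
    tr (hf.mono (inf_le_left.trans l')) (fun x k => by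
      rw [m1, mem_bot]
      exact ⟨fun a => a.2.2, fun a => ⟨k.1, ((m0 x).1 k.2).2.1, a⟩⟩)
      (fun x k => ((m0 x).1 k.2).2.2) fun y k => by
      obtain ⟨z, a, b, c⟩ := L' 1 (one_mem _) y (by rw [hf.one, map_one]; exact k)
      exact ⟨z, ⟨a, (m0 _).2 ⟨l' a, b.trans (map_one _), (congrArg π c).trans k⟩⟩,
        by rw [c, div_self']; exact one_mem _⟩
  have e4 := relIndex_mul_relIndex (sq (Kf d (π ∘ f) U')) (Kf d f U₁') (Kf d (π ∘ f) U') (by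
    rintro _ ⟨x, a, rfl⟩
    have a := (m0 x).1 a
    exact (m1 _).2 ⟨q' ⟨x, a.1, rfl⟩, by rw [powMonoidHom_apply, map_pow, a.2.1, one_pow],
      (hf.pow a.1 2).trans (ex _ a.2.2)⟩) fun x k => by
    have a := (m1 x).1 k
    exact (m0 x).2 ⟨l' a.1, a.2.1, (congrArg π a.2.2).trans (map_one _)⟩
  rw [e1, e2, e3, relIndex_bot_left, mul_comm (Nat.card _)] at e4
  rw [i2, ← e4] at n2 le
  have e5 := relIndex_eq_one.1 (le_antisymm (Nat.le_of_mul_le_mul_right (le.trans (one_mul _).ge)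
    (Nat.pos_of_ne_zero (right_ne_zero_of_mul n2))) (Nat.pos_of_ne_zero (left_ne_zero_of_mul n2)))
  intro x hx
  have a := (m0 x).1 hx
  obtain ⟨_, ⟨y, b, rfl⟩, x₁, c, k⟩ := mem_sup.1 (on a.1)
  obtain ⟨z, z1, z2, z3⟩ := L y b ((f ∘ nm s) y / f x) (by
    rw [map_div, show π (f x) = 1 from a.2.2, div_one])
  have w1 := div_mem b (l z1)
  have w2 : d (y / z) = 1 := by rw [map_div, z2, div_self']
  have w3 : f (nm s (y / z)) = f x := (hf'.div b (l z1)).trans (by rw [z3, div_div_cancel])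
  obtain ⟨u, u1, u2⟩ := e5 ((m1 (x / nm s (y / z))).2 ⟨by
      rw [← k, map_div, ← div_mul, mul_div_cancel_left]; exact mul_mem c (nm_mem h₁ z1),
    by rw [map_div, d_nm h, w2, a.2.1, map_one, div_one],
    by rw [hf.div a.1 (nm_mem h w1), w3, div_self']⟩)
  have u3 := (m0 u).1 u1
  refine ⟨y / z * u, mul_mem ((m2 _).2 ⟨w1, w2, (congrArg π w3).trans a.2.2⟩)
    ((m2 _).2 ⟨h.le u3.1, u3.2.1, ?_⟩), ?_⟩
  · show π (f (nm s u)) = 1
    rw [nm_sq h u3.1, hf.pow u3.1, map_pow, show π (f u) = 1 from u3.2.2, one_pow]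
  · rw [map_mul, nm_sq h u3.1, show u ^ 2 = _ from u2, mul_div_cancel]

end Vale.Agent.P004C.Al
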