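import Vale.Agent.P004C.Al.St

/-! # P004 C, block AL: row A2, removing inert primes -/

set_option autoImplicit false
set_option linter.all false

open Subgroup

namespace Vale.Agent.P004C.Al

namespace R2

theorem rc {G : Type} [Group G] {H H' K : Subgroup G} (h : ∀ x ∈ K, x ∈ H ↔ x ∈ H') :
    H.relIndex K = H'.relIndex K :=
  congrArg index (Subgroup.ext fun x => h x.1 x.2 : H.subgroupOf K = H'.subgroupOf K)

theorem mHn {X D : Type} [CommGroup X] [CommGroup D] {d : X →* D} {t : D →* D} {U' : Subgroup X}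
    {I : Subgroup D} {z : D × X} : z ∈ Hn d t U' I ↔ (z.1 ∈ I ∧ z.2 ∈ U') ∧ z.1 * t z.1 = d z.2 :=
  Iff.rfl

end R2

open R2 in
/-- **row A2** -/
theorem a2 : A2 := fun X D _ _ d s t U' U I' I π P c k _ _ => by
  set T := I ⊓ π.ker with hT
  set W := I.map (nm t) ⊔ U'.map d with hW
  let Φ : D × X →* D × X := π.prodMap (MonoidHom.id X)
  let ψ : D × X →* D := d.comp (MonoidHom.snd D X) / (nm t).comp (MonoidHom.fst D X)
  have hψ : ∀ z, ψ z = d z.2 / (z.1 * t z.1) := fun _ => rfl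
  let Hm : Subgroup (D × X) := I.prod U' ⊓ π.ker.comap ψ
  let T₁ : Subgroup (D × X) := T.prod ⊥
  have mM : ∀ z : D × X, z ∈ Hm ↔ (z.1 ∈ I ∧ z.2 ∈ U') ∧ π z.1 * t (π z.1) = π (d z.2) :=
    fun z => and_congr_right fun _ => by
      change π (ψ z) = 1 ↔ _
      rw [hψ, map_div, map_mul, c, div_eq_one, eq_comm]
  have m1 : ∀ z : D × X, z ∈ T₁ ↔ (z.1 ∈ I ∧ π z.1 = 1) ∧ z.2 = 1 := fun _ => Iff.rfl
  have WI : W ≤ I' := sup_le (map_le_iff_le_comap.2 fun p hp => (P.st' p hp).2.2) P.dv'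
  have dn : Hd d s U ≤ Hn d t U' I := map_le_iff_le_comap.2 fun y hy =>
    mHn.2 ⟨⟨P.dv ⟨y, hy, rfl⟩, (P.st y hy).2.2⟩, by
      change d y * t (d y) = d (y * s y)
      rw [map_mul, P.eq]⟩
  have nM : Hn d t U' I ≤ Hm := fun z hz =>
    (mM z).2 ⟨hz.1, by rw [← (mHn.1 hz).2, map_mul, c]⟩
  have tM : T₁ ≤ Hm := fun z hz => (mM z).2
    ⟨⟨hz.1.1, ((m1 z).1 hz).2 ▸ one_mem _⟩, by simp [((m1 z).1 hz).1.2, ((m1 z).1 hz).2]⟩
  have sT : ∀ z ∈ T₁, ψ z = (z.1⁻¹) ^ 2 := fun z hz => by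
    rw [hψ, ((m1 z).1 hz).2, P.fx' _ (k hz.1), map_one, one_div, inv_pow, pow_two]
  have e1 : Hn (π.comp d) t U' (I.map π) = Hm.map Φ := Subgroup.ext fun z =>
    ⟨fun h => by
      obtain ⟨⟨⟨p, hp, e⟩, b⟩, f⟩ := mHn.1 h
      exact ⟨(p, z.2), (mM _).2 ⟨⟨hp, b⟩, by rw [e]; exact f⟩, Prod.ext e rfl⟩,
    by
      rintro ⟨y, hy, rfl⟩
      exact mHn.2 ⟨⟨⟨_, hy.1.1, rfl⟩, hy.1.2⟩, ((mM y).1 hy).2⟩⟩
  have e2 : Hd (π.comp d) s U = (Hd d s U).map Φ := by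
    rw [Hd, Hd, map_map]; rfl
  -- the first step of the chain
  have s1 : (Hd d s U ⊔ T₁).relIndex (Hn d t U' I ⊔ T₁) = hh d s t U' U I := by
    rw [← sup_eq_left.2 dn, sup_assoc, relIndex_sup_right]
    refine rc fun z hz => ⟨fun h => ?_, fun h => mem_sup_left h⟩
    obtain ⟨a, ha, b, hb, rfl⟩ := mem_sup.1 h
    have h1 := (mHn.1 ((mul_mem_cancel_left (dn ha)).1 hz)).2
    rw [((m1 b).1 hb).2, P.fx' _ (k hb.1), map_one, ← pow_two] at h1
    rwa [show b = 1 from Prod.ext (P.tf _ hb.1.1 h1) ((m1 b).1 hb).2, mul_one]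
  -- the second step
  have s2 : (Hn d t U' I ⊔ T₁).relIndex Hm = (sq T).relIndex (W ⊓ T) := by
    rw [show W ⊓ T = Hm.map ψ from ?_, ← relIndex_comap]
    · refine rc fun z hz => ⟨fun h => ?_, fun ⟨p, hp, e⟩ => ?_⟩
      · obtain ⟨a, ha, b, hb, rfl⟩ := mem_sup.1 h
        exact ⟨b.1⁻¹, inv_mem hb.1, by
          rw [map_mul, sT b hb, hψ, (mHn.1 ha).2, div_self', one_mul]; rfl⟩
      · have b : (p⁻¹, (1 : X)) ∈ T₁ := ⟨T.inv_mem hp, rfl⟩
        rw [← div_mul_cancel z (p⁻¹, 1)]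
        refine mul_mem_sup (mHn.2 ⟨(div_mem hz (tM b)).1, (div_eq_one.1 ?_).symm⟩) b
        rw [← hψ, map_div, sT _ b, inv_inv, ← e]
        exact div_self' _
    · refine le_antisymm (fun w hw => ?_) (map_le_iff_le_comap.2 fun z hz => ?_)
      · obtain ⟨_, ⟨p, hp, rfl⟩, _, ⟨x, hx, rfl⟩, e⟩ := mem_sup.1 hw.1
        have : ψ (p⁻¹, x) = w := by
          rw [← e, hψ, map_inv, ← mul_inv, div_inv_eq_mul, mul_comm]; rfl
        exact ⟨(p⁻¹, x), ⟨⟨I.inv_mem hp, hx⟩, show π (ψ _) = 1 from this ▸ hw.2.2⟩, this⟩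
      · have : ψ z ∈ W := div_mem (mem_sup_right ⟨_, hz.1.2, rfl⟩) (mem_sup_left ⟨_, hz.1.1, rfl⟩)
        exact ⟨this, P.le' (WI this), hz.2⟩
  have r1 : hh (π.comp d) s t U' U (I.map π) = hh d s t U' U I * (sq T).relIndex (W ⊓ T) := by
    rw [← s1, ← s2, relIndex_mul_relIndex _ _ _ (sup_le_sup_right dn _) (sup_le nM tM), hh, e1, e2,
      ← relIndex_comap, comap_map_eq]
    refine rc fun z hz => ⟨fun h => ?_, fun h => (sup_le_sup_left
      (show T₁ ≤ Φ.ker from fun b hb =>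
      Prod.ext ((m1 b).1 hb).1.2 ((m1 b).1 hb).2) _ :) h⟩
    obtain ⟨a, ha, b, hb, rfl⟩ := mem_sup.1 h
    exact mul_mem_sup ha ((m1 b).2 ⟨⟨((mul_mem_cancel_left (nM (dn ha))).1 hz).1.1,
      congrArg Prod.fst hb⟩, congrArg Prod.snd hb⟩)
  have r2 : i2 T = (sq T).relIndex (W ⊓ T) * W.relIndex T := by
    rw [← inf_relIndex_right W, relIndex_mul_relIndex _ _ _ ?_ inf_le_right]
    rintro _ ⟨p, hp, rfl⟩
    refine ⟨mem_sup_left ⟨p, hp.1, ?_⟩, pow_mem hp 2⟩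
    change p * t p = p ^ 2
    rw [P.fx' _ (k hp), pow_two]
  have r3 : h2 d t U' I' I = W.relIndex T * h2 (π.comp d) t U' (I'.map π) (I.map π) := by
    have : (I.map π).map (nm t) ⊔ U'.map (π.comp d) = W.map π := by
      rw [hW, Subgroup.map_sup, map_map, map_map, map_map]
      congr 2
      ext p
      exact ((map_mul π p (t p)).trans (congrArg _ (c p))).symm
    rw [h2, h2, this, ← relIndex_comap, comap_map_eq, ← relIndex_sup_left T W,
      ← relIndex_mul_relIndex W (W ⊔ T) I' le_sup_left (sup_le WI k)]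
    refine congrArg _ (rc fun z hz => ⟨fun h => (sup_le_sup_left (show T ≤ π.ker from inf_le_right) _ :) h,
      fun h => ?_⟩)
    obtain ⟨a, ha, b, hb, rfl⟩ := mem_sup.1 h
    exact mul_mem_sup ha ⟨P.le' ((mul_mem_cancel_left (WI ha)).1 hz), hb⟩
  rw [r1, r2, r3]
  exact ⟨by ring, dvd_mul_right _ _, dvd_mul_left _ _⟩

end Vale.Agent.P004C.Al
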