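import Vale.Agent.P004C.Al.St
import Vale.Agent.P004R.Abs

/-! # P004 C, block AL: the part killed by the cubic norm -/

set_option autoImplicit false
set_option linter.all false

open Subgroup

noncomputable section

namespace Vale.Agent.P004C.Al

namespace T3

section

variable {G G' : Type} [CommGroup G] [CommGroup G']

theorem mem_sq {A : Subgroup G} {x : G} : x ∈ sq A ↔ ∃ y ∈ A, y ^ 2 = x := Iff.rfl

theorem rel_congr {H H' K : Subgroup G} (h : ∀ x ∈ K, x ∈ H ↔ x ∈ H') :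
    H.relIndex K = H'.relIndex K := by
  rw [← inf_relIndex_right H, ← inf_relIndex_right H']
  congr 1
  ext x
  exact and_congr_left (h x)

theorem rel_map (f : G →* G') {H K : Subgroup G} (le : H ≤ K) (hk : ∀ x ∈ K, f x = 1 → x ∈ H) :
    (H.map f).relIndex (K.map f) = H.relIndex K := by
  rw [← relIndex_comap]
  refine rel_congr fun x hx => ⟨fun ⟨y, hy, e⟩ => ?_, fun k => ⟨x, k, rfl⟩⟩
  simpa using H.mul_mem hy (hk _ (K.mul_mem (K.inv_mem (le hy)) hx) (by simp [e]))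

theorem rel_dvd (H : Subgroup G) {K L : Subgroup G} (le : K ≤ L) : H.relIndex K ∣ H.relIndex L := by
  rw [← relIndex_sup_right K, ← relIndex_sup_right L]
  exact Dvd.intro _ (relIndex_mul_relIndex _ _ _ le_sup_right (sup_le_sup_right le _))

theorem v2_le {a b : ℕ} (h : a ∣ b) (h0 : b ≠ 0) : v2 a ≤ v2 b :=
  (padicValNat_dvd_iff_le h0).1 (pow_padicValNat_dvd.trans h)

theorem rel_le {H K : Subgroup G} {Z : Type} [Finite Z] (κ : G → Z)
    (h : ∀ x ∈ K, ∀ y ∈ K, κ x = κ y → x / y ∈ H) : H.relIndex K ≤ Nat.card Z :=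
  Nat.card_le_card_of_injective (fun q : K ⧸ H.subgroupOf K => κ q.out) fun p q e => by
    rw [← p.out_eq', ← q.out_eq', QuotientGroup.eq, mem_subgroupOf]
    simpa [div_eq_inv_mul] using h _ q.out.2 _ p.out.2 e.symm

theorem olem {H K : Subgroup G} (le : H ≤ K) (γ : G →* G) (hH : ∀ x ∈ H, γ x ∈ H)
    (hK : ∀ x ∈ K, γ x ∈ K) (m : ℕ) (hs : ∀ x ∈ K, x * γ^[2 ^ m] x ∈ H) (h0 : H.relIndex K ≠ 0)
    (hi : H.relIndex (K ⊓ H.comap (powMonoidHom 2)) < 2 ^ 2 ^ m) :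
    ∃ b, H.relIndex (K ⊓ H.comap (powMonoidHom 2)) = 2 ^ b ∧ v2 (H.relIndex K) = b := by
  have : Finite (K ⧸ H.subgroupOf K) := Nat.finite_of_card_ne_zero h0
  set σ : K →* K := (γ.comp K.subtype).codRestrict K fun x => hK _ x.2 with hσ
  have st : H.subgroupOf K ≤ (H.subgroupOf K).comap σ := fun x hx => hH _ hx
  have e : (P004R.sq (K ⧸ H.subgroupOf K)).index = H.relIndex (K ⊓ H.comap (powMonoidHom 2)) := by
    rw [index_range, ← inf_comm, ← relIndex_subgroupOf inf_le_right, inf_subgroupOf_right]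
    conv_rhs => rw [← QuotientGroup.ker_mk' (H.subgroupOf K), relIndex_ker]
    congr 2
    ext q
    obtain ⟨x, rfl⟩ := QuotientGroup.mk_surjective q
    rw [MonoidHom.mem_ker, powMonoidHom_apply, ← QuotientGroup.mk_pow, QuotientGroup.eq_one_iff]
    refine ⟨fun k => ⟨x, k, rfl⟩, fun ⟨y, hy, e⟩ => ?_⟩
    rw [← QuotientGroup.eq_one_iff, QuotientGroup.mk_pow, ← e, QuotientGroup.mk'_apply,
      ← QuotientGroup.mk_pow, QuotientGroup.eq_one_iff]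
    exact hy
  obtain ⟨b, o, ho, k1, k2⟩ := P004R.Ab.olem' (QuotientGroup.map _ _ σ st) m (fun q => by
    obtain ⟨x, rfl⟩ := QuotientGroup.mk_surjective q
    have : ∀ i, (QuotientGroup.map _ _ σ st)^[i] (x : K ⧸ H.subgroupOf K) = (σ^[i] x : K) ∧
        (σ^[i] x).1 = γ^[i] x.1 := fun i => by
      induction i with
      | zero => exact ⟨rfl, rfl⟩
      | succ i ih =>
        simp only [Function.iterate_succ_apply', ih.1, ← ih.2]
        exact ⟨rfl, rfl⟩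
    rw [(this _).1, ← QuotientGroup.mk_mul, QuotientGroup.eq_one_iff, mem_subgroupOf, coe_mul,
      (this _).2]
    exact hs _ x.2) (e ▸ hi)
  refine ⟨b, e ▸ k1, ?_⟩
  rw [show H.relIndex K = 2 ^ b * o from k2, v2, padicValNat.mul (by positivity) ho.pos.ne',
    padicValNat.prime_pow, padicValNat.eq_zero_of_not_dvd ho.not_two_dvd_nat, add_zero]

end

variable {X D : Type} [CommGroup X] [CommGroup D] {d : X →* D} {s u g : X →* X}
  {t u' g' : D →* D} {U' U U₀ V' V V₀ : Subgroup X} {I' I J' J : Subgroup D}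

theorem nm_ap (x : X) : nm s x = x * s x := rfl

theorem n3_ap (x : X) : n3 u x = x * u x * u (u x) := rfl

theorem mem_Hn {h : D × X} : h ∈ Hn d t U' I ↔ h.1 ∈ I ∧ h.2 ∈ U' ∧ nm t h.1 = d h.2 :=
  and_assoc

theorem mem_Hd {h : D × X} : h ∈ Hd d s U ↔ ∃ y ∈ U, (d y, nm s y) = h := Iff.rfl

theorem d_nm (P : Pa d s t U' U I' I) (x : X) : d (nm s x) = nm t (d x) := by
  rw [nm_ap, nm_ap, map_mul, P.eq]

theorem hd_le (P : Pa d s t U' U I' I) : Hd d s U ≤ Hn d t U' I := by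
  rintro _ ⟨y, hy, rfl⟩
  exact mem_Hn.2 ⟨P.dv ⟨y, hy, rfl⟩, (P.st y hy).2.2, (d_nm P y).symm⟩

theorem sq_inj {A : Subgroup X} (tf : ∀ x ∈ A, x ^ 2 = 1 → x = 1) {x y : X} (hx : x ∈ A)
    (hy : y ∈ A) (e : x ^ 2 = y ^ 2) : x = y :=
  div_eq_one.1 (tf _ (A.div_mem hx hy) (by rw [div_pow, e, div_self']))

variable (d s U' U I) in
/-- the elements whose divisor and norm are squares -/
def YY : Subgroup X := U ⊓ (sq I).comap d ⊓ (sq U').comap (nm s)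

theorem a4 (P : Pa d s t U' U I' I) (L : Lv d s U' U U₀ I) :
    (Hd d s U).relIndex (Hn d t U' I ⊓ (Hd d s U).comap (powMonoidHom 2)) =
      (sq U₀).relIndex (YY d s U' U I) := by
  have u0 : U' ≤ U₀ := P.le.trans L.le
  have l1 : sq U ≤ YY d s U' U I := by
    rintro _ ⟨y, hy, rfl⟩
    exact ⟨⟨U.pow_mem hy 2, d y, P.dv ⟨y, hy, rfl⟩, (map_pow d y 2).symm⟩, nm s y, (P.st y hy).2.2,
      (map_pow (nm s) y 2).symm⟩
  have l2 : Em d s U ≤ YY d s U' U I := fun y hy =>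
    ⟨⟨hy.1.1, 1, I.one_mem, by rw [map_one]; exact hy.1.2.symm⟩, 1, U'.one_mem,
      by rw [map_one]; exact hy.2.symm⟩
  have e1 : (Hd d s U).relIndex (Hn d t U' I ⊓ (Hd d s U).comap (powMonoidHom 2)) =
      (sq U ⊔ Em d s U).relIndex (YY d s U' U I) := by
    rw [← rel_map (powMonoidHom 2) (le_inf (hd_le P) fun x hx => (Hd d s U).pow_mem hx 2)
      fun x hx e => ?_, ← rel_map (d.prod (nm s)) (sup_le l1 l2) fun x hx e =>
        mem_sup_right ⟨⟨hx.1.1, congrArg Prod.fst e⟩, congrArg Prod.snd e⟩]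
    · congr 1
      · refine le_antisymm ?_ (map_le_iff_le_comap.2 (sup_le ?_ fun y hy => ?_))
        · rintro _ ⟨_, ⟨y, hy, rfl⟩, rfl⟩
          exact ⟨y ^ 2, mem_sup_left ⟨y, hy, rfl⟩, map_pow _ _ _⟩
        · rintro _ ⟨y, hy, rfl⟩
          exact ⟨_, ⟨y, hy, rfl⟩, (map_pow (d.prod (nm s)) _ _).symm⟩
        · exact ⟨1, one_mem _, by rw [map_one]; exact Prod.ext hy.1.2.symm hy.2.symm⟩
      · refine le_antisymm ?_ ?_
        · rintro _ ⟨h, ⟨h1, y, hy, e⟩, rfl⟩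
          obtain ⟨k1, k2, -⟩ := mem_Hn.1 h1
          exact ⟨y, ⟨⟨hy, h.1, k1, (congrArg Prod.fst e).symm⟩, h.2, k2,
            (congrArg Prod.snd e).symm⟩, e⟩
        · rintro _ ⟨y, ⟨⟨hy, p, hp, e1⟩, x, hx, e2⟩, rfl⟩
          simp only [powMonoidHom_apply] at e1 e2
          refine ⟨(p, x), ⟨mem_Hn.2 ⟨hp, hx, sq_inj P.tf (P.le' (P.st' p hp).2.2)
            (P.le' (P.dv' ⟨x, hx, rfl⟩)) ?_⟩, y, hy, Prod.ext e1.symm e2.symm⟩, Prod.ext e1 e2⟩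
          rw [← map_pow, ← map_pow, e1, e2, d_nm P]
    · obtain ⟨k1, k2, -⟩ := mem_Hn.1 hx.1
      rw [show x = 1 from Prod.ext (P.tf _ k1 (congrArg Prod.fst e))
        (L.tf _ (u0 k2) (congrArg Prod.snd e))]
      exact one_mem _
  have e2 : (sq U).relIndex (sq U ⊔ Em d s U) = bb s U' U U₀ := by
    rw [relIndex_sup_left, ← L.eq]
    refine rel_congr fun x hx => ⟨?_, fun k => map_mono (inf_le_left.trans inf_le_left) k⟩
    rintro ⟨y, hy, rfl⟩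
    exact ⟨y, ⟨⟨hy, P.tf _ (P.dv ⟨y, hy, rfl⟩) ((map_pow d y 2).symm.trans hx.1.2)⟩,
      L.tf _ (u0 (P.st y hy).2.2) ((map_pow (nm s) y 2).symm.trans hx.2)⟩, rfl⟩
  have e3 : (sq U).relIndex (sq U₀ ⊓ YY d s U' U I) = bb s U' U U₀ := by
    rw [bb, ← rel_map (powMonoidHom 2) (le_inf L.le fun y hy => (P.st y hy).2.2)
      fun x hx e => by rw [L.tf x hx.1 e]; exact one_mem _]
    congr 1
    refine le_antisymm ?_ ?_
    · rintro _ ⟨⟨y, hy, rfl⟩, -, z, hz, e⟩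
      have k : z = nm s y := sq_inj L.tf (u0 hz) (U₀.mul_mem hy (L.st y hy))
        (e.trans (map_pow (nm s) y 2))
      exact ⟨y, ⟨hy, mem_comap.2 (k ▸ hz)⟩, rfl⟩
    · rintro _ ⟨y, hy, rfl⟩
      exact ⟨⟨y, hy.1, rfl⟩, ⟨L.sq ⟨y, hy.1, rfl⟩, d y, L.dv ⟨y, hy.1, rfl⟩, (map_pow d y 2).symm⟩,
        nm s y, hy.2, (map_pow (nm s) y 2).symm⟩
  refine mul_left_cancel₀ L.ne ?_
  rw [e1, ← inf_relIndex_right (sq U₀)]
  nth_rw 1 [← e2]
  rw [← e3, relIndex_mul_relIndex _ _ _ le_sup_left (sup_le l1 l2),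
    relIndex_mul_relIndex _ _ _ (le_inf (map_mono L.le) l1) inf_le_right]

theorem n3_cm {G G' : Type} [CommGroup G] [CommGroup G'] {f : G →* G'} {u : G →* G} {u' : G' →* G'}
    (h : ∀ x, f (u x) = u' (f x)) (x : G) : f (n3 u x) = n3 u' (f x) := by
  simp only [n3_ap, map_mul, h]

theorem nm_cm {G : Type} [CommGroup G] {f s : G →* G} (h : ∀ x, s (f x) = f (s x)) (x : G) :
    nm s (f x) = f (nm s x) := by
  simp only [nm_ap, map_mul, h]

theorem n3_fx {x : X} (h : u x = x) : n3 u x = x * x ^ 2 := by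
  rw [n3_ap, h, h, _root_.sq, mul_assoc]

theorem main : A3 := by
  intro X D _ _ d s t u g u' g' U' U U₀ V' V V₀ I' I J' J k P Q L L' C Γ h1 h2 h3 h4 Z _ κ hκ hZ
  obtain ⟨c1, c2, c3, c4, c5⟩ := C.le
  obtain ⟨n1, n2, n3', n4, n5⟩ := C.nr
  obtain ⟨g1, g2, g3, g4⟩ := Γ.st
  have ns : ∀ x, nm s (n3 u x) = n3 u (nm s x) := nm_cm (n3_cm C.cs)
  have nt : ∀ x, nm t (n3 u' x) = n3 u' (nm t x) := nm_cm (n3_cm C.ct)
  set ν : D × X →* D × X := (n3 u').prodMap (n3 u) with hν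
  set γ : D × X →* D × X := g'.prodMap g with hγ
  have ν1 : ∀ h ∈ Hn d t U' I, ν h ∈ Hn d t V' J := fun h hh => by
    obtain ⟨k1, k2, k3⟩ := mem_Hn.1 hh
    exact mem_Hn.2 ⟨n5 ⟨_, k1, rfl⟩, n1 ⟨_, k2, rfl⟩,
      (nt _).trans ((congrArg _ k3).trans (n3_cm C.eq _).symm)⟩
  have ν2 : ∀ h ∈ Hd d s U, ν h ∈ Hd d s V := by
    rintro _ ⟨y, hy, rfl⟩
    exact ⟨_, n2 ⟨y, hy, rfl⟩, Prod.ext (n3_cm C.eq y) (ns y)⟩
  have γ2 : ∀ {W : Subgroup X}, W.map g ≤ W → ∀ h ∈ Hd d s W, γ h ∈ Hd d s W := by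
    rintro W hW _ ⟨y, hy, rfl⟩
    exact ⟨_, hW ⟨y, hy, rfl⟩, Prod.ext (Γ.eq y) (nm_cm Γ.cs y)⟩
  have lP : Hd d s U ≤ Hn d t U' I ⊓ (Hd d s V).comap ν := le_inf (hd_le P) ν2
  have m1 := relIndex_mul_relIndex _ _ _ lP inf_le_left
  set TU := Hn d t U' I ⊓ (Hd d s U).comap (powMonoidHom 2) with hTU
  set TV := Hn d t V' J ⊓ (Hd d s V).comap (powMonoidHom 2) with hTV
  have tB : (Hd d s V).relIndex TV ≠ 0 := fun e => h2 (relIndex_eq_zero_of_le_right inf_le_left e)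
  have m2 : (Hd d s U).relIndex ((Hn d t U' I ⊓ (Hd d s V).comap ν) ⊓
      (Hd d s U).comap (powMonoidHom 2)) * (Hd d s V).relIndex TV = (Hd d s U).relIndex TU := by
    rw [inf_right_comm, ← relIndex_mul_relIndex _ _ TU (le_inf (le_inf (hd_le P) fun x hx =>
      (Hd d s U).pow_mem hx 2) ν2) (inf_le_left (b := (Hd d s V).comap ν)), inf_relIndex_left,
      relIndex_comap, ← relIndex_sup_right (TU.map ν), ← relIndex_sup_right TV]
    congr 2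
    refine le_antisymm (sup_le (fun h hh => ?_) le_sup_right) (sup_le_sup_right ?_ _)
    · obtain ⟨k1, k2, k3⟩ := mem_Hn.1 hh.1
      have : ν h = h * h ^ 2 := Prod.ext (n3_fx (C.fx' _ k1)) (n3_fx (C.fx _ (L'.le (Q.le k2))))
      rw [eq_mul_inv_of_mul_eq this.symm]
      exact mul_mem (mem_sup_left ⟨h, ⟨mem_Hn.2 ⟨c5 k1, c1 k2, k3⟩, map_mono c2 hh.2⟩, rfl⟩)
        (mem_sup_right (inv_mem hh.2))
    · rintro _ ⟨h, hh, rfl⟩
      exact ⟨ν1 h hh.1, show ν h ^ 2 ∈ Hd d s V from map_pow ν h 2 ▸ ν2 (h ^ 2) hh.2⟩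
  have m3 : (Hd d s U).relIndex TU ≤ Nat.card Z * (Hd d s V).relIndex TV := by
    rw [a4 Q L'] at tB
    rw [a4 P L, a4 Q L', ← inf_relIndex_right, ← relIndex_mul_relIndex _
      (YY d s U' U I ⊓ (sq V₀).comap (n3 u)) _ (le_inf inf_le_right ?_) inf_le_left,
      inf_relIndex_left, relIndex_comap]
    · refine Nat.mul_le_mul (rel_le κ fun x hx y hy e => ⟨hκ x hx.1.1.1 y hy.1.1.1 hx.1.1.2 hy.1.1.2
        (map_mono c3 hx.2) (map_mono c3 hy.2) e, Subgroup.div_mem _ hx.1 hy.1⟩)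
        (relIndex_le_of_le_right ?_ tB)
      rintro _ ⟨x, ⟨⟨hx, p, hp, e1⟩, y, hy, e2⟩, rfl⟩
      refine ⟨⟨n2 ⟨x, hx, rfl⟩, _, n5 ⟨p, hp, rfl⟩, ?_⟩, _, n1 ⟨y, hy, rfl⟩, ?_⟩
      · rw [n3_cm C.eq, ← e1]; exact (map_pow _ _ _).symm
      · rw [ns, ← e2]; exact (map_pow _ _ _).symm
    · rintro _ ⟨⟨y, hy, rfl⟩, -⟩
      exact ⟨_, n3' ⟨y, hy, rfl⟩, (map_pow _ _ _).symm⟩
  rw [← m2] at m3
  have m4 := Nat.le_of_mul_le_mul_right m3 (Nat.pos_of_ne_zero tB)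
  have p0 : (Hd d s U).relIndex (Hn d t U' I ⊓ (Hd d s V).comap ν) ≠ 0 := fun e =>
    h1 (relIndex_eq_zero_of_le_right inf_le_left e)
  obtain ⟨b, b1, b2⟩ := olem lP γ (γ2 g2) (fun h hh => by
    obtain ⟨k1, k2, k3⟩ := mem_Hn.1 hh.1
    refine ⟨mem_Hn.2 ⟨g4 ⟨_, k1, rfl⟩, g1 ⟨_, k2, rfl⟩,
      (nm_cm Γ.ct _).trans ((congrArg _ k3).trans (Γ.eq _).symm)⟩, ?_⟩
    have : ν (γ h) = γ (ν h) := Prod.ext (n3_cm (fun x => (Γ.cu' x).symm) _).symm
      (n3_cm (fun x => (Γ.cu x).symm) _).symm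
    exact mem_comap.2 (this ▸ γ2 g3 _ hh.2)) k (fun h hh => by
    obtain ⟨k1, k2, k3⟩ := mem_Hn.1 hh.1
    have : ∀ i, γ^[i] h = (g'^[i] h.1, g^[i] h.2) := fun i => by
      induction i with
      | zero => rfl
      | succ i ih => simp only [Function.iterate_succ_apply', ih]; rfl
    rw [this, Γ.pw _ (P.le k2), Γ.pw' _ k1]
    exact ⟨h.2, P.le k2, Prod.ext k3.symm rfl⟩) p0 (m4.trans_lt hZ)
  refine ⟨b, b1 ▸ m4, ?_, v2_le ?_ h3⟩
  · rw [hh, ← m1, inf_relIndex_left, relIndex_comap] at h1 ⊢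
    rw [v2, padicValNat.mul p0 (right_ne_zero_of_mul h1)]
    exact Nat.add_le_add b2.le (v2_le (rel_dvd _ (map_le_iff_le_comap.2 ν1)) h2)
  · refine (rel_congr fun p hp => ⟨fun k => sup_le_sup (map_mono c5) (map_mono c1) k,
      fun k => ?_⟩).dvd.trans (rel_dvd _ c4)
    obtain ⟨_, ⟨q, hq, rfl⟩, _, ⟨x, hx, rfl⟩, e⟩ := mem_sup.1 k
    have := congrArg (n3 u') e
    rw [map_mul, ← nt, ← n3_cm C.eq, n3_fx (C.fx' _ (Q.le' hp))] at this
    rw [eq_mul_inv_of_mul_eq this.symm]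
    refine mul_mem (mul_mem (mem_sup_left ⟨_, n5 ⟨q, hq, rfl⟩, rfl⟩)
      (mem_sup_right ⟨_, n1 ⟨x, hx, rfl⟩, rfl⟩)) (mem_sup_left (inv_mem ⟨p, Q.le' hp, ?_⟩))
    rw [nm_ap, Q.fx' p hp, _root_.sq]

end T3

/-- **the part killed by the cubic norm** -/
theorem a3 : A3 := T3.main

end Vale.Agent.P004C.Al
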