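import Vale.Agent.P004C.Al.St

/-!
# P004 C, block AL: the rows `A8` and `A9`
-/

open Subgroup Polynomial

noncomputable section

namespace Vale.Agent.P004C.Al

namespace Rk

variable {X : Type} [CommGroup X]

/-- `g x / x` -/
def pp (g : X →* X) : X →* X := g / MonoidHom.id X

/-- its powers -/
def pw (g : X →* X) : ℕ → X →* X
  | 0 => .id X
  | n + 1 => (pp g).comp (pw g n)

theorem pw_apply (g : X →* X) (n : ℕ) (x : X) : pw g n x = (pp g)^[n] x := by
  induction n with
  | zero => rfl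
  | succ n ih => rw [Function.iterate_succ_apply', ← ih]; rfl

/-- the action of the polynomials in `pp g` -/
def ev (g : X →* X) (q : ℤ[X]) (x : X) : X :=
  (aeval ((MonoidHom.toAdditive (pp g)).toIntLinearMap : Module.End ℤ (Additive X)) q
    (.ofMul x)).toMul

variable (g : X →* X) (q r : ℤ[X]) (x : X)

theorem ev_add : ev g (q + r) x = ev g q x * ev g r x := by simp [ev]

theorem ev_mul : ev g (q * r) x = ev g q (ev g r x) := by simp [ev]

theorem ev_X : ev g Polynomial.X x = g x / x := by simp [ev, pp]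

theorem ev_C (a : ℤ) : ev g (C a) x = x ^ a := by
  rw [ev, aeval_C, Module.algebraMap_end_apply]; simp

theorem ev_two : ev g 2 x = x ^ 2 := (ev_C g x 2).trans (zpow_ofNat x 2)

theorem ev_one : ev g q 1 = 1 := by simp [ev]

theorem ev_pow (f : X → X) (h : ∀ x, ev g q x = f x) (n : ℕ) : ev g (q ^ n) x = f^[n] x := by
  induction n with
  | zero => simp [ev]
  | succ n ih => rw [pow_succ', ev_mul, ih, h, Function.iterate_succ_apply']

variable {g x} {H H' : Subgroup X} {k : ℕ}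

theorem pp_le (h : H.map g ≤ H) : H.map (pp g) ≤ H := by
  rintro _ ⟨x, hx, rfl⟩
  exact div_mem (h ⟨x, hx, rfl⟩) hx

theorem ev_mem (h : H.map g ≤ H) (hx : x ∈ H) : ev g q x ∈ H := by
  induction q using Polynomial.induction_on generalizing x with
  | C a => rw [ev_C]; exact zpow_mem hx a
  | add p q hp hq => rw [ev_add]; exact mul_mem (hp hx) (hq hx)
  | monomial n a ih =>
    rw [pow_succ, ← mul_assoc, ev_mul, ev_X]
    exact ih (div_mem (h ⟨x, hx, rfl⟩) hx)

/-- `pp g ^ 2 ^ k` is the square up to a unit -/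
theorem key (h : H.map g ≤ H) (e : ∀ x ∈ H, g^[2 ^ k] x = x⁻¹) : H.map (pw g (2 ^ k)) = sq H := by
  obtain ⟨s, hs⟩ := exists_add_pow_prime_pow_eq Nat.prime_two (1 : ℤ[X]) Polynomial.X k
  have z (x) (hx : x ∈ H) : ev g ((1 + Polynomial.X) ^ 2 ^ k + 1) x = 1 := by
    rw [ev_add, ev_pow g _ _ g fun x => by rw [ev_add, ev_X, ← C_1, ev_C]; simp, e x hx, ← C_1,
      ev_C]
    simp
  have w (x) : pw g (2 ^ k) x = ev g (Polynomial.X ^ 2 ^ k) x := by
    rw [ev_pow g _ _ (pp g) (ev_X g), pw_apply]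
  refine le_antisymm ?_ ?_ <;> rintro _ ⟨x, hx, rfl⟩
  · refine ⟨_, ev_mem (-(1 + Polynomial.X * s)) h hx, ?_⟩
    rw [powMonoidHom_apply, ← ev_two g, ← ev_mul, ← mul_one (ev ..), ← z x hx, ← ev_add]
    exact (congrArg (ev g · x) (by rw [hs]; push_cast; ring)).trans (w x).symm
  · set S := ∑ i ∈ Finset.range (2 ^ k), (-(Polynomial.X * s)) ^ i
    have hS : S * _ = _ := geom_sum_mul _ _
    refine ⟨_, ev_mem (2 * (-s) ^ 2 ^ k - S) h hx, (w _).trans ?_⟩
    rw [← ev_mul, ← mul_one (ev ..), ← ev_one g S, ← z x hx, ← ev_mul, ← ev_add, powMonoidHom_apply,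
      ← ev_two g]
    refine congrArg (ev g · x) ?_
    rw [hs, mul_sub, mul_left_comm, ← mul_pow, mul_neg]
    push_cast
    linear_combination -2 * hS

theorem idx_map (f : X →* X) {A B : Subgroup X} (h : A ≤ B) (hf : ∀ x ∈ B, f x = 1 → x = 1) :
    (A.map f).relIndex (B.map f) = A.relIndex B := by
  rw [← relIndex_comap, ← inf_relIndex_right]
  refine congrArg (relIndex · B) (le_antisymm ?_ (le_inf (le_comap_map f A) h))
  rintro x ⟨⟨y, hy, e⟩, hx⟩
  rwa [div_eq_one.1 (hf (x / y) (div_mem hx (h hy)) (by rw [_root_.map_div, e, div_self']))]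

theorem map_succ (H : Subgroup X) (n : ℕ) :
    H.map (pw g (n + 1)) = (H.map (pw g n)).map (pp g) := (H.map_map _ _).symm

theorem map_succ' (H : Subgroup X) (n : ℕ) :
    H.map (pw g (n + 1)) = (H.map (pp g)).map (pw g n) := by
  rw [H.map_map]
  exact congrArg (H.map ·) (MonoidHom.ext fun x => by simp [pw_apply])

theorem pow_le (h : H.map g ≤ H) (n : ℕ) : H.map (pw g n) ≤ H := by
  induction n with
  | zero => exact H.map_id.le
  | succ n ih => rw [map_succ]; exact (map_mono ih).trans (pp_le h)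

/-- a proper stable subgroup which contains the squares is divisible by `pp g` -/
theorem step (h : H.map g ≤ H) (e : ∀ x ∈ H, g^[2 ^ k] x = x⁻¹) (tf : ∀ x ∈ H, x ^ 2 = 1 → x = 1)
    (hi : i2 H = 2 ^ 2 ^ k) (h' : H'.map g ≤ H') (le : H' ≤ H) (hs : sq H ≤ H') (ne : ¬ H ≤ H') :
    H' ≤ H.map (pp g) := by
  have inj (x) (hx : x ∈ H) (k0 : pp g x = 1) : x = 1 := tf x hx (by
    have := e x hx
    rw [Function.iterate_fixed (div_eq_one.1 k0)] at this
    rw [pow_two, mul_eq_one_iff_eq_inv]; exact this)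
  have dec (n) : H.map (pw g (n + 1)) ≤ H.map (pw g n) := by
    rw [map_succ']; exact map_mono (pp_le h)
  have i1 (n) : (H.map (pw g (n + 1))).relIndex (H.map (pw g n)) =
      (H.map (pp g)).relIndex H := by
    induction n with
    | zero => rw [map_succ, pw, H.map_id]
    | succ n ih =>
      rw [map_succ H (n + 1), ← ih, ← idx_map _ (dec n) fun x hx => inj x (pow_le h n hx),
        ← map_succ H n]
  have i2' (n) : (H.map (pw g n)).relIndex H = (H.map (pp g)).relIndex H ^ n := by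
    induction n with
    | zero => exact relIndex_eq_one.2 H.map_id.ge
    | succ n ih => rw [← relIndex_mul_relIndex _ _ _ (dec n) (pow_le h n), i1, ih, pow_succ']
  have two : (H.map (pp g)).relIndex H = 2 :=
    Nat.pow_left_injective (n := 2 ^ k) (by positivity) (by simp only [← i2', key h e, hi])
  by_contra c
  have := relIndex_mul_relIndex _ _ _ (le_sup_right : _ ≤ H' ⊔ H.map (pp g)) (sup_le le (pp_le h))
  rw [two] at this
  have t : H ≤ H' ⊔ H.map (pp g) := relIndex_eq_one.1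
    (((Nat.prime_two.eq_one_or_self_of_dvd _ (Dvd.intro_left _ this)).resolve_right fun k2 => c
      (le_sup_left.trans (relIndex_eq_one.1 (mul_right_cancel₀ two_ne_zero (by rwa [k2] at this))))))
  have u (n) : H ≤ H' ⊔ H.map (pw g n) := by
    induction n with
    | zero => exact H.map_id.ge.trans le_sup_right
    | succ n ih =>
      refine ih.trans (sup_le le_sup_left ((map_mono t).trans ?_))
      rw [Subgroup.map_sup, ← map_succ']
      exact sup_le_sup_right (pow_le h' n) _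
  exact ne ((u _).trans (sup_le le_rfl ((key h e).le.trans hs)))

variable {F : ℕ → Subgroup X}

theorem anti (h : Fi F) : Antitone F := antitone_nat_of_succ_le h.le

theorem tf (h : Fi F) (x : X) (hx : x ∈ F 2) (e : x ^ 2 = 1) : x = 1 :=
  h.sep x fun m => h.rt m x hx (e ▸ one_mem _)

theorem core (h : Fi F) (hg : ∀ m, (F m).map g ≤ F m) (e : ∀ x ∈ F 2, g^[2 ^ k] x = x⁻¹)
    (hi : ∀ m, 2 ≤ m → i2 (F m) = 2 ^ 2 ^ k) : ∃ m0, 2 ≤ m0 ∧ ∀ m, m0 ≤ m → ∀ i,
      (F (m + i)).relIndex (F m) = 2 ^ (2 ^ k * i) := by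
  let r (m : ℕ) := (F (m + 1)).relIndex (F m)
  have dv (m) (hm : 2 ≤ m) : r m ∣ 2 ^ 2 ^ k := hi m hm ▸ relIndex_dvd_of_le_left _ (h.sq m hm)
  have ps (m) (hm : 2 ≤ m) : r m ≠ 0 := ne_zero_of_dvd_ne_zero (by positivity) (dv m hm)
  have r1 (m) (hm : 2 ≤ m) : r m * (sq (F m) ⊔ F (m + 2)).relIndex (F (m + 1)) = r (m + 1) := by
    show _ = (F (m + 2)).relIndex _
    rw [← relIndex_mul_relIndex _ _ _ le_sup_right (sup_le (h.sq m hm) (h.le _)),
      relIndex_sup_right, ← relIndex_comap, ← inf_relIndex_right (comap ..)]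
    rw [show (F (m + 2)).comap (powMonoidHom 2) ⊓ F m = F (m + 1) from le_antisymm
      (fun x hx => h.rt _ x (anti h hm hx.2) hx.1)
      fun x hx => ⟨h.sq _ (by omega) ⟨x, hx, rfl⟩, h.le m hx⟩]
  have mono : Monotone fun m => r (m + 2) := monotone_nat_of_le_succ fun m =>
    Nat.le_of_dvd (Nat.pos_of_ne_zero (ps _ (by omega))) (Dvd.intro _ (r1 _ (by omega)))
  obtain ⟨_, ⟨M, rfl⟩, hM⟩ := (Set.finite_le_nat (2 ^ 2 ^ k)).subset
    (t := Set.range fun m => r (m + 2)) (by
      rintro _ ⟨m, rfl⟩; exact Nat.le_of_dvd (by positivity) (dv _ (by omega))) |>.exists_maximal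
      (Set.range_nonempty _)
  have st (m) (hm : M + 2 ≤ m) : r m = r (M + 2) := by
    obtain ⟨j, rfl⟩ : ∃ j, m = j + 2 := ⟨m - 2, by omega⟩
    exact le_antisymm (hM ⟨j, rfl⟩ (mono (by omega))) (mono (by omega : M ≤ j))
  have s1 (m) (hm : M + 2 ≤ m) : F (m + 1) ≤ sq (F m) ⊔ F (m + 2) := relIndex_eq_one.1 (by
    have := r1 m (by omega)
    rw [st m hm, st (m + 1) (by omega)] at this
    exact (mul_eq_left₀ (ps _ (by omega))).1 this)
  have ne (m) (hm : M + 2 ≤ m) : ¬ F m ≤ F (m + 1) := fun c => by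
    have a (j) : F m ≤ F (m + j) := by
      induction j with
      | zero => exact le_rfl
      | succ j ih => exact ih.trans (relIndex_eq_one.1
          ((st (m + j) (by omega)).trans ((st m hm).symm.trans (relIndex_eq_one.2 c))))
    have b : F m = ⊥ := (eq_bot_iff_forall _).2 fun x hx =>
      h.sep x fun j => anti h (by omega) (a j hx)
    have := hi m (by omega)
    rw [b, i2, relIndex_bot_right] at this
    exact (Nat.one_lt_two_pow (by positivity)).ne this
  have e' (m) (hm : M + 2 ≤ m) (x) (hx : x ∈ F m) := e x (anti h (by omega) hx)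
  have s2 (m) (hm : M + 2 ≤ m) (j) : F (m + j) ≤ (F m).map (pw g j) := by
    induction j with
    | zero => exact (Subgroup.map_id _).ge
    | succ j ih =>
      rw [map_succ]
      have a : 2 ≤ m + j := by omega
      exact (step (hg _) (e' (m + j) (by omega)) (fun x hx => tf h x (anti h a hx)) (hi _ a)
        (hg _) (h.le _) (h.sq _ a) (ne (m + j) (by omega))).trans (map_mono ih)
  have s3 (m) (hm : M + 2 ≤ m) (j) : F (m + 1) ≤ sq (F m) ⊔ F (m + j + 1) := by
    induction j with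
    | zero => exact le_sup_right
    | succ j ih => exact ih.trans (sup_le le_sup_left ((s1 _ (by omega)).trans
        (sup_le_sup_right (map_mono (anti h (by omega))) _)))
  have s4 (m) (hm : M + 2 ≤ m) : r m = 2 ^ 2 ^ k := by
    rw [← hi m (by omega)]
    exact congrArg (relIndex · _) (le_antisymm ((s3 m hm _).trans (sup_le le_rfl ((h.le _).trans
      ((s2 m hm _).trans (key (hg m) (e' m hm)).le)))) (h.sq m (by omega)))
  refine ⟨M + 2, by omega, fun m hm i => ?_⟩
  induction i with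
  | zero => simp
  | succ i ih =>
    rw [← add_assoc, ← relIndex_mul_relIndex _ _ _ (h.le (m + i)) (anti h (m.le_add_right i)), ih,
      mul_add, pow_add, mul_one, mul_comm]
    exact congrArg _ (s4 _ (by omega))

theorem idx_sup {A A' B B' : Subgroup X} (a : A' ≤ A) (b : B' ≤ B) (h : A ⊓ B = ⊥) :
    (A' ⊔ B').relIndex (A ⊔ B) = A'.relIndex A * B'.relIndex B := by
  have k {A A' B : Subgroup X} (a : A' ≤ A) (h : B ⊓ A = ⊥) :
      (A' ⊔ B).relIndex (A ⊔ B) = A'.relIndex A := by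
    rw [show A ⊔ B = A ⊔ (A' ⊔ B) by rw [← sup_assoc, sup_eq_left.2 a], relIndex_sup_right,
      ← inf_relIndex_right, sup_inf_assoc_of_le _ a, h, sup_bot_eq]
  rw [← relIndex_mul_relIndex _ _ _ (sup_le_sup_left b A') (sup_le_sup_right a B),
    k a (by rwa [inf_comm]), sup_comm A', sup_comm A', k b (eq_bot_mono (inf_le_inf_right B a) h),
    mul_comm]

theorem Fi.inf (h : Fi F) (E : Subgroup X) : Fi fun m => F m ⊓ E where
  le m := inf_le_inf_right _ (h.le m)
  sq m hm := by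
    rintro _ ⟨x, hx, rfl⟩
    exact ⟨h.sq m hm ⟨x, hx.1, rfl⟩, pow_mem hx.2 2⟩
  rt m x hx e := ⟨h.rt m x hx.1 e.1, hx.2⟩
  sep x hx := h.sep x fun m => (hx m).1

end Rk

/-- **row A8** -/
theorem a8 : A8 := fun _ _ _ _ _ h hg e hi =>
  let ⟨m, h2, hm⟩ := Rk.core h hg e hi
  ⟨m, h2, hm m le_rfl⟩

open Rk in
/-- **row A9** -/
theorem a9 : A9 := fun X _ F g σ k h hg hσ e ss c hi => by
  let P := σ.eqLocus (MonoidHom.id X)
  let N := σ.eqLocus (MonoidHom.id X)⁻¹
  have dj (a b) (ha : 2 ≤ a) : (F a ⊓ P) ⊓ (F b ⊓ N) = ⊥ := (eq_bot_iff_forall _).2 fun x hx =>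
    tf h x (anti h ha hx.1.1) (by
      rw [pow_two, mul_eq_one_iff_eq_inv]; exact hx.1.2.symm.trans hx.2.2)
  have le (m) : F m ⊓ P ⊔ F m ⊓ N ≤ F m := sup_le inf_le_left inf_le_left
  have iN (m) (hm : 2 ≤ m) : i2 (F m ⊓ N) = 2 ^ 2 ^ k := by
    have s : sq (F m) ≤ F m ⊓ P ⊔ F m ⊓ N := by
      rintro _ ⟨x, hx, rfl⟩
      have y := hσ m ⟨x, hx, rfl⟩
      have z := ss x (anti h hm hx)
      rw [show powMonoidHom 2 x = x * σ x * (x / σ x) by simp [pow_two]]
      exact mul_mem_sup ⟨mul_mem hx y, show σ _ = _ by simp [z, mul_comm]⟩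
        ⟨(F m).div_mem hx y, show σ _ = _ by simp [z]⟩
    have q {A : Subgroup X} : sq A ≤ A := by rintro _ ⟨x, hx, rfl⟩; exact pow_mem hx 2
    have a := relIndex_mul_relIndex _ _ _ s (le m)
    have b := relIndex_mul_relIndex _ _ _ (map_mono (f := powMonoidHom 2) (le m)) s
    rw [idx_map _ (le m) fun x hx => tf h x (anti h hm hx), mul_comm, a, Subgroup.map_sup,
      idx_sup q q (dj m m hm)] at b
    have := (hi m hm).1.symm.trans b
    rw [show (sq (F m ⊓ P)).relIndex _ = _ from (hi m hm).2, two_mul, pow_add] at this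
    exact (mul_left_cancel₀ (by positivity) this).symm
  have st (E : Subgroup X) (hE : ∀ x ∈ E, g x ∈ E) (m) : (F m ⊓ E).map g ≤ F m ⊓ E := by
    rintro _ ⟨x, hx, rfl⟩
    exact ⟨hg m ⟨x, hx.1, rfl⟩, hE x hx.2⟩
  obtain ⟨a, h2, ha⟩ := core (Fi.inf h P) (st P fun x hx => (c x).trans (congrArg g hx))
    (fun x hx => e x hx.1) fun m hm => (hi m hm).2
  obtain ⟨b, -, hb⟩ := core (Fi.inf h N)
    (st N fun x hx => (c x).trans ((congrArg g hx).trans (map_inv g x))) (fun x hx => e x hx.1) iN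
  refine ⟨a + b, by omega, fun i => ?_⟩
  set m := a + b
  have hm : 2 ≤ m := by omega
  rw [mul_assoc, two_mul, pow_add]
  nth_rw 1 [← ha m (by omega) i]
  rw [← hb m (by omega) i, ← idx_sup (anti (Fi.inf h P) (m.le_add_right i))
    (anti (Fi.inf h N) (m.le_add_right i)) (dj m m hm), ← relIndex_mul_relIndex (F (m + i + 1)) _ _
    le_sup_right (sup_le (le m) (anti h (by omega))), relIndex_sup_right, ← inf_relIndex_right (F _)]
  refine (relIndex_dvd_of_le_left _ ?_).mul_right _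
  rintro _ ⟨hx, hy⟩
  obtain ⟨x, ⟨x1, x2⟩, y, ⟨y1, y2⟩, rfl⟩ := mem_sup.1 hy
  have z := hσ _ ⟨_, hx, rfl⟩
  rw [map_mul, show σ x = x from x2, show σ y = y⁻¹ from y2] at z
  exact mul_mem_sup ⟨h.rt _ x (anti h hm x1) (by
    simpa [pow_two, mul_mul_mul_comm x y] using mul_mem hx z), x2⟩ ⟨h.rt _ y (anti h hm y1) (by
    simpa [pow_two, mul_div_mul_left_eq_div] using (F _).div_mem hx z), y2⟩

end Vale.Agent.P004C.Al
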