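import Vale.Agent.P004C.Al.Alx0

/-!
# P004 C, block AL: the export
-/

set_option linter.all false

open NumberField Module
open scoped Classical

noncomputable section

namespace Vale.Agent.P004C.Al

open Vale.Agent.P022 Vale.Agent.P022.H916 P004R.Gl
open Vale.Agent.P027M.S (Inert)
open Vale.Agent.P027M.M (ze)
open Vale.Agent.P022E.GW (Ov)

namespace Fx

theorem ineq {x y L P : ℝ} {h h' c c' b : ℕ} (L0 : 0 ≤ L) (a : Ap (x * L * 2 ^ h) (2 ^ c))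
    (a' : Ap (y * (L * P) * 2 ^ h') (2 ^ c')) (k : h' ≤ b + h) (k' : c ≤ c') :
    x < 2 ^ (b + 1) * y * P := by
  have p1 : (0 : ℝ) < 2 ^ c := by positivity
  have p2 : (0 : ℝ) < 2 ^ h := by positivity
  have p3 : (0 : ℝ) < 2 ^ h' := by positivity
  have q1 : (2 : ℝ) ^ c ≤ 2 ^ c' := pow_le_pow_right₀ one_le_two k'
  have q2 : (2 : ℝ) ^ h' ≤ 2 ^ b * 2 ^ h := pow_add (2 : ℝ) b h ▸ pow_le_pow_right₀ one_le_two k
  obtain ⟨a1, a2⟩ := a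
  have a3 := a'.2
  have w : 0 < y * (L * P) := (mul_pos_iff_of_pos_right p3).1 (by linarith)
  have u : 0 < x * L * 2 ^ h := by linarith
  have q3 := mul_le_mul_of_nonneg_left q2 w.le
  refine lt_of_mul_lt_mul_right (a := L * 2 ^ h) ?_ (by positivity)
  rw [pow_succ]
  nlinarith

variable {K M M₃ F F' A : Type} [Field K] [NumberField K] [Field M] [NumberField M] [Field M₃]
  [NumberField M₃] [Field F] [NumberField F] [Field F'] [NumberField F'] [Field A] [NumberField A]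
  [Algebra K M] [Algebra M M₃] {j : K →+* Qb} {jM : M →+* Qb} {j₃ : M₃ →+* Qb} {jF : F →+* Qb}
  {jF' : F' →+* Qb} {jA : A →+* Qb} {r : GQ →* M2} {c k : ℕ} {e : GQ → ZMod (2 * 2 ^ k)}
  {e₃ : GQ → ZMod 3} {g t : GQ}

theorem r_cj {u : GQ} {p : ℕ} (h : r u ^ p = 1) : r (g * u * g⁻¹) ^ p = 1 := by
  rw [← map_pow, conj_pow, map_mul, map_mul, map_pow, h, mul_one, ← map_mul, mul_inv_cancel, map_one]

theorem noM (h : Cb j r jM j₃ e₃) : No j jM := fun g a u b =>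
  (h.gM _).2 ⟨mul_mem (mul_mem a ((h.gM u).1 b).1) (inv_mem a), r_cj ((h.gM u).1 b).2⟩

theorem no3 (h : Cb j r jM j₃ e₃) : No j j₃ := fun g a u b =>
  (h.g3 _).2 ⟨mul_mem (mul_mem a ((h.g3 u).1 b).1) (inv_mem a), by
    simpa only [pow_one] using r_cj (g := g) (p := 1) ((pow_one _).trans ((h.g3 u).1 b).2)⟩

theorem res (h : Lw j c k e) (a : GK jF ≤ GK j)
    (b : ∀ l P, Ov l P → l ∣ c → ∃ t ∈ GK jF, Inert P t ∧ e t = 1) : Lw jF c k e :=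
  ⟨h.odd, h.one, fun g p u q => h.add g (a p) u (a q),
    h.opn.imp fun W w => ⟨w.1, fun g p => w.2 g (a p)⟩, fun l P o n g p => h.unr l P o n g (a p), b⟩

theorem cub (hL : Lw j c k e) (h : Cb j r jM j₃ e₃) {a : ZMod (2 * 2 ^ k)} [Algebra F F']
    (co : Co jF jF') (hF : ∀ g, g ∈ GK jF ↔ g ∈ GK jM ∧ a * e g = 0)
    (hF' : ∀ g, g ∈ GK jF' ↔ g ∈ GK j₃ ∧ a * e g = 0) (m : g ∈ GK jM) (n : r g ≠ 1)
    (z : e g = 0) : finrank F F' = 3 ∧ ∃ σ : F' ≃ₐ[F] F', orderOf σ = 3 ∧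
      ∀ x, jF' (σ x) = g (jF' x) := by
  have m' : g ∈ GK jF := (hF g).2 ⟨m, by rw [z, mul_zero]⟩
  have q : ∀ u ∈ GK jF, u ∈ GK jF' ↔ r u = 1 := fun u p => by
    rw [hF', h.g3, and_iff_left ((hF u).1 p).2, and_iff_right ((h.gM u).1 ((hF u).1 p).1).1]
  have : Fact (Nat.Prime 3) := ⟨Nat.prime_three⟩
  refine cyc co (fun u p => no_F hL (fun v p => ((h.g3 v).1 p).1) (no3 h) hF' u
    ((h.gM u).1 ((hF u).1 p).1).1) m' (fun i => ?_) fun u p => ?_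
  · rw [q _ (pow_mem m' i), map_pow, ← orderOf_dvd_iff_pow_eq_one,
      orderOf_eq_prime ((h.gM g).1 m).2 n]
  · have k : ∀ i, r u⁻¹ * r g ^ i = 1 → ∃ i : ℕ, u⁻¹ * g ^ i ∈ GK jF' := fun i w =>
      ⟨i, (q _ (mul_mem (inv_mem p) (pow_mem m' i))).2 (by rw [map_mul, map_pow, w])⟩
    rcases m_c _ _ ((h.gM _).1 (inv_mem ((hF u).1 p).1)).2 ((h.gM g).1 m).2 n with w | w | w
    · exact k 0 (by rw [w, pow_zero, one_mul])
    · exact k 1 (by rw [pow_one, w])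
    · exact k 2 w

theorem sq1 (n : r g ^ 3 ≠ 1) : r g ^ 2 = 1 :=
  (m_a (r g) (r g⁻¹) (by rw [← map_mul, mul_inv_cancel, map_one])).resolve_left n

theorem alt (h : Cb j r jM j₃ e₃) (m : g ∈ GK j) (n : r g ^ 3 ≠ 1) {u : GQ} (p : u ∈ GK j) :
    u ∈ GK jM ∨ u * g ∈ GK jM := by
  by_cases w : r u ^ 3 = 1
  · exact .inl ((h.gM u).2 ⟨p, w⟩)
  · exact .inr ((h.gM _).2 ⟨mul_mem p m, by
      rw [map_mul]; exact ((m_b _ _ (sq1 w) (sq1 n)).resolve_left w).resolve_left n⟩)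

theorem dg2 (h : Cb j r jM j₃ e₃) (m : g ∈ GK j) (n : r g ^ 3 ≠ 1) : finrank K M = 2 := by
  refine (cyc h.cM (noM h) m (fun i => ?_) fun u p => ?_).1
  · rw [h.gM, and_iff_right (pow_mem m i), map_pow, pow_right_comm, ← orderOf_dvd_iff_pow_eq_one,
      orderOf_eq_prime (p := 2) (by rw [pow_right_comm, sq1 n, one_pow]) n]
  · exact (alt h m n (inv_mem p)).elim (fun w => ⟨0, by rwa [pow_zero, mul_one]⟩)
      fun w => ⟨1, by rwa [pow_one]⟩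

theorem dg1 (h : Cb j r jM j₃ e₃) (n : ∀ g ∈ GK j, r g ^ 3 = 1) : finrank K M = 1 :=
  (cyc h.cM (noM h) (one_mem _) (fun i => by simp [one_mem]) fun u p =>
    ⟨0, by rw [pow_zero, mul_one]; exact (h.gM _).2 ⟨inv_mem p, n _ (inv_mem p)⟩⟩).1

/-- the elements which are fixed by the involution -/
theorem fix (hL : Lw j c k e) (h : Cb j r jM j₃ e₃) [Algebra K A] [Algebra F A] [Algebra F' A]
    (cF : Co jF jA) (cF' : Co jF' jA) (hF : ∀ g, g ∈ GK jF ↔ g ∈ GK j ∧ e g = 0)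
    (hF' : ∀ g, g ∈ GK jF' ↔ g ∈ GK jM ∧ e g = 0) (m : g ∈ GK j) (n : r g ^ 3 ≠ 1) (z : e g = 0)
    {σ : A ≃ₐ[K] A} (hσ : ∀ x, jA (σ x) = g (jA x)) (x : Aˣ) :
    x ∈ (Units.map (algebraMap F' A : F' →* A)).range ∧ ua σ x = x ↔
      x ∈ (Units.map (algebraMap F A : F →* A)).range := by
  have k : ∀ {L : Type} [Field L] [NumberField L] [Algebra L A] {jL : L →+* Qb}, Co jL jA →
      (x ∈ (Units.map (algebraMap L A : L →* A)).range ↔ ∀ u ∈ GK jL, u (jA x) = jA x) :=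
    fun {L} _ _ _ jL co => ⟨fun ⟨y, w⟩ u p => by
      rw [← w]; exact (congrArg u (co y)).trans ((p y).trans (co y).symm), fun w => by
      obtain ⟨y, hy⟩ := fixed jL (x := jA x) fun u => w u u.2
      have : algebraMap L A y = x := jA.injective ((co y).trans hy)
      exact ⟨Units.mk0 y fun z => x.ne_zero (by rw [← this, z, map_zero]), Units.ext this⟩⟩
  have s : ua σ x = x ↔ g (jA x) = jA x := by
    rw [← hσ, jA.injective.eq_iff, Units.ext_iff]; rfl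
  rw [k cF, k cF', s]
  refine ⟨fun ⟨a, b⟩ u p => ?_, fun a => ⟨fun u p => a u ((hF u).2
    ⟨((h.gM u).1 ((hF' u).1 p).1).1, ((hF' u).1 p).2⟩), a g ((hF g).2 ⟨m, z⟩)⟩⟩
  obtain ⟨p1, p2⟩ := (hF u).1 p
  rcases alt h m n p1 with w | w
  · exact a u ((hF' u).2 ⟨w, p2⟩)
  · have := a _ ((hF' _).2 ⟨w, by rw [hL.add u p1 g m, p2, z, add_zero]⟩)
    rwa [AlgEquiv.mul_apply, b] at this

end Fx

open Fx

/-- **the export** -/
theorem alx (gb : GBX) (pa : PAI) (re : REL) (ic : ICX) (l2 : LF2) (l3 : LF3) (di : DIS) (dc : DIC)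
    (bd : BD1) (cu : CUB) (pr : PAR) : ALX := by
  intro K M M₃ _ _ _ _ _ _ _ _ _ _ ι J Ω hB j jM j₃ P ρ c k e e₃ S s hP hL hT hC n b n₃ b₃ hb hb₃
    χ ψ hχ hψ fZ cZ h h0
  obtain ⟨r, rfl⟩ : ∃ r : GQ →* M2, ⇑r = ρ := ⟨⟨⟨ρ, hT.one⟩, hT.mul⟩, rfl⟩
  have lM : GK jM ≤ GK j := Co.le hC.cM
  have lM3 : GK j₃ ≤ GK jM := Co.le hC.c3
  have l3' : GK j₃ ≤ GK j := lM3.trans lM
  have ram : ∀ l P, Ov l P → l ∣ c → ∃ t ∈ GK j₃, Inert P t ∧ e t = 1 := fun l P o d => by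
    obtain ⟨t, m, i, u⟩ := hL.ram l P o d
    exact ⟨t, (hC.g3 t).2 ⟨m, hT.unr t ⟨l, fun z => hT.cop l z d, P, o, i⟩⟩, i, u⟩
  have L3 : Lw j₃ c k e := res hL l3' ram
  have LM : Lw jM c k e := res hL lM fun l P o d => (ram l P o d).imp fun t w => ⟨lM3 w.1, w.2⟩
  obtain ⟨t, t3, t1⟩ : ∃ t ∈ GK j₃, e t = 1 := by
    obtain ⟨l, hl, d⟩ := Nat.exists_prime_and_dvd hL.one.ne'
    obtain ⟨Q, q1, q2⟩ := exists_prime hl
    obtain ⟨t, m, -, u⟩ := ram l Q ⟨hl, q1, q2⟩ d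
    exact ⟨t, m, u⟩
  have tK := l3' t3
  have tr : r t = 1 := ((hC.g3 t).1 t3).2
  have adj : ∀ g ∈ GK j, ∃ g' ∈ GK j, r g' = r g ∧ e g' = 0 := fun g m =>
    ⟨_, mul_mem m (pow_mem tK _), by rw [map_mul, map_pow, tr, one_pow, mul_one], e_gen hL tK t1 m⟩
  obtain ⟨g, gM, gn, g0⟩ : ∃ g ∈ GK jM, r g ≠ 1 ∧ e g = 0 := by
    obtain ⟨g, m, w⟩ := hC.onto
    obtain ⟨g', a1, a2, a3⟩ := adj g (lM m)
    exact ⟨g', (hC.gM _).2 ⟨a1, a2 ▸ ((hC.gM g).1 m).2⟩, a2 ▸ w, a3⟩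
  obtain ⟨L, _, _, jL, gL⟩ := ex_F hL lM 2
  obtain ⟨B, _, _, jB, gB⟩ := ex_F hL lM 1
  obtain ⟨N, _, _, jN, gN⟩ := ex_F hL l3' 2
  obtain ⟨A, _, _, jA, gA⟩ := ex_F hL l3' 1
  have nL := no_F hL lM (noM hC) gL
  have nB := no_F hL lM (noM hC) gB
  have nN := no_F hL l3' (no3 hC) gN
  have nA := no_F hL l3' (no3 hC) gA
  have dbl : ∀ x : ZMod (2 * 2 ^ k), 1 * x = 0 → 2 * x = 0 := fun x w => by
    rw [one_mul] at w; rw [w, mul_zero]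
  have lML : GK jL ≤ GK jM := fun u p => ((gL u).1 p).1
  have lMN : GK jN ≤ GK j₃ := fun u p => ((gN u).1 p).1
  have lLB : GK jB ≤ GK jL := fun u p => (gL u).2 ⟨((gB u).1 p).1, dbl _ ((gB u).1 p).2⟩
  have lLN : GK jN ≤ GK jL := fun u p => (gL u).2 ⟨lM3 ((gN u).1 p).1, ((gN u).1 p).2⟩
  have lBA : GK jA ≤ GK jB := fun u p => (gB u).2 ⟨lM3 ((gA u).1 p).1, ((gA u).1 p).2⟩
  have lNA : GK jA ≤ GK jN := fun u p => (gN u).2 ⟨((gA u).1 p).1, dbl _ ((gA u).1 p).2⟩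
  obtain ⟨_, cKL⟩ := ex_alg (lML.trans lM)
  obtain ⟨_, cKB⟩ := ex_alg (lLB.trans (lML.trans lM))
  obtain ⟨_, cKN⟩ := ex_alg (lMN.trans l3')
  obtain ⟨_, cKA⟩ := ex_alg (lNA.trans (lMN.trans l3'))
  obtain ⟨_, cML⟩ := ex_alg lML
  obtain ⟨_, cMN⟩ := ex_alg lMN
  obtain ⟨_, cLB⟩ := ex_alg lLB
  obtain ⟨_, cLN⟩ := ex_alg lLN
  obtain ⟨_, cBA⟩ := ex_alg lBA
  obtain ⟨_, cNA⟩ := ex_alg lNA
  obtain ⟨_, cLA⟩ := ex_alg (lBA.trans lLB)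
  have c3 : Co j j₃ := fun x => by rw [IsScalarTower.algebraMap_apply K M M₃, hC.c3, hC.cM]
  have := tw hC.cM cML cKL
  have := tw c3 cMN cKN
  have := tw cKL cLB cKB
  have := tw cKB cBA cKA
  have := tw cLB cBA cLA
  have := tw cKL cLA cKA
  have := tw cKN cNA cKA
  have := tw cLN cNA cLA
  obtain ⟨_, D, hD⟩ := ex_dict cKA nA
  have act : ∀ u (m : u ∈ GK j) x, jA (D ⟨u, m⟩ x) = u (jA x) := fun u m x => (hD.act ⟨u, m⟩ x).symm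
  obtain ⟨γ, hγ⟩ : ∃ γ, γ = D ⟨t, tK⟩ := ⟨_, rfl⟩
  have aγ : ∀ x, jA (γ x) = t (jA x) := hγ ▸ act t tK
  have aτ : ∀ x, jA ((γ ^ 2 ^ k) x) = (t ^ 2 ^ k) (jA x) := fun x => by
    rw [hγ, ← map_pow]; exact act _ (pow_mem tK _) x
  have cen : ∀ u : GK j, γ * D u = D u * γ := fun u => by
    rw [hγ, eq_comm, ← mul_inv_eq_one, ← map_mul, ← map_mul, ← map_inv, ← map_mul, mul_inv_rev,
      ← mul_assoc, hD.ker]
    have w := no3 hC u u.2 t t3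
    refine (gA (u.1 * t * u.1⁻¹ * t⁻¹)).2 ⟨mul_mem w (inv_mem t3), ?_⟩
    rw [hL.add _ (l3' w) _ (inv_mem tK), e_cj hL u.2 tK, e_inv hL tK, add_neg_cancel, mul_zero]
  have tt : r (t ^ 2 ^ k) = 1 := by rw [map_pow, tr, one_pow]
  have te : e (t ^ 2 ^ k) = 2 ^ k := by rw [e_pow hL tK, t1, mul_one]; push_cast; rfl
  obtain ⟨qB, xB, iB, η, hη, eB⟩ := pr K ι J Ω hB A L B j jL jB jA r c k e S s (fun a => a ^ 3 = 1)
    _ _ cKL cLB cBA hL hT (one_pow 3) (fun u => by rw [gL, hC.gM, and_assoc])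
    (fun u => by rw [gB, hC.gM, and_assoc, one_mul]) (pow_mem tK _) tt te aτ
  obtain ⟨qA, xA, iA, η₃, hη₃, eA⟩ := pr K ι J Ω hB A N A j jN jA jA r c k e S s (fun a => a = 1)
    _ _ cKN cNA (fun _ => rfl) hL hT rfl (fun u => by rw [gN, hC.g3, and_assoc])
    (fun u => by rw [gA, hC.g3, and_assoc, one_mul]) (pow_mem tK _) tt te aτ
  have s0 : s ≠ 0 := fun z => by simpa [z] using hT.uni
  have dM : finrank K M = n := by rw [finrank_eq_card_basis b, Fintype.card_fin]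
  have d3 : finrank K M₃ = n₃ := by rw [finrank_eq_card_basis b₃, Fintype.card_fin]
  have dL := dg_F LM cML gL (lM3 t3) t1
  have dN := dg_F L3 cMN gN t3 t1
  have eL : finrank K L = n * 2 ^ k := by rw [← finrank_mul_finrank K M L, dM, dL]
  have eN : finrank K N = n₃ * 2 ^ k := by rw [← finrank_mul_finrank K M₃ N, d3, dN]
  have pB := pres cBA nB tK aγ
  obtain ⟨hn, C, hCb⟩ : (n = 2 ∨ n = 1 ∧ ∀ g ∈ GK j, r g ^ 3 = 1) ∧
      ∃ C, ∀ m, 3 ≤ m → v2 (hS ι J L B (γ ^ 2 ^ k) (Ss ι J A s) m) ≤ C := by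
    by_cases hc : ∀ g ∈ GK j, r g ^ 3 = 1
    · have n1 : n = 1 := dM.symm.trans (dg1 hC hc)
      exact ⟨.inr ⟨n1, hc⟩, bd K ι J Ω hB A L B γ k s qB pB s0 iB (.inl (by rw [eL, n1, one_mul]))⟩
    · push Not at hc
      obtain ⟨u, um, un⟩ := hc
      obtain ⟨v, vm, vr, v0⟩ := adj u um
      rw [← vr] at un
      have n2 : n = 2 := dM.symm.trans (dg2 hC vm un)
      obtain ⟨H', _, _, jH', gH'⟩ := ex_F hL le_rfl 2
      obtain ⟨H, _, _, jH, gH⟩ := ex_F hL le_rfl 1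
      have lH' : GK jH' ≤ GK j := fun u p => ((gH' u).1 p).1
      have lH : GK jH ≤ GK jH' := fun u p => (gH' u).2 ⟨((gH u).1 p).1, dbl _ ((gH u).1 p).2⟩
      have lHA : GK jA ≤ GK jH := fun u p => (gH u).2 ⟨l3' ((gA u).1 p).1, ((gA u).1 p).2⟩
      obtain ⟨_, c1⟩ := ex_alg lH'
      obtain ⟨_, c2⟩ := ex_alg (lH.trans lH')
      obtain ⟨_, c4⟩ := ex_alg lH
      obtain ⟨_, c5⟩ := ex_alg lHA
      obtain ⟨_, c6⟩ := ex_alg (lHA.trans lH)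
      have := tw c1 c4 c2
      have := tw c2 c5 cKA
      have := tw c4 c5 c6
      have := tw c1 c6 cKA
      have qH := (pr K ι J Ω hB A H' H j jH' jH jA r c k e S s (fun _ => True) _ _ c1 c4 c5 hL hT
        trivial (fun u => by rw [gH', true_and]) (fun u => by rw [gH, true_and, one_mul])
        (pow_mem tK _) tt te aτ).1
      refine ⟨.inl n2, bd K ι J Ω hB A L B γ k s qB pB s0 iB (.inr ⟨by rw [eL, n2], D ⟨v, vm⟩, ?_,
        (cen _).symm, pres cBA nB vm (act v vm), fun m hm => ?_⟩)⟩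
      · rw [← map_mul, hD.ker]
        exact (gA (v * v)).2 ⟨(hC.g3 _).2 ⟨mul_mem vm vm, by rw [map_mul, ← pow_two, sq1 un]⟩,
          by rw [hL.add v vm v vm, v0, add_zero, mul_zero]⟩
      · refine .trans (congrArg i2 ?_) ((pa K ι J Ω hB A H' H _ qH m hm).2.2.2.1.trans
          (by rw [dg_F hL c1 gH' tK t1]))
        ext x
        have := fix hL hC c5 cBA (fun u => by rw [gH, one_mul]) (fun u => by rw [gB, one_mul]) vm un
          v0 (act v vm) x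
        simp only [Em, UL, Subgroup.mem_inf, ← this]
        exact ⟨fun ⟨⟨⟨⟨a, b⟩, c⟩, d⟩, f⟩ => ⟨⟨⟨a, b, f⟩, c⟩, d⟩,
          fun ⟨⟨⟨a, b, f⟩, c⟩, d⟩ => ⟨⟨⟨⟨a, b⟩, c⟩, d⟩, f⟩⟩
  obtain ⟨f1, ω₁, o1, a1⟩ := cub hL hC cLN gL gN gM gn g0
  obtain ⟨f2, ω₂, o2, a2⟩ := cub hL hC cBA gB gA gM gn g0
  have key : ∀ m, 2 ≤ m → ∃ a, 2 ^ a ≤
      Nat.card (Zc j (S ∪ c.primeFactors) r (2 * 2 ^ k) (fun g => (e g).val) P) ^ n ∧
      v2 (hS ι J N A (γ ^ 2 ^ k) (Ss ι J A s) (m + 1)) ≤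
        a + v2 (hS ι J L B (γ ^ 2 ^ k) (Ss ι J A s) (m + 1)) ∧
      v2 (cS ι J L B (γ ^ 2 ^ k) (Ss ι J A s) (m + 1)) ≤
        v2 (cS ι J N A (γ ^ 2 ^ k) (Ss ι J A s) (m + 1)) := fun m hm => by
    obtain ⟨κ, hκ⟩ := dc K A ι J Ω hB j jA P r c k e S s cKA hP hL hT
      (fun u => by rw [gA, hC.g3, and_assoc, one_mul]) _ g (lM gM) gn ((hC.gM g).1 gM).2 g0
      (act g (lM gM)) n m hn hm
    have := cu K ι J Ω hB A L B N γ _ k s ω₁ ω₂ qB qA (cen _) (pres cNA nN tK aγ) pB f1 o1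
      (fun x => jA.injective (by rw [cNA, a1, act, cNA])) f2 o2
      (fun x => jA.injective (by rw [a2, act])) s0 iB iA m hm _ κ hκ
      (by rwa [Nat.card_fun, Nat.card_eq_fintype_card (α := Fin n), Fintype.card_fin])
    rwa [Nat.card_fun, Nat.card_eq_fintype_card (α := Fin n), Fintype.card_fin] at this
  obtain ⟨bL, hbL⟩ := (gb K ι J Ω hB L).1
  obtain ⟨bN, hbN⟩ := (gb K ι J Ω hB N).1
  obtain ⟨m1, r1⟩ := re K ι J Ω hB A L B _ qB xB η c eB s hT.uni iB ⟨C, hCb⟩ _ bL hbL h h0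
  obtain ⟨m2, r2⟩ := re K ι J Ω hB A N A _ qA xA η₃ c eA s hT.uni iA ⟨2 ^ k + C, fun m hm => by
    obtain ⟨m, rfl⟩ : ∃ m', m = m' + 1 := ⟨m - 1, by omega⟩
    obtain ⟨a, w1, w2, -⟩ := key m (by omega)
    have := (Nat.pow_lt_pow_iff_right one_lt_two).1 (w1.trans_lt cZ)
    have := hCb _ hm
    omega⟩ _ bN hbN h h0
  obtain ⟨a, w1, w2, w3⟩ := key (m1 + m2 + 2) (by omega)
  obtain ⟨e1, r1⟩ := r1 (m1 + m2 + 2 + 1) (by omega)
  obtain ⟨e2, r2⟩ := r2 (m1 + m2 + 2 + 1) (by omega)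
  refine ⟨a, e1 + e2 + 1, w1, fun e' he lam hl => ?_⟩
  have r1 := r1 e' (by omega) lam hl
  have r2 := r2 e' (by omega) lam hl
  have un : ∀ Q, Ov 2 Q → ∀ u ∈ GK j, Inert Q u → 2 * e u = 0 := fun Q o u p i => by
    rw [hL.unr 2 Q o hL.odd.not_two_dvd_nat u p i, mul_zero]
  have vL := (di K M L ι J Ω hB jL fun Q o u p i => by
    rw [show jL.comp (algebraMap M L) = jM from RingHom.ext cML] at p
    exact (gL u).2 ⟨p, un Q o.1 u (lM p) i⟩).1 _ b _ bL hb hbL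
  have vN := (di K M₃ N ι J Ω hB jN fun Q o u p i => by
    rw [show jN.comp (algebraMap M₃ N) = j₃ from RingHom.ext cMN] at p
    exact (gN u).2 ⟨p, un Q o.1 u (l3' p) i⟩).1 _ b₃ _ bN hb₃ hbN
  obtain ⟨χ₃, hχ₃⟩ := (ic M₃ j₃ _ _ (gc L3)).1
  rw [vL, dL, l2 K M L ι J Ω hB jM jL c k e cML LM gL χ η hχ hη s h e' lam h0 (by omega) hl,
    show sc Ω _ (finrank K L) _ = _ from eL ▸ sc_pow (norm_nonneg _) n _ _] at r1
  rw [vN, dN, l2 K M₃ N ι J Ω hB j₃ jN c k e cMN L3 gN χ₃ η₃ hχ₃ hη₃ s h e' lam h0 (by omega) hl,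
    show sc Ω _ (finrank K N) _ = _ from eN ▸ sc_pow (norm_nonneg _) n₃ _ _,
    Finset.prod_congr rfl fun i _ => (l3 K M M₃ ι J Ω hB jM j₃ _ (k + 1) e₃ hC.c3 (gc LM) hC.add
      (fun u => by
        rw [hC.g3]
        exact ⟨fun w => have q := (hC.gM u).2 ⟨w.1, by rw [w.2, one_pow]⟩
          ⟨q, (hC.ker u q).2 w.2⟩, fun w => ⟨lM w.1, (hC.ker u w.1).1 w.2⟩⟩)
      ⟨g, gM, mt (hC.ker g gM).1 gn⟩ χ χ₃ ψ hχ hχ₃ hψ s h e' (2 * i) lam h0 (by omega) hl).trans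
      (mul_assoc _ _ _), Finset.prod_mul_distrib, map_mul, norm_mul] at r2
  refine (ineq (norm_nonneg _) r1 r2 w2 w3).trans_eq ?_
  rw [map_prod, norm_prod]
  simp only [map_mul, norm_mul, dv]

end Vale.Agent.P004C.Al
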