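import Vale.Agent.P004C.Al.Aux0

/-!
# P004 C, block AL: the auxiliary prime from ray class characters
-/

set_option linter.all false

noncomputable section

namespace Vale.Agent.P004C.Al.Kn

open NumberField IsDedekindDomain Module Ideal
open Vale.Agent.P022 Vale.Agent.P022.C Vale.Agent.P022.H916
open Vale.Agent.P027M.S (Pr Inert)
open Vale.Agent.P022D.Sel (ov)
open Vale.Agent.P022E.GW (Ov)

/-- the existence theorem -/
def EXT : Prop := ∀ (K : Type) [Field K] [NumberField K] [IsEmpty (K →+* ℝ)] (j : K →+* Qb) (C : ℕ)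
  (c : Ideal (𝓞 K)) (ψ : Ideal (𝓞 K) → ZMod (2 ^ C)) (Q : Finset ℕ),
  (∀ q ∈ Q, q.Prime ∧ q ≠ 2 ∧ span {(q : 𝓞 K)} ⊔ c = ⊤) → c ≠ ⊥ →
  (∀ I I', I ≠ ⊥ → I' ≠ ⊥ → I ⊔ c = ⊤ → I' ⊔ c = ⊤ → ψ (I * I') = ψ I + ψ I') →
  (∀ x, x ≠ 0 → x - 1 ∈ c → ψ (span {x}) = 0) →
  ∃ θ : GK j →* Multiplicative (ZMod (2 ^ C)), IsOpen {g | θ g = 1} ∧ ∃ A : Finset ℕ,
    (∀ l ∈ A, l.Prime) ∧ Disjoint A Q ∧ (∀ l ∉ A, ∀ P, Ov l P → ∀ g : GK j, Inert P g → θ g = 1) ∧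
    ∀ v ∉ ov K A, ∀ P g, FrI j v P g → (θ g).toAdd = ψ v.asIdeal

variable {M : Type} [Field M] [NumberField M]

theorem cop_dvd {I : Ideal (𝓞 M)} {a b : 𝓞 M} (d : a ∣ b) (h : I ⊔ span {b} = ⊤) :
    I ⊔ span {a} = ⊤ :=
  top_unique (h ▸ sup_le_sup_left (span_singleton_le_span_singleton.2 d) _)

theorem nat_dvd {Q : Ideal (𝓞 M)} (hQ : Q.IsPrime) {p n : ℕ} (hp : p.Prime) (h : (p : 𝓞 M) ∈ Q)
    (h' : (n : 𝓞 M) ∈ Q) : p ∣ n := by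
  by_contra e
  obtain ⟨a, b, hab⟩ : IsCoprime (p : 𝓞 M) (n : 𝓞 M) := (hp.coprime_iff_not_dvd.2 e).cast
  exact hQ.one_notMem (hab ▸ Q.add_mem (Q.mul_mem_left a h) (Q.mul_mem_left b h'))

/-- **the auxiliary prime** -/
theorem ex_prime (hE : EXT) {K : Type} [Field K] [NumberField K] {ι : ℂ →+* ℂ_[2]} {J : K →+* ℂ}
    {Ω : ℝ} (hB : Base ι J Ω) [Algebra K M] {M2 : Type} [Field M2] [NumberField M2] [Algebra M M2]
    (h2 : finrank M M2 = 2) {j2 : M2 →+* Qb} (hr : ∃ l P g, l ≠ 2 ∧ Ov l P ∧ Inert P g ∧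
      g ∈ GK (j2.comp (algebraMap M M2)) ∧ g ∉ GK j2) : ∃ c : ℕ, ∀ (A m : ℕ) (κ : Type) [Finite κ]
    (ψ : κ → Ideal (𝓞 M) → ZMod (2 ^ A)),
    (∀ i I I', I ≠ ⊥ → I' ≠ ⊥ → I ⊔ span {2} = ⊤ → I' ⊔ span {2} = ⊤ →
      ψ i (I * I') = ψ i I + ψ i I') →
    (∀ i (x : 𝓞 M), x ≠ 0 → V1 ι J m (x : M) → span {x} ⊔ span {2} = ⊤ → ψ i (span {x}) = 0) →
    ∀ I : Ideal (𝓞 M), I ≠ ⊥ → I ⊔ span {2} = ⊤ →
    ∀ (lam : (𝓞 M)ˣ →* Multiplicative (ZMod (2 ^ A))) (S : Finset ℕ), ∃ W : Ideal (𝓞 M),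
      (absNorm W).Prime ∧ absNorm W ∉ S ∧ (W.map (algebraMap (𝓞 M) (𝓞 M2))).IsMaximal ∧
      (∀ i, ψ i W = 2 ^ c • ψ i I) ∧ ∃ δ : Mˣ →* Multiplicative (ZMod (2 ^ A)),
      (∀ (b : Mˣ) (x : 𝓞 M), (b : M) = x → x - 1 ∈ W → δ b = 1) ∧
      ∀ u : (𝓞 M)ˣ, δ (Units.map (algebraMap (𝓞 M) M : 𝓞 M →* M) u) = lam u ^ 2 ^ c := by
  classical
  obtain ⟨q, Q, g, q2, hQ, ig, g1, g2⟩ := hr
  obtain ⟨c, hc⟩ := core hB (j2.comp (algebraMap M M2))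
  refine ⟨c, fun A m κ _ ψ add prn I I0 I2 lam S => ?_⟩
  haveI : IsEmpty (M →+* ℝ) := ⟨fun f => hB.im.false (f.comp (algebraMap K M))⟩
  letI := Fintype.ofFinite κ
  have d2 : (2 : 𝓞 M) ∣ 2 ^ (m + 1) := dvd_pow_self 2 m.succ_ne_zero
  have N0 : absNorm I ≠ 0 := absNorm_eq_zero_iff.not.2 I0
  have hN : ∀ p ∈ insert q (absNorm I).primeFactors, p.Prime ∧ p ≠ 2 := fun p hp => by
    rcases Finset.mem_insert.1 hp with rfl | hp
    · exact ⟨hQ.1, q2⟩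
    · refine ⟨Nat.prime_of_mem_primeFactors hp, ?_⟩
      rintro rfl
      obtain ⟨P, p1, p2, p3⟩ := exists_isMaximal_dvd_of_dvd_absNorm Int.prime_two I
        (by exact_mod_cast Nat.dvd_of_mem_primeFactors hp)
      exact p1.ne_top (top_unique (I2 ▸ sup_le (dvd_iff_le.1 p3) ((span_singleton_le_iff_mem _).2
        (by simpa using mem_comap.1 (p2.ge (mem_span_singleton_self 2))))))
  choose θ opn B B1 B2 B3 B4 using fun i => hE M (j2.comp (algebraMap M M2)) A (span {2 ^ (m + 1)})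
    (ψ i) (insert q (absNorm I).primeFactors) (fun p hp => ⟨(hN p hp).1, (hN p hp).2,
      (sup_eq_top_iff_isCoprime _ _).2 (by
        exact_mod_cast (Nat.Coprime.cast (R := 𝓞 M) ((Nat.coprime_primes (hN p hp).1
          Nat.prime_two).2 (hN p hp).2)).pow_right (n := m + 1))⟩)
    (by simp) (fun I I' a b c d => add i I I' a b (cop_dvd d2 c) (cop_dvd d2 d)) fun x a b => by
      obtain ⟨y, hy⟩ := mem_span_singleton.1 b
      refine prn i x a (Gx.v1_mono m.le_succ (Gx.v1_iff.2 ⟨y, Gx.int_Ov y, ?_⟩))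
        ((sup_eq_top_iff_isCoprime _ _).2 ⟨1, -(2 ^ m * y), by linear_combination hy⟩)
      have := congrArg (algebraMap (𝓞 M) M) (eq_add_of_sub_eq' hy)
      rwa [map_add, map_mul, map_pow, map_one, map_ofNat] at this
  have t2 : (2 : 𝓞 M) ∣ (2 * ∏ i, ∏ l ∈ B i, l : ℕ) := by
    rw [Nat.cast_mul]; exact dvd_mul_right _ _
  have T0 : 2 * ∏ i, ∏ l ∈ B i, l ≠ 0 := mul_ne_zero two_ne_zero (Finset.prod_ne_zero_iff.2
    fun i _ => Finset.prod_ne_zero_iff.2 fun l hl => (B1 i l hl).ne_zero)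
  obtain ⟨y, hy⟩ : ∃ y : 𝓞 M2,
      g • RingOfIntegers.mapRingHom j2 y - RingOfIntegers.mapRingHom j2 y ≠ 0 := by
    by_contra! k
    refine g2 fun x => ?_
    obtain ⟨a, b, -, rfl⟩ := IsFractionRing.div_surjective (A := 𝓞 M2) x
    have e : ∀ a : 𝓞 M2, g (j2 (algebraMap _ M2 a)) = j2 (algebraMap _ M2 a) := fun a =>
      congrArg (fun z : 𝓞 Qb => (z : Qb)) (sub_eq_zero.1 (k a))
    rw [map_div₀, map_div₀, e, e]
  obtain ⟨r, r1, r0⟩ := Submodule.exists_mem_ne_zero_of_ne_bot (comap_ne_bot_of_integral_mem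
    (R := ℤ) hy (mem_span_singleton_self _) (Algebra.IsIntegral.isIntegral _))
  obtain ⟨l, P, φ, h, δ, hP, lS, nl, fb, u, k1, k2, k3⟩ := hc A m _ κ θ ψ T0 (dvd_mul_right _ _) opn
    (fun i I I' a b c d => add i I I' a b (cop_dvd t2 c) (cop_dvd t2 d))
    (fun i v hv => B4 i v fun ⟨l, hl, _, k⟩ => hv (v.asIdeal.mem_of_dvd (Nat.cast_dvd_cast
      (((Finset.dvd_prod_of_mem (fun l => l) hl).trans (Finset.dvd_prod_of_mem
        (fun i => ∏ l ∈ B i, l) (Finset.mem_univ i))).mul_left _)) k))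
    (fun i x a b c => prn i x a b (cop_dvd t2 c)) I I0 (cop_of (fun P p1 p2 p hp d k => by
      simp only [hp.dvd_mul, hp.prime.dvd_finsetProd_iff] at d
      rcases d with d | ⟨i, -, l, hl, d⟩
      · obtain rfl := (Nat.prime_dvd_prime_iff_eq hp Nat.prime_two).1 d
        exact p1.ne_top (top_unique (I2 ▸ sup_le p2 ((span_singleton_le_iff_mem _).2 k)))
      · obtain rfl := (Nat.prime_dvd_prime_iff_eq hp (B1 i l hl)).1 d
        exact Finset.disjoint_left.1 (B2 i) hl (Finset.mem_insert_of_mem (Nat.mem_primeFactors.2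
          ⟨hp, nat_dvd p1 hp k (p2 (absNorm_mem I)), N0⟩))) T0)
    lam q Q ⟨g, g1⟩ hQ q2 ig (fun i => B3 i q (Finset.disjoint_right.1 (B2 i)
      (Finset.mem_insert_self _ _)) Q hQ _ ig) (GK j2) (isOpen_GK j2) (S ∪ r.natAbs.primeFactors)
  rw [Finset.mem_union, not_or] at lS
  refine ⟨_, nl ▸ hP.1, nl ▸ lS.1, inert h2 (fun _ => rfl) hP.2.1 hP.1 nl fb (y := y)
    fun k => lS.2 ?_, k1, δ, k2, k3⟩
  rw [← mul_inv_cancel_left (g * h.1 ^ 2) φ, mul_assoc, mul_smul, P022K.GW.Pl.fix_int j2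
    (mul_mem (sq_mem h2 (fun _ => rfl) h) u)] at k
  exact Nat.mem_primeFactors.2 ⟨hP.1, Int.natCast_dvd.1 (H20.dvd_of_mem hP.1 hP.2.1 hP.2.2
    ((span_singleton_le_iff_mem _).2 k r1)), Int.natAbs_ne_zero.2 r0⟩

end Vale.Agent.P004C.Al.Kn
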