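import Vale.Agent.P004C.Al.Gb0
import Mathlib.Algebra.Module.Lattice
import Mathlib.NumberTheory.NumberField.ClassNumber
import Mathlib.NumberTheory.NumberField.Units.DirichletTheorem
import Mathlib.NumberTheory.NumberField.InfinitePlace.TotallyRealComplex

/-!
# P004 C, block AL: existence of the bases `Gb`, `Vb` and of the representatives `Rp`
-/

set_option linter.unusedSectionVars false

open NumberField Module IsDedekindDomain Function
open scoped Classical nonZeroDivisors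

noncomputable section

namespace Vale.Agent.P004C.Al.Gx

/-- a subgroup without torsion which is commensurable with a free group is free -/
theorem free_add {G κ κ' : Type} [AddCommGroup G] [Fintype κ] [Fintype κ'] (E : AddSubgroup G)
    (φ : κ → G) (li : ∀ c : κ → ℤ, ∑ j, c j • φ j = 0 → c = 0) {N : ℕ} (N0 : N ≠ 0)
    (h1 : ∀ j, N • φ j ∈ E) (h2 : ∀ x ∈ E, ∃ c : κ → ℤ, N • x = ∑ j, c j • φ j)
    (tf : ∀ x ∈ E, ∀ k : ℕ, k ≠ 0 → k • x = 0 → x = 0) (hc : Fintype.card κ = Fintype.card κ') :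
    ∃ γ : κ' → G, (∀ x, x ∈ E ↔ ∃ c : κ' → ℤ, x = ∑ j, c j • γ j) ∧
      ∀ c : κ' → ℤ, ∑ j, c j • γ j = 0 → c = 0 := by
  let b := Basis.span (Fintype.linearIndependent_iff.2 fun c h => congrFun (li c h))
  have := Module.Finite.of_basis b
  have := Module.Free.of_basis b
  let f : E.toIntSubmodule →ₗ[ℤ] Submodule.span ℤ (Set.range φ) :=
    (N • LinearMap.id (R := ℤ) (M := G)).restrict fun x hx =>
      (Submodule.mem_span_range_iff_exists_fun ℤ).2 ((h2 x hx).imp fun _ => Eq.symm)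
  have fi : Injective f := (injective_iff_map_eq_zero f).2 fun x h =>
    Subtype.ext (tf x x.2 N N0 (congrArg Subtype.val h))
  let g : Submodule.span ℤ (Set.range φ) →ₗ[ℤ] E.toIntSubmodule :=
    (N • LinearMap.id (R := ℤ) (M := G)).restrict fun x hx =>
      (Submodule.span_le (p := E.toIntSubmodule.comap _)).2 (Set.range_subset_iff.2 h1) hx
  have gi : Injective g := (injective_iff_map_eq_zero g).2 fun x h =>
    (smul_eq_zero (r := (N : ℤ))).1 (Subtype.ext (by simpa [g] using congrArg Subtype.val h))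
      |>.resolve_left (by simpa using N0)
  have := Module.Finite.of_injective f fi
  have := fi.moduleIsTorsionFree f (map_smul f)
  let c := (finBasisOfFinrankEq ℤ E.toIntSubmodule (n := Fintype.card κ')
    (((LinearMap.finrank_le_finrank_of_injective fi).antisymm
      (LinearMap.finrank_le_finrank_of_injective gi)).trans
        ((finrank_eq_card_basis b).trans hc))).reindex (Fintype.equivFin κ').symm
  refine ⟨fun j => c j, fun x => ⟨fun h => ⟨c.repr ⟨x, h⟩, ?_⟩, ?_⟩, fun d h => funext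
    (Fintype.linearIndependent_iff.1 c.linearIndependent d (Subtype.ext (by simpa using h)))⟩
  · exact (congrArg Subtype.val (c.sum_repr ⟨x, h⟩).symm).trans (Submodule.coe_sum _ _ _)
  · rintro ⟨d, rfl⟩
    exact sum_mem fun j _ => zsmul_mem (c j).2 _

theorem free_mul {G κ κ' : Type} [CommGroup G] [Fintype κ] [Fintype κ'] (E : Subgroup G)
    (φ : κ → G) (li : ∀ c : κ → ℤ, ∏ j, φ j ^ c j = 1 → c = 0) {N : ℕ} (N0 : N ≠ 0)
    (h1 : ∀ j, φ j ^ N ∈ E) (h2 : ∀ x ∈ E, ∃ c : κ → ℤ, x ^ N = ∏ j, φ j ^ c j)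
    (tf : ∀ x ∈ E, ∀ k : ℕ, k ≠ 0 → x ^ k = 1 → x = 1) (hc : Fintype.card κ = Fintype.card κ') :
    ∃ γ : κ' → G, (∀ x, x ∈ E ↔ ∃ c : κ' → ℤ, x = ∏ j, γ j ^ c j) ∧
      ∀ c : κ' → ℤ, ∏ j, γ j ^ c j = 1 → c = 0 :=
  free_add (G := Additive G) E.toAddSubgroup φ li N0 h1 h2 tf hc

/-- representatives of an equivalence relation with a finite invariant -/
theorem rep_of {α β : Type} [Finite β] {p : α → Prop} {r : α → α → Prop} (r1 : ∀ a, r a a)
    (r2 : ∀ a b, r a b → r b a) (r3 : ∀ a b c, p b → r a b → r b c → r a c) (F : α → β)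
    (hF : ∀ a b, p a → p b → F a = F b → r a b) :
    ∃ R : Finset α, (∀ a ∈ R, p a) ∧ ∀ a, p a → ∃! b, b ∈ R ∧ r a b := by
  let s : Setoid (Subtype p) :=
    ⟨fun a b => r a b, fun a => r1 a, fun h => r2 _ _ h, fun {_ b _} => r3 _ _ _ b.2⟩
  have : Finite (Quotient s) := Finite.of_injective (fun q => F q.out.1) fun q q' h =>
    Quotient.out_equiv_out.1 (hF _ _ q.out.2 q'.out.2 h)
  have := Fintype.ofFinite (Quotient s)
  refine ⟨Finset.univ.image fun q : Quotient s => q.out.1, fun a h => ?_, fun a h =>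
    ⟨(Quotient.mk s ⟨a, h⟩).out.1, ⟨Finset.mem_image_of_mem _ (Finset.mem_univ _),
      r2 _ _ (Quotient.mk_out (s := s) ⟨a, h⟩)⟩, fun b ⟨k, e⟩ => ?_⟩⟩
  · obtain ⟨q, -, rfl⟩ := Finset.mem_image.1 h
    exact q.out.2
  · obtain ⟨q, -, rfl⟩ := Finset.mem_image.1 k
    rw [Quotient.mk_eq_iff_out.2 (show s ⟨a, h⟩ q.out from e)]

theorem ex_C {R : Type} [CommRing R] [IsDedekindDomain R] {T : Ideal R} (hT : T ≠ 0) :
    ∃ (c : Ideal R → ClassGroup R) (C : ClassGroup R → Ideal R) (a : Ideal R → R),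
      (∀ x, C x ⊔ T = ⊤) ∧ ∀ I, I ≠ ⊥ → I * C (c I) = Ideal.span {a I} := by
  have k : ∀ c : ClassGroup R, ∃ C, C ⊔ T = ⊤ ∧
      ∀ I : (Ideal R)⁰, ClassGroup.mk0 I = c → ∃ a, I.1 * C = Ideal.span {a} := fun c => by
    obtain ⟨B, rfl⟩ := ClassGroup.mk0_surjective c
    have hB := nonZeroDivisors.ne_zero B.2
    obtain ⟨a, e⟩ := IsDedekindDomain.exists_sup_span_eq (I := B.1 * T) (J := B.1)
      Ideal.mul_le_left (mul_ne_zero hB hT)
    obtain ⟨C, hC⟩ : B.1 ∣ Ideal.span {a} := Ideal.dvd_iff_le.2 (le_sup_right.trans e.le)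
    rw [hC, ← Ideal.mul_sup] at e
    refine ⟨C, by rw [sup_comm, mul_left_cancel₀ hB (e.trans (mul_one B.1).symm),
      Ideal.one_eq_top], fun I h => ?_⟩
    obtain ⟨x, y, hx, -, k⟩ := ClassGroup.mk0_eq_mk0_iff.1 h
    have k' : Ideal.span {x} * (I.1 * C) = Ideal.span {y * a} := by
      rw [← mul_assoc, k, mul_assoc, ← hC, Ideal.span_singleton_mul_span_singleton]
    obtain ⟨z, hz⟩ := Ideal.span_singleton_le_span_singleton.1 (k'.ge.trans Ideal.mul_le_left)
    rw [hz, ← Ideal.span_singleton_mul_span_singleton] at k'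
    exact ⟨z, mul_left_cancel₀ (by simpa using hx) k'⟩
  choose C C2 hC using k
  choose a ha using fun I => hC _ I rfl
  exact ⟨fun I => if h : I ∈ (Ideal R)⁰ then ClassGroup.mk0 ⟨I, h⟩ else 1, C,
    fun I => if h : I ∈ (Ideal R)⁰ then a ⟨I, h⟩ else 1, C2, fun I n => by
      simpa only [dif_pos (mem_nonZeroDivisors_of_ne_zero n)] using ha ⟨I, _⟩⟩

theorem ex_pow (R : Type) [CommRing R] [IsDedekindDomain R] [Finite (ClassGroup R)] :
    ∃ h : ℕ, h ≠ 0 ∧ ∀ I : Ideal R, I ≠ ⊥ → ∃ π, I ^ h = Ideal.span {π} :=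
  ⟨Nat.card (ClassGroup R), Nat.card_pos.ne', fun I n => by
    have := map_pow ClassGroup.mk0 ⟨I, mem_nonZeroDivisors_of_ne_zero n⟩ (Nat.card (ClassGroup R))
    rw [pow_card_eq_one'] at this
    exact ((ClassGroup.mk0_eq_one_iff _).1 this).1⟩

variable {K : Type} [Field K] [NumberField K] {ι : ℂ →+* ℂ_[2]} {J : K →+* ℂ}
  {M : Type} [Field M] [NumberField M] [Algebra K M] {m n r : ℕ}
  {W : Fin (r + 1) → Ideal (𝓞 M)}

theorem fin_two (m : ℕ) : Finite (𝓞 M ⧸ Ideal.span {(2 : 𝓞 M) ^ m}) :=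
  Ideal.finiteQuotientOfFreeOfNeBot _ (by simp)

theorem v1_div {a b : 𝓞 M} (h : Ideal.span {b} ⊔ Ideal.span {2} = ⊤)
    (e : a - b ∈ Ideal.span {(2 : 𝓞 M) ^ m}) : b ≠ 0 ∧ V1 ι J m ((a : M) / b) := by
  obtain ⟨n, k⟩ := inv_Ov (pv_two (ι := ι) (J := J) h)
  obtain ⟨d, hd⟩ := Ideal.mem_span_singleton'.1 e
  have e' : (d : M) * 2 ^ m = a - b := congrArg (fun z : 𝓞 M => (z : M)) hd
  have n' := RingOfIntegers.coe_ne_zero_iff.2 n
  exact ⟨n, v1_iff.2 ⟨d * (b : M)⁻¹, mul_mem (int_Ov d) k, by field_simp; linear_combination -e'⟩⟩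

/-- a uniform power of the integers prime to `2` is `1` modulo `v ^ m` -/
theorem pow_v1 (m : ℕ) : ∃ N : ℕ, N ≠ 0 ∧ ∀ a : 𝓞 M, Ideal.span {a} ⊔ Ideal.span {2} = ⊤ →
    V1 ι J m ((a : M) ^ N) := by
  have := fin_two (M := M) m
  refine ⟨Nat.card (𝓞 M ⧸ Ideal.span {(2 : 𝓞 M) ^ m})ˣ, Nat.card_pos.ne', fun a h => ?_⟩
  obtain ⟨u, v, e⟩ := ((Ideal.sup_eq_top_iff_isCoprime a 2).1 h).pow_right (n := m)
  obtain ⟨w, hw⟩ := IsUnit.of_mul_eq_one_right (Ideal.Quotient.mk (Ideal.span {(2 : 𝓞 M) ^ m}) u)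
    (b := Ideal.Quotient.mk _ a) (Ideal.Quotient.eq.2 (Ideal.mem_span_singleton'.2
      ⟨-v, by linear_combination -e⟩) : Ideal.Quotient.mk _ (u * a) = Ideal.Quotient.mk _ 1)
  exact div_one ((a : M) ^ _) ▸ (v1_div (a := a ^ _) (b := 1) (by simp) (Ideal.Quotient.eq.1
    (by rw [map_pow, ← hw, ← Units.val_pow_eq_pow_val, pow_card_eq_one', map_one]; rfl))).2

/-- representatives of the ray classes -/
theorem rp_ex (hm : 1 ≤ m) {t : 𝓞 M} (t2 : 2 ∣ t) : ∃ R, Rp ι J W m t R := by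
  have := fin_two (M := M) m
  obtain ⟨c, C, a, C2, ha⟩ := ex_C (show Ideal.span {(2 : 𝓞 M)} ≠ 0 by simp)
  have k : ∀ I, I ≠ ⊥ → I ⊔ Ideal.span {t} = ⊤ → Ideal.span {a I} ⊔ Ideal.span {2} = ⊤ :=
    fun I n h => by
      rw [← ha I n, ← Ideal.isCoprime_iff_sup_eq, IsCoprime.mul_left_iff,
        Ideal.isCoprime_iff_sup_eq, Ideal.isCoprime_iff_sup_eq]
      exact ⟨top_unique (h ▸ sup_le_sup_left (Ideal.span_singleton_le_span_singleton.2 t2) _),
        C2 _⟩
  obtain ⟨R, h1, h2⟩ := rep_of (p := fun I : Ideal (𝓞 M) => I ≠ ⊥ ∧ I ⊔ Ideal.span {t} = ⊤ ∧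
    ∀ i, I ⊔ W i = ⊤) (r := fun I I' => ∃ x, Ev ι J W m I I' x) (fun I => ⟨_, ev_refl I⟩)
    (fun _ _ ⟨_, h⟩ => ⟨_, ev_symm hm h⟩) (fun _ _ _ p ⟨_, h⟩ ⟨_, k⟩ => ⟨_, ev_trans p.1 h k⟩)
    (fun I => (c I, Ideal.Quotient.mk (Ideal.span {(2 : 𝓞 M) ^ m}) (a I)))
    fun I I' p p' h => by
      obtain ⟨e1, e2⟩ := Prod.mk.inj h
      obtain ⟨n, v⟩ := v1_div (ι := ι) (J := J) (k _ p'.1 p'.2.1) (Ideal.Quotient.eq.1 e2)
      refine ⟨_, v, _, _, 0, 0, (inv_Ov (pv_two (ι := ι) (J := J) (k _ p.1 p.2.1))).1, n,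
        div_mul_cancel₀ _ (RingOfIntegers.coe_ne_zero_iff.2 n), ?_⟩
      rw [← ha I p.1, ← ha I' p'.1, e1]
      ring
  exact ⟨R, h1, fun I a b c => h2 I ⟨a, b, c⟩⟩

/-- a basis of the elements which are integral above `v` -/
theorem vb_ex (hn : finrank K M = n) : ∃ b : Basis (Fin n) K M, Vb ι J b := by
  let v : HeightOneSpectrum (𝓞 K) := ⟨vv ι J, vv_prime, fun h =>
    two_ne_zero (Ideal.mem_bot.1 (h.le two_vv))⟩
  let O := v.valuationSubringAtPrime K
  have hO : ∀ c : K, c ∈ O ↔ ‖ι (J c)‖ ≤ 1 := fun c => ⟨fun ⟨a, s, hs, e⟩ => by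
      simpa [e, not_vv.1 hs] using nm_le a, fun h => (O.mem_or_inv_mem c).elim id
    fun ⟨a, s, hs, e⟩ => by
      have e' : c = s * (a : K)⁻¹ := by rw [← inv_inv c, e]; simp
      rcases eq_or_ne c 0 with rfl | n
      · exact zero_mem _
      refine ⟨s, a, not_vv.2 ((nm_le a).antisymm ?_), e'⟩
      have a0 : (a : K) ≠ 0 := fun k => n (by simp [e', k])
      simpa [e', not_vv.1 hs, inv_le_one₀ (norm_pos_iff.2 ((map_ne_zero ι).2
        ((map_ne_zero J).2 a0)))] using h⟩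
  let L := Submodule.span O (Set.range (integralBasis M))
  have hL : ∀ x : M, x ∈ L ↔ Vi ι J x := fun x => ⟨fun h => by
      refine Submodule.span_induction (p := fun x _ => x ∈ Ov ι J M) ?_ (zero_mem _)
        (fun _ _ _ _ => add_mem) (fun ⟨c, a, s, hs, e⟩ x _ k => ?_) h
      · rintro _ ⟨i, rfl⟩
        exact integralBasis_apply M i ▸ int_Ov _
      · refine (Algebra.smul_def c x).symm ▸ mul_mem ⟨s, not_vv.1 hs, ?_⟩ k
        rw [e, map_mul, map_inv₀, mul_left_comm, mul_inv_cancel₀ (ne_of (not_vv.1 hs)), mul_one]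
        exact int_s a, fun ⟨s, hs, h⟩ => by
      have := L.smul_mem ⟨_, 1, s, not_vv.2 hs, rfl⟩ (Submodule.span_le_restrictScalars ℤ O _
        ((mem_span_integralBasis M).2 ⟨⟨_, h⟩, rfl⟩))
      convert this using 1
      show x = (algebraMap (𝓞 K) K 1 * (s : K)⁻¹) • (algebraMap K M s * x)
      rw [map_one, one_mul, Algebra.smul_def, map_inv₀, inv_mul_cancel_left₀ (ne_of hs)]⟩
  have : L.IsLattice K := ⟨Submodule.fg_span (Set.finite_range _), top_unique fun x _ =>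
    Submodule.span_mono Submodule.subset_span (Submodule.span_le_restrictScalars ℚ K _
      ((integralBasis M).mem_span x))⟩
  let b := finBasisOfFinrankEq O L (n := n)
    ((congrArg Cardinal.toNat (Submodule.IsLattice.rank' K L)).trans hn)
  refine ⟨b.extendOfIsLattice K, fun x => ?_⟩
  have e : Submodule.span O (Set.range (b.extendOfIsLattice K)) = L := by
    rw [show ⇑(b.extendOfIsLattice K) = L.subtype ∘ b from funext (b.extendOfIsLattice_apply K),
      Set.range_comp, ← Submodule.map_span, b.span_eq, Submodule.map_subtype_top]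
  rw [← hL, ← SetLike.ext_iff.1 e, Basis.mem_span_iff_repr_mem]
  exact forall_congr' fun i => ⟨fun ⟨c, h⟩ => (hO _).1 (h ▸ c.2), fun h => ⟨⟨_, (hO _).2 h⟩, rfl⟩⟩

theorem rank_eq {Ω : ℝ} (B : Base ι J Ω) (hn : finrank K M = n) : Units.rank M + 1 = n := by
  have : IsTotallyComplex M := ⟨fun w => InfinitePlace.not_isReal_iff_isComplex.1 fun h =>
    B.im.false ((InfinitePlace.embedding_of_isReal h).comp (algebraMap K M))⟩
  have h1 := IsTotallyComplex.finrank M
  have h2 := InfinitePlace.card_eq_nrRealPlaces_add_nrComplexPlaces M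
  have h3 : 0 < Fintype.card (InfinitePlace M) := Fintype.card_pos
  rw [← finrank_mul_finrank ℚ K M, B.two, hn] at h1
  rw [IsTotallyComplex.nrRealPlaces_eq_zero M] at h2
  rw [Units.rank]
  omega

/-- a basis of the `W`-units which are `1` modulo `v ^ m` -/
theorem gb_ex {Ω : ℝ} (B : Base ι J Ω) (hn : finrank K M = n) (W1 : ∀ i, (W i).IsMaximal)
    (W2 : Injective W) (W3 : ∀ i, 2 ∉ W i) (hm : 2 ≤ m) :
    ∃ γ : Fin n ⊕ Fin r → M, Gb ι J W m γ := by
  have m1 : 1 ≤ m := by omega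
  have W0 : ∀ i, W i ≠ ⊥ := fun i => Ring.ne_bot_of_isMaximal_of_not_isField (W1 i)
    (RingOfIntegers.not_isField M)
  obtain ⟨h, h0, hπ⟩ := ex_pow (𝓞 M)
  choose π hπ using fun i => hπ _ (W0 i)
  have π0 : ∀ i, π i ≠ 0 := fun i e => pow_ne_zero h (W0 i) (by simp [hπ, e])
  have πm : ∀ i j, π i ∈ W j ↔ i = j := fun i j => by
    rw [← Ideal.span_singleton_le_iff_mem, ← hπ, (W1 j).isPrime.pow_le_iff h0]
    exact ⟨fun e => W2 ((W1 i).eq_of_le (W1 j).ne_top e), fun e => e ▸ le_rfl⟩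
  obtain ⟨N, N0, hN⟩ := pow_v1 (ι := ι) (J := J) (M := M) m
  let U : (𝓞 M)ˣ →* Mˣ := Units.map (algebraMap (𝓞 M) M)
  let P : Fin (r + 1) → Mˣ := fun i => Units.mk0 (π i) (RingOfIntegers.coe_ne_zero_iff.2 (π0 i))
  refine (free_mul (κ' := Fin n ⊕ Fin r)
    { carrier := {x : Mˣ | Ev ι J W m 1 1 (x : M)}
      mul_mem' := fun a b => by simpa using ev_mul a b
      one_mem' := ev_refl 1
      inv_mem' := fun a => by simpa using ev_symm m1 a }
    (Sum.elim (fun i => U (Units.fundSystem M i)) P) (fun c e => ?_)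
    (N := N * (h * Units.torsionOrder M))
    (mul_ne_zero N0 (mul_ne_zero h0 (Units.torsionOrder_ne_zero M))) ?_ ?_
    (fun x hx k k0 e => Units.ext (v1_tf hm k0 hx.1 (by simpa using congrArg Units.val e)))
    (by simp [← rank_eq B hn]; omega)).elim fun γ ⟨g1, g2⟩ =>
      ⟨fun j => γ j, fun x => ⟨fun h => ?_, ?_⟩, fun c h => g2 c (Units.ext (by simpa using h))⟩
  · rw [Fintype.prod_sum_type] at e
    have hv : ∀ i, c (.inr i) = 0 := fun i => by
      let v := (⟨W i, (W1 i).isPrime, W0 i⟩ : HeightOneSpectrum (𝓞 M)).valuation M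
      have k : ∀ a : 𝓞 M, v a = 1 ↔ a ∉ W i := fun a =>
        HeightOneSpectrum.valuation_eq_one_iff_notMem _
      have := congrArg (fun x : Mˣ => v x) e
      simp only [Sum.elim_inl, Sum.elim_inr, Units.val_mul, Units.coe_prod, Units.val_one, map_mul,
        map_prod, map_one, Units.val_zpow_eq_zpow_val, map_zpow₀] at this
      rw [Finset.prod_eq_one fun j _ => by
          rw [show v (U _) = 1 from (k _).2 (Ideal.notMem_of_isUnit _ (Units.isUnit _)), one_zpow],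
        one_mul, Finset.prod_eq_single i (fun j _ n => by
          rw [show v (P j) = 1 from (k _).2 (mt (πm j i).1 n), one_zpow]) (by simp)] at this
      exact (zpow_eq_one_iff_right₀ zero_le (mt (k _).1 (not_not.2 ((πm i i).2 rfl)))).1 this
    simp only [hv, zpow_zero, Finset.prod_const_one, mul_one, Sum.elim_inl, ← map_zpow,
      ← map_prod] at e
    have e' := Units.map_injective (f := (algebraMap (𝓞 M) M : 𝓞 M →* M))
      (RingOfIntegers.coe_injective) (e.trans (map_one U).symm)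
    have := (Units.fun_eq_repr M (one_mem _) (e'.symm.trans (one_mul _).symm)).trans
      (Units.fun_eq_repr M (x := 1) (f := 0) (one_mem _) (by simp)).symm
    funext j
    rcases j with j | j
    exacts [congrFun this j, hv j]
  · have k : ∀ (a : 𝓞 M) (e : Fin (r + 1) → ℕ), a ≠ 0 → ∏ i, W i ^ e i = Ideal.span {a} →
        Ev ι J W m 1 1 ((a : M) ^ (N * (h * Units.torsionOrder M))) := fun a e a0 he => by
      refine ⟨pow_mul (a : M) N _ ▸ v1_pow (hN a ?_) _, a ^ _, 1,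
        (N * (h * Units.torsionOrder M)) • e, 0, pow_ne_zero _ a0, one_ne_zero, mul_one _, ?_⟩
      · rw [← he, ← Ideal.isCoprime_iff_sup_eq]
        exact IsCoprime.prod_left fun i _ => (Ideal.isCoprime_iff_sup_eq.2 ((W1 i).out.2 _
          (left_lt_sup.2 (mt (Ideal.span_singleton_le_iff_mem _).1 (W3 i))))).pow_left
      · simp [← Ideal.span_singleton_pow, ← he, ← Finset.prod_pow, ← pow_mul, mul_comm,
          Ideal.top_pow]
    rintro (i | i)
    · exact k (Units.fundSystem M i) 0 (Units.ne_zero _)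
        (by simp [Ideal.top_pow, Ideal.span_singleton_eq_top.2 (Units.isUnit _)])
    · exact k (π i) (Pi.single i h) (π0 i) (by
        rw [Finset.prod_eq_single i (fun j _ n => by simp [n]) (by simp), Pi.single_eq_same, hπ])
  · rintro x ⟨-, y, z, e, e', y0, z0, e1, e2⟩
    have e3 := congrArg (· ^ h) e2
    simp only [mul_one, mul_pow, ← Finset.prod_pow, pow_right_comm _ _ h, hπ,
      Ideal.span_singleton_pow, Ideal.prod_span_singleton,
      Ideal.span_singleton_mul_span_singleton, Ideal.span_singleton_eq_span_singleton] at e3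
    obtain ⟨u, hu⟩ := e3.symm
    obtain ⟨⟨ζ, c⟩, hc, -⟩ := Units.exist_unique_eq_mul_prod M u
    have e4 : x ^ h * (∏ i, P i ^ e' i) * U u = ∏ i, P i ^ e i := Units.ext (mul_left_cancel₀
      (pow_ne_zero h (RingOfIntegers.coe_ne_zero_iff.2 z0)) (by
        have := congrArg (algebraMap (𝓞 M) M) hu
        simp only [map_mul, map_pow, map_prod, ← show (x : M) * algebraMap _ _ z =
          algebraMap _ _ y from e1] at this
        simp only [Units.val_mul, Units.coe_prod, Units.val_pow_eq_pow_val]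
        refine Eq.trans ?_ this
        rw [mul_pow, mul_assoc, mul_left_comm, mul_assoc, mul_assoc]
        rfl))
    have e5 : U ζ ^ Units.torsionOrder M = 1 := by
      rw [← map_pow, ← Subgroup.coe_pow, Units.torsionOrder, pow_card_eq_one']
      exact map_one U
    refine ⟨Sum.elim (fun i => -c i * (N * Units.torsionOrder M : ℕ))
      fun i => (e i - e' i) * (N * Units.torsionOrder M : ℕ), ?_⟩
    rw [hc, map_mul, map_prod] at e4
    simp only [Fintype.prod_sum_type, Sum.elim_inl, Sum.elim_inr, zpow_mul, zpow_natCast,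
      Finset.prod_pow, ← mul_pow, zpow_neg, zpow_sub, ← map_zpow, Finset.prod_mul_distrib,
      Finset.prod_inv_distrib]
    rw [← eq_inv_mul_iff_mul_eq.2 (eq_mul_inv_iff_mul_eq.2 (Eq.trans (by ac_rfl) e4 :
      _ * (x ^ h * U ζ) * _ = _)), mul_pow, pow_mul' (U ζ), e5, one_pow, mul_one, ← pow_mul,
      mul_left_comm]
  · obtain ⟨c, e⟩ := (g1 (Units.mk0 x (v1_unit m1 h.1).1)).1 h
    exact ⟨c, by simpa using congrArg Units.val e⟩
  · rintro ⟨c, rfl⟩
    simpa using (g1 _).2 ⟨c, rfl⟩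

end Vale.Agent.P004C.Al.Gx
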