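import Vale.Agent.P004C.Al.St
import Vale.Agent.P004C.Al.Gbx

/-!
# P004 C, block AL: counting classes, linear algebra modulo a power of two
-/

set_option linter.all false

noncomputable section

namespace Vale.Agent.P004C.Al.Kn

open NumberField Module Ideal Matrix
open scoped Classical

theorem pick {α : Type} : ∀ {n : ℕ} (P : Fin n → α → Prop),
    (∀ j (S : Finset α), ∃ x ∉ S, P j x) → ∃ f, Function.Injective f ∧ ∀ j, P j (f j)
  | 0, _, _ => ⟨Fin.elim0, fun i => i.elim0, fun i => i.elim0⟩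
  | n + 1, P, h => by
    obtain ⟨f, a, b⟩ := pick (fun j => P j.succ) fun j => h j.succ
    obtain ⟨x, c, d⟩ := h 0 (Finset.univ.image f)
    exact ⟨Fin.cons x f, Fin.cons_injective_iff.2 ⟨by simpa using c, a⟩, Fin.cases d b⟩

/-- the number of classes -/
theorem card_dvd {X : Type} [CommMonoid X] (c : Con X) {p : X → Prop} (p1 : p 1)
    (pm : ∀ a b, p a → p b → p (a * b)) {R : Finset X} (hR : ∀ a ∈ R, p a)
    (ex : ∀ a, p a → ∃! b, b ∈ R ∧ c a b) (F : Finset X) {E : ℕ} (E0 : E ≠ 0)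
    (hE : ∀ a ∈ F, c (a ^ E) 1) (gen : ∀ a, p a → ∃ b ∈ Submonoid.closure (F : Set X), c a b) :
    R.card ∣ E ^ F.card := by
  let u : F → c.Quotientˣ := fun a => Units.ofPowEqOne (c.mk' a) E
    (by rw [← map_pow]; exact c.eq.2 (hE a a.2)) E0
  let D := Subgroup.closure (Finset.univ.image u : Set c.Quotientˣ)
  have D1 : ∀ g ∈ D, g ^ E = 1 := (Subgroup.closure_le
      (powMonoidHom E : c.Quotientˣ →* _).ker).2 fun g hg => by
    obtain ⟨a, -, rfl⟩ := Finset.mem_image.1 (show g ∈ Finset.univ.image u from hg)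
    exact show u a ^ E = 1 from Units.pow_ofPowEqOne _ _
  have D2 : ∀ a, p a → ∃ g ∈ D, g.1 = c.mk' a := fun a h => by
    obtain ⟨b, h1, h2⟩ := gen a h
    rw [show c.mk' a = c.mk' b from c.eq.2 h2]
    clear h2
    induction h1 using Submonoid.closure_induction with
    | mem x hx => exact ⟨u ⟨x, hx⟩, Subgroup.subset_closure (by simp), rfl⟩
    | one => exact ⟨1, one_mem _, rfl⟩
    | mul x y _ _ a b =>
      obtain ⟨g, g1, g2⟩ := a
      obtain ⟨k, k1, k2⟩ := b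
      exact ⟨g * k, mul_mem g1 k1, by rw [Units.val_mul, g2, k2, map_mul]⟩
  let T₀ : Submonoid c.Quotientˣ :=
    { carrier := {g | ∃ a, p a ∧ g.1 = c.mk' a}
      one_mem' := ⟨1, p1, rfl⟩
      mul_mem' := fun ⟨a, a1, a2⟩ ⟨b, b1, b2⟩ =>
        ⟨a * b, pm a b a1 b1, by rw [Units.val_mul, a2, b2, map_mul]⟩ }
  have le : ∀ g ∈ T₀, g ∈ D := fun g ⟨a, a1, a2⟩ => by
    obtain ⟨k, k1, k2⟩ := D2 a a1
    rwa [show g = k from Units.ext (a2.trans k2.symm)]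
  let T : Subgroup c.Quotientˣ := ⟨T₀, fun {g} hg => by
    obtain ⟨E, rfl⟩ := Nat.exists_eq_succ_of_ne_zero E0
    rw [inv_eq_of_mul_eq_one_left ((pow_succ g E).symm.trans (D1 g (le g hg)))]
    exact T₀.pow_mem hg E⟩
  have e : Units.val '' (T : Set c.Quotientˣ) = c.mk' '' R := by
    ext x
    constructor
    · rintro ⟨g, ⟨a, a1, a2⟩, rfl⟩
      obtain ⟨b, ⟨b1, b2⟩, -⟩ := ex a a1
      exact ⟨b, b1, (a2.trans (c.eq.2 b2)).symm⟩
    · rintro ⟨a, a1, rfl⟩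
      obtain ⟨k, -, k2⟩ := D2 a (hR a a1)
      exact ⟨k, ⟨a, hR a a1, k2⟩, k2⟩
  have := congrArg Set.ncard e
  rw [Set.ncard_image_of_injective _ Units.val_injective, Set.InjOn.ncard_image (f := c.mk')
    (fun a ha b hb k => (ex a (hR a ha)).unique ⟨ha, c.refl a⟩ ⟨hb, c.eq.1 k⟩),
    Set.ncard_coe_finset] at this
  rw [← this]
  refine (Subgroup.card_dvd_of_le (show T ≤ D from le)).trans
    ((card_dvd_exponent_pow_rank' D fun g => Subtype.ext (D1 g g.2)).trans (pow_dvd_pow _ ?_))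
  exact (Subgroup.rank_closure_finset_le_card _).trans (Finset.card_image_le.trans (by simp))

/-- linear algebra modulo `2 ^ B` -/
theorem lin_mod {a r c : ℕ} {M : Matrix (Fin a) (Fin (a + 1)) ℤ_[2]}
    {l u : Fin (r + 1) → Fin (a + 1) → ℤ_[2]}
    (h1 : ∀ i i', l i ⬝ᵥ u i' = if i = i' then 1 else 0)
    (h2 : ∀ y, (∀ i, l i ⬝ᵥ y = 0) → ∃ x, vecMul x M = 2 ^ c • y) {S : Type} [CommRing S]
    (ρ : ℤ_[2] →+* S) (hρ : Function.Surjective ρ) (y : Fin (a + 1) → S)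
    (h : ∀ i, ρ ∘ l i ⬝ᵥ y = 0) : ∃ x : Fin a → S, ∑ s, x s • ρ ∘ M s = 2 ^ c • y := by
  choose y' hy using fun i => hρ (y i)
  obtain rfl : ρ ∘ y' = y := funext hy
  obtain ⟨x, hx⟩ := h2 (y' - ∑ i, (l i ⬝ᵥ y') • u i) fun i => by
    simp [dotProduct_sum, h1]
  refine ⟨ρ ∘ x, funext fun i => ?_⟩
  have := congrArg ρ (congrFun hx i)
  simp only [Pi.smul_apply, Pi.sub_apply, Finset.sum_apply, map_nsmul, map_sub, map_sum,
    smul_eq_mul, map_mul, ρ.map_dotProduct, h, zero_mul, Finset.sum_const_zero, sub_zero] at this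
  simpa [vecMul, dotProduct] using this

variable {K : Type} [Field K] [NumberField K] {ι : ℂ →+* ℂ_[2]} {J : K →+* ℂ}
  {L : Type} [Field L] [NumberField L] [Algebra K L] {r m : ℕ} {W : Fin (r + 1) → Ideal (𝓞 L)}

theorem ev_bot (W0 : ∀ i, W i ≠ ⊥) {I I' : Ideal (𝓞 L)} {x : L} (h : Ev ι J W m I I' x) :
    I = ⊥ ↔ I' = ⊥ := by
  obtain ⟨-, y, z, e, e', y0, z0, -, k⟩ := h
  have n : ∀ e : Fin (r + 1) → ℕ, ∏ i, W i ^ e i ≠ ⊥ := fun e =>
    Finset.prod_ne_zero_iff.2 fun i _ => pow_ne_zero _ (W0 i)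
  have := congrArg (· = ⊥) k
  simpa only [mul_eq_bot, span_singleton_eq_bot, y0, z0, n, false_or, or_false, eq_iff_iff]
    using this

variable (ι J) in
/-- the congruence on the ideals -/
def cn (hm : 1 ≤ m) (W0 : ∀ i, W i ≠ ⊥) : Con (Ideal (𝓞 L)) where
  r I I' := ∃ x, Ev ι J W m I I' x
  iseqv := ⟨fun I => ⟨1, Gx.ev_refl I⟩, fun ⟨_, h⟩ => ⟨_, Gx.ev_symm hm h⟩,
    fun {a b c} ⟨_, h⟩ ⟨_, k⟩ => (em (b = ⊥)).elim
      (fun e => ⟨1, by rw [(ev_bot W0 h).2 e, (ev_bot W0 k).1 e]; exact Gx.ev_refl _⟩)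
      fun e => ⟨_, Gx.ev_trans e h k⟩⟩
  mul' := fun ⟨_, h⟩ ⟨_, k⟩ => ⟨_, Gx.ev_mul h k⟩

theorem pa {X A : Type} [CommMonoid X] [AddCommGroup A] {p : X → Prop} {f : X → A} (p1 : p 1)
    (pm : ∀ x y, p x → p y → p (x * y)) (fm : ∀ x y, p x → p y → f (x * y) = f x + f y) :
    (∀ x k, p x → p (x ^ k) ∧ f (x ^ k) = k • f x) ∧
      ∀ (κ : Type) [Fintype κ] (x : κ → X) (k : κ → ℕ), (∀ i, p (x i)) →
        p (∏ i, x i ^ k i) ∧ f (∏ i, x i ^ k i) = ∑ i, k i • f (x i) := by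
  have f1 : f 1 = 0 := by simpa using fm 1 1 p1 p1
  have a : ∀ x k, p x → p (x ^ k) ∧ f (x ^ k) = k • f x := fun x k h => by
    induction k with
    | zero => simpa using ⟨p1, f1⟩
    | succ k ih => rw [pow_succ, fm _ _ ih.1 h, ih.2, succ_nsmul]; exact ⟨pm _ _ ih.1 h, rfl⟩
  refine ⟨a, fun κ _ x k h => ?_⟩
  induction (Finset.univ : Finset κ) using Finset.induction_on with
  | empty => simpa using ⟨p1, f1⟩
  | insert i s hi ih =>
    rw [Finset.prod_insert hi, Finset.sum_insert hi, fm _ _ (a _ _ (h i)).1 ih.1, ih.2,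
      (a _ _ (h i)).2]
    exact ⟨pm _ _ (a _ _ (h i)).1 ih.1, rfl⟩

variable (ι J) in
/-- the logarithm modulo `2 ^ B` -/
structure Lg {n B : ℕ} (G : L → Fin n → ZMod (2 ^ B)) : Prop where
  add : ∀ x y, V1 ι J 2 x → V1 ι J 2 y → G (x * y) = G x + G y
  zero : ∀ x, V1 ι J 2 x → (V1 ι J (B + 2) x ↔ G x = 0)
  onto : ∀ y, ∃ x : 𝓞 L, V1 ι J 2 (x : L) ∧ IsCoprime x 2 ∧ G x = y

theorem Lg.cg {n B : ℕ} {G : L → Fin n → ZMod (2 ^ B)} (h : Lg ι J G) {x y : L}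
    (a : V1 ι J 2 x) (b : V1 ι J 2 y) (e : G x = G y) : V1 ι J (B + 2) (x / y) := by
  have c : V1 ι J 2 (x / y) := div_eq_mul_inv x y ▸ Gx.v1_mul a (Gx.v1_inv one_le_two b)
  have := h.add _ _ c b
  rw [div_mul_cancel₀ _ (Gx.v1_unit one_le_two b).1, e, right_eq_add] at this
  exact (h.zero _ c).2 this

theorem vs {A : Type} {N : ℕ} [NeZero N] [AddCommGroup A] [Module (ZMod N) A] (a : ZMod N)
    (v : A) : a.val • v = a • v := by
  rw [← Nat.cast_smul_eq_nsmul (ZMod N), ZMod.natCast_zmod_val]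

theorem ne2 {x : 𝓞 L} (h : IsCoprime x 2) : x ≠ 0 := fun e => by
  rw [e, isCoprime_zero_left] at h
  have := absNorm_span_natCast (S := 𝓞 L) 2
  rw [Nat.cast_ofNat, span_singleton_eq_top.2 h, absNorm_top] at this
  exact (Nat.one_lt_pow finrank_pos.ne' one_lt_two).ne this

/-- the number of classes is bounded by the exponent -/
theorem rp_dvd {n B E : ℕ} {G : L → Fin n → ZMod (2 ^ B)} (h : Lg ι J G) (hm : 1 ≤ m)
    (mB : m ≤ B) (W0 : ∀ i, W i ≠ ⊥) (E0 : E ≠ 0) {R₂ : Finset (Ideal (𝓞 L))}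
    (h₂ : Rp ι J (fun _ : Fin 1 => ⊤) 2 2 R₂)
    (hE : ∀ I, I ≠ ⊥ → I ⊔ span {2} = ⊤ → ∃ x, Ev ι J W m (I ^ E) 1 x) {t : 𝓞 L} (t2 : 2 ∣ t)
    {R : Finset (Ideal (𝓞 L))} (hR : Rp ι J W m t R) : R.card ∣ E ^ (R₂.card + n) := by
  choose x x1 x2 x3 using fun s : Fin n => h.onto (Pi.single s 1)
  refine (card_dvd (cn ι J hm W0)
    (p := fun I => I ≠ ⊥ ∧ I ⊔ span {t} = ⊤ ∧ ∀ i, I ⊔ W i = ⊤) (by simp)
    (fun a b c d => ⟨mul_ne_zero c.1 d.1, isCoprime_iff_sup_eq.1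
      ((isCoprime_iff_sup_eq.2 c.2.1).mul_left (isCoprime_iff_sup_eq.2 d.2.1)), fun i =>
      isCoprime_iff_sup_eq.1
        ((isCoprime_iff_sup_eq.2 (c.2.2 i)).mul_left (isCoprime_iff_sup_eq.2 (d.2.2 i)))⟩)
    hR.cop (fun a c => hR.ex a c.1 c.2.1 c.2.2) (R₂ ∪ Finset.univ.image fun s => span {x s}) E0
    (fun a ha => ?_) fun I hI => ?_).trans (pow_dvd_pow _ ((Finset.card_union_le _ _).trans
      (Nat.add_le_add_left (Finset.card_image_le.trans (by simp)) _)))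
  · rcases Finset.mem_union.1 ha with k | k
    · exact hE a (h₂.cop a k).1 (h₂.cop a k).2.1
    · obtain ⟨s, -, rfl⟩ := Finset.mem_image.1 k
      exact hE _ (span_singleton_eq_bot.not.2 (ne2 (x2 s)))
        ((sup_eq_top_iff_isCoprime _ _).2 (x2 s))
  · obtain ⟨f, ⟨f1, w, w1, y, z, e, e', y0, z0, k1, k2⟩, -⟩ := h₂.ex I hI.1
      (top_unique (hI.2.1 ▸ sup_le_sup_left (span_singleton_le_span_singleton.2 t2) _)) (by simp)
    obtain ⟨k3, k4⟩ := (pa Gx.v1_one (fun _ _ => Gx.v1_mul) h.add).2 _ (fun s => (x s : L))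
      (fun s => (G w s).val) x1
    refine ⟨f * ∏ s, span {x s} ^ (G w s).val, mul_mem (Submonoid.subset_closure (by simp [f1]))
      (prod_mem fun s _ => pow_mem (Submonoid.subset_closure (by simp)) _), _,
      Gx.v1_mono (mB.trans (Nat.le_add_right B 2)) (h.cg w1 k3 ?_), y,
      z * ∏ s, x s ^ (G w s).val, 0, 0, y0, mul_ne_zero z0 (Finset.prod_ne_zero_iff.2
        fun s _ => pow_ne_zero _ (ne2 (x2 s))), ?_, ?_⟩
    · simp only [k4, vs, x3, ← Pi.single_smul, smul_eq_mul, mul_one, Finset.univ_sum_single]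
    · rw [← k1, RingOfIntegers.coe_eq_algebraMap (z * _), map_mul, map_prod, mul_comm _ (∏ _, _),
        ← mul_assoc]
      simp only [map_pow]
      rw [div_mul_cancel₀ _ (Gx.v1_unit one_le_two k3).1]
    · simp only [← one_eq_top, one_pow, Finset.prod_const_one, mul_one] at k2
      simp only [span_singleton_pow, prod_span_singleton, ← span_singleton_mul_span_singleton]
      rw [mul_right_comm (span {z}), k2, mul_assoc (span {y})]

end Vale.Agent.P004C.Al.Kn
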