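import Vale.Agent.P022K.Ex.Main

/-!
# P004 C, block AL: the existence theorem for ray class characters of order a power of two
-/

set_option linter.all false

noncomputable section

namespace Vale.Agent.P004C.Al.Xt

open NumberField IsDedekindDomain
open scoped Pointwise nonZeroDivisors
open Vale.Agent.P022 Vale.Agent.P022.C Vale.Agent.P022.H916 Vale.Agent.P022K Vale.Agent.P022K.Exi
open Vale.Agent.P027M.S (Pr Inert)
open Vale.Agent.P027M.S.Cls (ordv_of)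
open Vale.Agent.P022D.W (dec)
open Vale.Agent.P022D.Sel (ov Big)
open Vale.Agent.P022E.GW (Ov Fb)
open Vale.Agent.P022E.GW.Kc (ex_below nat_mem prime_mem not_ov fin_ord)

variable {K : Type} [Field K] [NumberField K] {j : K →+* Qb} {N : ℕ} [NeZero N] {Q : Finset ℕ}

/-- for the primes outside a finite set which avoids `Q` -/
def Al (Q : Finset ℕ) (p : Pr K → Prop) : Prop :=
  ∃ A : Finset ℕ, (∀ l ∈ A, l.Prime ∧ l ∉ Q) ∧ ∀ v ∉ ov K A, p v

theorem Al.and {p q : Pr K → Prop} (h : Al Q p) (k : Al Q q) : Al Q fun v => p v ∧ q v := by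
  obtain ⟨A, a, h⟩ := h
  obtain ⟨B, b, k⟩ := k
  exact ⟨A ∪ B, fun l m => (Finset.mem_union.1 m).elim (a l) (b l), fun v m =>
    ⟨h v fun ⟨l, c, d⟩ => m ⟨l, Finset.mem_union_left _ c, d⟩,
      k v fun ⟨l, c, d⟩ => m ⟨l, Finset.mem_union_right _ c, d⟩⟩⟩

theorem Al.mono {p q : Pr K → Prop} (h : Al Q p) (k : ∀ v, p v → q v) : Al Q q :=
  h.imp fun _ a => ⟨a.1, fun v m => k v (a.2 v m)⟩

theorem Al.weak {p : Pr K → Prop} (h : Al Q p) : Al ∅ p :=
  h.imp fun _ a => ⟨fun l m => ⟨(a.1 l m).1, Finset.notMem_empty l⟩, a.2⟩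

/-- ray class characters as functions on the primes, with a modulus which avoids `Q` -/
def Rc (Q : Finset ℕ) (f : Pr K → ZMod N) : Prop := ∃ m : ℕ, m ≠ 0 ∧
  (∀ l : ℕ, l.Prime → l ∣ m → l ∉ Q) ∧ ∀ (x : Kˣ) (a : 𝓞 K), (x : K) = a → (m : 𝓞 K) ∣ a - 1 → art f x = 1

/-- unramified at `v` -/
def Un (θ : GK j →* Multiplicative (ZMod N)) (v : Pr K) : Prop :=
  ∀ P : Ideal (𝓞 Qb), P.IsPrime → below j P = v.asIdeal → ∀ g, InI j P g → θ g = 1

variable {θ : GK j →* Multiplicative (ZMod N)} {f : Pr K → ZMod N}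

theorem al_un (ho : IsOpen {g | θ g = 1}) : Al ∅ (Un θ) := by
  obtain ⟨R, a, b⟩ := P022E.GW.Hy.ex_ram (isOpen_kerQ j (φ := θ) ho)
  refine ⟨R, fun l m => ⟨a l m, Finset.notMem_empty l⟩, fun v m P hP hb g hg => ?_⟩
  obtain ⟨l, hl, k⟩ := prime_mem v
  exact (mem_kerQ j θ g).1 (b l (fun c => m ⟨l, c, hl.ne_zero, k⟩) P
    ⟨hl, hP, (nat_mem j hb l).1 k⟩ g hg)

/-- a character which kills almost all Frobenius elements is trivial -/
theorem triv (ho : IsOpen {g | θ g = 1}) (h : Al ∅ fun v => θ (fr j v) = 1) (g : GK j) :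
    θ g = 1 := by
  obtain ⟨A, hA, h⟩ := h.and (al_un ho)
  obtain ⟨l, φ, hl, hn, ⟨P, h1, h2, h3⟩, hφ⟩ := Cheb.exists_fr
    ((isOpen_kerQ j (φ := θ) ho).preimage (continuous_const_mul g.1⁻¹)) (g := g)
    (by simpa using (kerQ j _).one_mem) A
  have m : φ ∈ GK j := by simpa using (GK j).mul_mem g.2 (kerQ_le j _ hφ)
  obtain ⟨v, hv, k⟩ := ex_below j hl.ne_zero h1 h2
  have o := h v (not_ov (fun l h => Or.inr (hA l h).1) hl hn k)
  have e1 := (fr_iff ho o.2 ⟨hl, h1, h2⟩ hv).1 o.1 ⟨φ, m⟩ (GW.Pl.fr_dec h1 hl.ne_zero h3)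
  have e2 := (mem_kerQ j θ (g⁻¹ * (⟨φ, m⟩ : GK j))).1 hφ
  rwa [map_mul, e1, mul_one, map_inv, inv_eq_one] at e2

theorem unit_of {x : Kˣ} {a : 𝓞 K} {m : ℕ} {v : Pr K} (h : (x : K) = a) (k : (m : 𝓞 K) ∣ a - 1)
    (hv : (m : 𝓞 K) ∈ v.asIdeal) : od v x = 1 :=
  (od_int h).2 fun k' => v.isPrime.one_notMem
    (by simpa using v.asIdeal.sub_mem k' (v.asIdeal.mem_of_dvd k hv))

theorem fac {G ι : Type} [CommGroup G] [Fintype ι] (Φ : G →* Multiplicative (ι → ZMod N))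
    (hs : Function.Surjective Φ) (Ψ : G →* Multiplicative (ZMod N)) (h : Φ.ker ≤ Ψ.ker) :
    ∃ a : ι → ZMod N, ∀ x, (Ψ x).toAdd = ∑ i, a i * (Φ x).toAdd i := by
  classical
  let l := (AddMonoidHom.toMultiplicative.symm (Φ.liftOfSurjective hs ⟨Ψ, h⟩)).toZModLinearMap N
  refine ⟨fun i => l fun k => if i = k then 1 else 0, fun x => ?_⟩
  rw [show (Ψ x).toAdd = l (Φ x).toAdd from congrArg _
    (Φ.liftOfRightInverse_comp_apply _ _ ⟨Ψ, h⟩ x).symm, LinearMap.pi_apply_eq_sum_univ]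
  exact Finset.sum_congr rfl fun i _ => mul_comm _ _

/-- representatives of the ideal classes prime to `n` -/
theorem rep {n : 𝓞 K} (hn : n ≠ 0) (c : ClassGroup (𝓞 K)) : ∃ I : (Ideal (𝓞 K))⁰,
    ClassGroup.mk0 I = c ∧ ∀ v : Pr K, v.asIdeal ∣ I → n ∉ v.asIdeal := by
  obtain ⟨J, hJ⟩ := ClassGroup.mk0_surjective c⁻¹
  have J0 : (J : Ideal (𝓞 K)) ≠ 0 := nonZeroDivisors.coe_ne_zero J
  obtain ⟨a, ha⟩ := IsDedekindDomain.exists_sup_span_eq (I := J.1 * Ideal.span {n})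
    Ideal.mul_le_left (mul_ne_zero J0 (Ideal.span_singleton_eq_bot.not.2 hn))
  obtain ⟨I, hI⟩ := Ideal.dvd_iff_le.2 (le_sup_right.trans ha.le)
  have e : Ideal.span {n} ⊔ I = ⊤ := mul_left_cancel₀ J0 (by
    rw [Ideal.mul_sup, ← hI, ha, Ideal.mul_top])
  have k : ∀ v : Pr K, I ≤ v.asIdeal → n ∉ v.asIdeal := fun v h m => v.isPrime.ne_top
    (eq_top_mono (sup_le ((Ideal.span_singleton_le_iff_mem _).2 m) h) e)
  by_cases h : I = 0
  · obtain ⟨I', h'⟩ := ClassGroup.mk0_surjective c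
    exact ⟨I', h', fun v _ => k v (h ▸ bot_le)⟩
  · refine ⟨⟨I, mem_nonZeroDivisors_of_ne_zero h⟩, ?_, fun v d => k v (Ideal.le_of_dvd d)⟩
    rw [← inv_inv c, ← hJ, ClassGroup.mk0_eq_mk0_inv_iff]
    exact ⟨a, fun z => mul_ne_zero J0 h (by rw [← hI, z]; simp), (mul_comm _ _).trans hI.symm⟩

theorem big (Q : Finset ℕ) : ∃ A₀ : Finset ℕ, (∀ l ∈ A₀, l.Prime ∧ l ∉ Q) ∧
    ∀ A : Finset ℕ, A₀ ⊆ A → Big K A := by
  classical
  choose I h1 h2 using rep (K := K) (n := (∏ q ∈ Q.erase 0, q : ℕ))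
    (Nat.cast_ne_zero.2 (Finset.prod_ne_zero_iff.2 fun q h => Finset.ne_of_mem_erase h))
  choose l l1 l2 using fun v : Pr K => prime_mem v
  have hS := Set.finite_iUnion fun c => P011.Arith.finite_dvd (nonZeroDivisors.coe_ne_zero (I c))
  refine ⟨hS.toFinset.image l, fun x hx => ?_, fun A hA v hv => ?_⟩
  · obtain ⟨v, hv, rfl⟩ := Finset.mem_image.1 hx
    obtain ⟨c, hc⟩ := Set.mem_iUnion.1 (hS.mem_toFinset.1 hv)
    exact ⟨l1 v, fun m => h2 c v hc (v.asIdeal.mem_of_dvd (Nat.cast_dvd_cast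
      (Finset.dvd_prod_of_mem _ (Finset.mem_erase.2 ⟨(l1 v).ne_zero, m⟩))) (l2 v))⟩
  have k : ∀ v ∉ ov K A, ∀ c, ¬ v.asIdeal ∣ I c := fun v hv c d => hv ⟨l v, hA
    (Finset.mem_image_of_mem l (hS.mem_toFinset.2 (Set.mem_iUnion.2 ⟨c, d⟩))), (l1 v).ne_zero, l2 v⟩
  obtain ⟨x, x0, hx, e⟩ := P011.Arith.exists_gen v (mem_nonZeroDivisors_of_ne_zero v.ne_bot) _
    (h1 _) (k v hv _)
  refine ⟨x, RingOfIntegers.coe_ne_zero_iff.2 x0, ordv_of ((v.valuation_of_algebraMap x).trans e),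
    fun w hw n => ordv_of (P011.Arith.valuation_eq_one_of_not_dvd fun d => ?_)⟩
  exact (w.prime.dvd_mul.1 (hx ▸ d)).elim (fun d => n (HeightOneSpectrum.ext
    (v.isMaximal.eq_of_le w.isPrime.ne_top (Ideal.le_of_dvd d)).symm)) (k w hw _)

/-- **existence** when the roots of unity are in the field -/
theorem kum [IsEmpty (K →+* ℝ)] {ζ : Qb} (hζ : IsPrimitiveRoot ζ N) (hz : ∀ g : GK j, g.1 ζ = ζ)
    (hQ : ∀ l : ℕ, l.Prime → l ∣ 2 * N → l ∉ Q) (hf : Rc Q f) : ∃ b : Kˣ,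
      Al Q fun v => Un (ka hζ hz b) v ∧ (ka hζ hz b (fr j v)).toAdd = f v := by
  classical
  obtain ⟨m₀, m₀0, mQ, hf⟩ := hf
  have N0 := NeZero.ne N
  obtain ⟨A₀, a1, a2⟩ := big (K := K) Q
  let A := A₀ ∪ (2 * N * m₀).primeFactors
  have hA' : ∀ l ∈ A, l.Prime ∧ l ∉ Q := fun l hl => (Finset.mem_union.1 hl).elim (a1 l) fun h =>
    have p := Nat.prime_of_mem_primeFactors h
    ⟨p, (p.dvd_mul.1 (Nat.dvd_of_mem_primeFactors h)).elim (hQ l p) (mQ l p)⟩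
  have hA : ∀ l ∈ A, l.Prime := fun l hl => (hA' l hl).1
  have h4 : ∀ l : ℕ, l.Prime → l ∣ 2 * N * m₀ → l ∈ A := fun l hl d =>
    Finset.mem_union_right _ (Nat.mem_primeFactors.2 ⟨hl, d, by positivity⟩)
  have hN : ∀ l : ℕ, l.Prime → l ∣ N → l ∈ A := fun l hl d => h4 l hl ((d.mul_left _).mul_right _)
  have hB := a2 A Finset.subset_union_left
  obtain ⟨z, rfl⟩ := fixed j hz
  have hz' : IsPrimitiveRoot z N := hζ.of_map_of_injective j.injective
  have a0 : ∏ l ∈ A, l ≠ 0 := Finset.prod_ne_zero_iff.2 fun l hl => (hA l hl).ne_zero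
  have fin : (ov K A).Finite := (Ideal.finite_factors (I := Ideal.span {((∏ l ∈ A, l : ℕ) : 𝓞 K)})
    (by simpa only [Ne, Ideal.zero_eq_bot, Ideal.span_singleton_eq_bot, Nat.cast_eq_zero])).subset
    fun v ⟨l, hl, _, k⟩ => Ideal.dvd_span_singleton.2
      (v.asIdeal.mem_of_dvd (Nat.cast_dvd_cast (Finset.dvd_prod_of_mem _ hl)) k)
  obtain ⟨u, hu, ind⟩ := ex_ind hz' fin.toFinset
  rw [fin.coe_toFinset] at hu
  have up : ∀ a : _ → ℤ, ∏ i, u i ^ a i ∈ ES (ov K A) := fun a =>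
    prod_mem fun i _ => zpow_mem (hu i) _
  choose m m0 m1 m2 using fun i => recip (ka hζ hz (u i)) (ka_open hζ hz _)
  have out : ∀ {x} (_ : x ∈ ES (ov K A)) {p P} (_ : Ov p P) (_ : p ∉ A) (g : GK j),
      Inert P g → ka hζ hz x g = 1 := fun {x} hx {p P} hP hp g hg => by
    obtain ⟨v, hv, k⟩ := ex_below j hP.1.ne_zero hP.2.1 hP.2.2
    have o := not_ov (fun l h => Or.inr (hA l h)) hP.1 hp k
    exact un_out hζ hz hN o (mem_ES.1 hx v o) P hP.2.1 hv g hg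
  set M := N * ((∏ l ∈ A, l) * (m₀ * ∏ i, m i)) with hM
  have M0 : M ≠ 0 := mul_ne_zero N0 (mul_ne_zero a0 (mul_ne_zero m₀0
    (Finset.prod_ne_zero_iff.2 fun i _ => m0 i)))
  have dM : ∀ l ∈ A, l * N * N ∣ N * M := fun l hl => by
    rw [mul_comm]
    exact mul_dvd_mul_left _ (by
      rw [mul_comm]; exact mul_dvd_mul_left _ ((Finset.dvd_prod_of_mem _ hl).mul_right _))
  have hS : ∀ v : Pr K, ((N * M : ℕ) : 𝓞 K) ∈ v.asIdeal ↔ v ∈ ov K A := fun v => by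
    refine ⟨fun k => ?_, fun ⟨l, hl, _, k⟩ => v.asIdeal.mem_of_dvd
      (Nat.cast_dvd_cast (((dvd_mul_right _ _).mul_right _).trans (dM l hl))) k⟩
    obtain ⟨l, hl, k'⟩ := prime_mem v
    refine ⟨l, ?_, hl.ne_zero, k'⟩
    have d := dvd_of_mem hl k' k
    simp only [hM, hl.dvd_mul, hl.prime.dvd_finsetProd_iff] at d
    rcases d with d | d | ⟨p, hp, d⟩ | d | ⟨i, -, d⟩
    · exact hN l hl d
    · exact hN l hl d
    · exact (Nat.prime_dvd_prime_iff_eq hl (hA p hp)).1 d ▸ hp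
    · exact h4 l hl (d.mul_left _)
    · obtain ⟨P, hP, g, h1, h2⟩ := m1 i l hl d
      exact by_contra fun k => h2 (out (hu i) hP k g h1)
  choose π π0 π1 π2 using hB
  let ct : (Pr K → ZMod N) → Kˣ →* Multiplicative (ZMod N) := fun h =>
    art fun v => if v ∈ ov K A then 0 else h v
  let Φ : Kˣ →* Multiplicative (_ → ZMod N) := MonoidHom.mk' (fun x => Multiplicative.ofAdd fun i =>
    (ct (fun v => (ka hζ hz (u i) (fr j v)).toAdd) x).toAdd) fun x y =>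
      congrArg Multiplicative.ofAdd (funext fun i => by rw [map_mul]; rfl)
  have sg : ∀ {h : Pr K → ZMod N}, (∀ v ∈ ov K A, h v = 0) → ∀ w hw,
      (art h (Units.mk0 _ (π0 w hw))).toAdd = h w := fun h w hw =>
    art_single (π1 w hw) fun v hv => (em (v ∈ ov K A)).elim (fun k => Or.inr (h v k))
      fun k => Or.inl (π2 w hw v k hv)
  have cπ : ∀ h w hw, (ct h (Units.mk0 _ (π0 w hw))).toAdd = h w :=
    fun h w hw => (sg (fun v hv => if_pos hv) w hw).trans (if_neg hw)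
  have cE : ∀ h, ∀ x ∈ ES (ov K A), ct h x = 1 := fun h x hx =>
    (art_congr (f' := 0) fun v => (em (v ∈ ov K A)).elim (fun k => Or.inr (if_pos k))
      fun k => Or.inl (mem_ES.1 hx v k)).trans (by simp [art])
  have cB : ∀ h (n : ℕ), n ∣ M → (∀ (x : Kˣ) (a : 𝓞 K), (x : K) = a → (n : 𝓞 K) ∣ a - 1 →
      art h x = 1) → Bs K N (N * M) ≤ (ct h).ker := fun h n d k => (Subgroup.closure_le _).2 (by
    rintro x (⟨y, rfl⟩ | ⟨a, h1, h2⟩)
    · exact (map_pow (ct h) y N).trans (pow_self _)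
    · exact (art_congr fun v => (em (v ∈ ov K A)).imp (fun c => unit_of h1 h2 ((hS v).2 c))
        fun c => if_neg c).trans (k x a h1 ((Nat.cast_dvd_cast (d.mul_left _)).trans h2)))
  have lin : ∀ (a : _ → ZMod N) g, (ka hζ hz (∏ i, u i ^ ((a i).val : ℤ)) g).toAdd =
      ∑ i, a i * (ka hζ hz (u i) g).toAdd := fun a g => by
    rw [map_prod, MonoidHom.finsetProd_apply, toAdd_prod]
    refine Finset.sum_congr rfl fun i _ => ?_
    rw [map_zpow, MonoidHom.zpow_apply, toAdd_zpow, zsmul_eq_mul, Int.cast_natCast,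
      ZMod.natCast_zmod_val]
  have hs : Function.Surjective Φ := by
    have := dual (Subgroup.toAddSubgroup' Φ.range) fun a ha => funext fun i => by
      obtain ⟨y, hy⟩ := kill hζ hz hA hN (up fun i => (a i).val) fun w hw =>
        (lin a _).trans ((Finset.sum_congr rfl fun i _ => congrArg _ (cπ _ w hw).symm).trans
          (ha (Φ (Units.mk0 _ (π0 w hw))).toAdd ⟨_, rfl⟩))
      have := (ZMod.intCast_zmod_eq_zero_iff_dvd _ _).2 (ind _ y hy i)
      rwa [Int.cast_natCast, ZMod.natCast_zmod_val] at this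
    exact fun y => (show y.toAdd ∈ Subgroup.toAddSubgroup' Φ.range from this ▸ trivial)
  have hI : ∀ a : _ → ℤ, ∏ i, u i ^ a i ∈ Bs K N (N * M) → ∀ i, (N : ℤ) ∣ a i := fun a ha => by
    obtain ⟨m, -, h1, h2⟩ := recip (ka hζ hz (∏ i, u i ^ a i)) (ka_open hζ hz _)
    obtain rfl : m = 1 := Nat.eq_one_iff_not_exists_prime_dvd.2 fun p hp d => by
      obtain ⟨P, hP, g, k1, k2⟩ := h1 p hp d
      exact k2 ((em (p ∈ A)).elim (fun k => dec_Bs hζ hz (dM p k) ha hP (GW.Pl.inert_dec k1))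
        fun k => out (up a) hP k g k1)
    obtain ⟨y, hy⟩ := kill hζ hz hA hN (up a) fun w hw => by
      refine (sg (h := fun v => (ka hζ hz _ (fr j v)).toAdd) (fun v hv => ?_) w hw).symm.trans ?_
      · obtain ⟨l, hl, -, k⟩ := hv
        obtain ⟨P, hP⟩ := fr_spec (j := j) v
        exact dec_Bs hζ hz (dM l hl) ha ⟨hA l hl, hP.1, (nat_mem j hP.2.1 l).1 k⟩ (fri_dec hP)
      · obtain ⟨c, d, hd, e⟩ := IsFractionRing.div_surjective (A := 𝓞 K) (π w hw)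
        have d0 : (d : K) ≠ 0 := RingOfIntegers.coe_ne_zero_iff.2 (nonZeroDivisors.ne_zero hd)
        have k1 := h2 (Units.mk0 _ (π0 w hw) * Units.mk0 _ d0) c
          (by rw [Units.val_mul, Units.val_mk0, Units.val_mk0, ← e]; exact div_mul_cancel₀ _ d0)
          (by simp)
        rwa [map_mul, h2 (Units.mk0 _ d0) d rfl (by simp), mul_one] at k1
    exact ind a y hy
  obtain ⟨P₀, hP₀⟩ := GW.Pl.ex_ov Nat.prime_two
  obtain ⟨v₀, -, k₀⟩ := ex_below j two_ne_zero hP₀.2.1 hP₀.2.2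
  obtain ⟨i0, i1⟩ := index_Bs hz' fin.toFinset M0 (fun v => (hS v).trans fin.mem_toFinset.symm)
    ⟨v₀, fin.mem_toFinset.2 ⟨2, h4 2 Nat.prime_two ((dvd_mul_right _ _).mul_right _), two_ne_zero, k₀⟩⟩
  haveI : IsTotallyComplex K := ⟨fun w => InfinitePlace.not_isReal_iff_isComplex.1 fun h =>
    isEmptyElim (InfinitePlace.embedding_of_isReal h)⟩
  have key := squeeze _ u Φ hs (fun x hx => funext fun i => cB _ (m i) ((((Finset.dvd_prod_of_mem m
    (Finset.mem_univ i)).mul_left _).mul_left _).mul_left _) (m2 i) hx)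
    (fun i => funext fun _ => cE _ _ (hu i)) hI i0 (i1.trans_eq (by
      have h1 : Units.rank K + 1 = InfinitePlace.nrComplexPlaces K := by
        rw [Units.rank, Nat.sub_add_cancel Fintype.card_pos,
          InfinitePlace.card_eq_nrRealPlaces_add_nrComplexPlaces,
          IsTotallyComplex.nrRealPlaces_eq_zero, zero_add]
      rw [IsTotallyComplex.finrank, Fintype.card_fin, h1]
      ring))
  obtain ⟨a, ha⟩ := fac Φ hs (ct f) (key.trans (sup_le (cB f m₀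
    (((dvd_mul_right _ _).mul_left _).mul_left _) hf) ((Subgroup.closure_le _).2 (by
      rintro _ ⟨i, rfl⟩
      exact cE f _ (hu i)))))
  exact ⟨_, A, hA', fun w hw => ⟨un_out hζ hz hN hw (mem_ES.1 (up _) w hw), (lin a _).trans
    ((Finset.sum_congr rfl fun i _ => congrArg _ (cπ _ w hw).symm).trans
      ((ha _).symm.trans (cπ f w hw)))⟩⟩

/-! ### additive functions on the ideals -/

/-- the additive function with given values at the primes -/
def ai (f : Pr K → ZMod N) (I : Ideal (𝓞 K)) : ZMod N :=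
  ∑ᶠ v, FractionalIdeal.count K v (I : FractionalIdeal (𝓞 K)⁰ K) • f v

theorem ai_mul {I I' : Ideal (𝓞 K)} (h : I ≠ ⊥) (h' : I' ≠ ⊥) :
    ai f (I * I') = ai f I + ai f I' := by
  have k : ∀ I : Ideal (𝓞 K), Function.HasFiniteSupport fun v =>
      FractionalIdeal.count K v (I : FractionalIdeal (𝓞 K)⁰ K) • f v := fun I =>
    (Filter.eventually_cofinite.1 (FractionalIdeal.finite_factors (K := K) I)).subset
      fun v hv e => hv (by simp only [e, zero_smul])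
  rw [ai, ai, ai, ← finsum_add_distrib (k I) (k I')]
  exact finsum_congr fun v => by
    rw [FractionalIdeal.coeIdeal_mul, FractionalIdeal.count_mul K v
      (FractionalIdeal.coeIdeal_ne_zero.2 h) (FractionalIdeal.coeIdeal_ne_zero.2 h'), add_smul]

theorem ai_pr (v : Pr K) : ai f v.asIdeal = f v :=
  (finsum_eq_single _ v fun w h => by
    rw [FractionalIdeal.count_maximal_coprime K w h.symm, zero_smul]).trans
      (by rw [FractionalIdeal.count_self, one_smul])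

theorem ai_top : ai f ⊤ = 0 := by simp [ai, FractionalIdeal.count_one]

theorem ai_pow (v : Pr K) (n : ℕ) : ai f (v.asIdeal ^ n) = n • f v := by
  induction n with
  | zero => simp [ai_top]
  | succ n k => rw [pow_succ, ai_mul (pow_ne_zero n v.ne_bot) v.ne_bot, k, ai_pr, succ_nsmul]

theorem ai_span {x : Kˣ} {a : 𝓞 K} (h : (x : K) = a) :
    (art f x).toAdd = ai f (Ideal.span {a}) := by
  have a0 : a ≠ 0 := fun e => x.ne_zero (by rw [h, e]; rfl)
  refine finsum_congr fun v => congrArg (· • f v) (ordv_of ?_)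
  rw [h, FractionalIdeal.count_coe K v (by simpa using a0), ← v.intValuation_if_neg a0,
    ← v.valuation_of_algebraMap (K := K)]

/-- additive functions are determined by the values at the primes -/
theorem ai_eq {c : Ideal (𝓞 K)} {ψ : Ideal (𝓞 K) → ZMod N} (h : ∀ I I', I ≠ ⊥ → I' ≠ ⊥ →
    I ⊔ c = ⊤ → I' ⊔ c = ⊤ → ψ (I * I') = ψ I + ψ I') (hf : ∀ v, v.asIdeal ⊔ c = ⊤ → f v = ψ v.asIdeal)
    (I : Ideal (𝓞 K)) : I ≠ ⊥ → I ⊔ c = ⊤ → ai f I = ψ I := by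
  refine UniqueFactorizationMonoid.induction_on_prime I (fun k => absurd rfl k) (fun x k _ _ => ?_)
    fun a p a0 hp k _ e => ?_
  · have := h ⊤ ⊤ top_ne_bot top_ne_bot (top_sup_eq c) (top_sup_eq c)
    rw [Ideal.isUnit_iff.1 k, ai_top]
    rwa [Ideal.top_mul, left_eq_add, eq_comm] at this
  · have e1 := eq_top_mono (sup_le_sup_right Ideal.mul_le_left c) e
    have e2 := eq_top_mono (sup_le_sup_right Ideal.mul_le_right c) e
    rw [ai_mul hp.ne_zero a0, h p a hp.ne_zero a0 e1 e2, k a0 e2]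
    let v : Pr K := ⟨p, Ideal.isPrime_of_prime hp, hp.ne_zero⟩
    rw [← hf v e1, ← ai_pr (f := f) v]

theorem un_of {A : Finset ℕ} (hA : ∀ l ∈ A, l.Prime) (h : ∀ v ∉ ov K A, Un θ v) {l : ℕ}
    (hl : l ∉ A) {P : Ideal (𝓞 Qb)} (hP : Ov l P) {g : GK j} (hg : Inert P g) : θ g = 1 := by
  obtain ⟨v, hv, k⟩ := ex_below j hP.1.ne_zero hP.2.1 hP.2.2
  exact h v (not_ov (fun l h => Or.inr (hA l h)) hP.1 hl k) P hP.2.1 hv g hg

theorem rc_fr [IsEmpty (K →+* ℝ)] (ho : IsOpen {g | θ g = 1}) (hu : Al Q (Un θ)) :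
    Rc Q fun v => (θ (fr j v)).toAdd := by
  obtain ⟨A, hA, hu⟩ := hu
  refine (recip θ ho).imp fun _ h => ⟨h.1, fun l hl d m => ?_, h.2.2⟩
  obtain ⟨P, hP, g, a, b⟩ := h.2.1 l hl d
  exact b (un_of (fun l h => (hA l h).1) hu (fun c => (hA l c).2 m) hP a)

theorem Rc.sub {f' : Pr K → ZMod N} (h : Rc Q f) (h' : Rc Q f') : Rc Q (f - f') := by
  obtain ⟨m, a, q, h⟩ := h
  obtain ⟨m', a', q', h'⟩ := h'
  refine ⟨m * m', mul_ne_zero a a', fun l p d => (p.dvd_mul.1 d).elim (q l p) (q' l p),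
    fun x y e d => ?_⟩
  have k : ∀ f : Pr K → ZMod N, Function.HasFiniteSupport fun v => ordv v (x : K) • f v := fun f =>
    (fin_ord x.ne_zero).subset fun v hv e => hv (by simp only [e, zero_smul])
  rw [Nat.cast_mul] at d
  refine Eq.trans (b := art f x / art f' x) ((finsum_congr fun v => smul_sub _ _ _).trans
    (finsum_sub_distrib (k f) (k f'))) ?_
  rw [h x y e (dvd_of_mul_right_dvd d), h' x y e (dvd_of_mul_left_dvd d), div_one]

theorem art_map {N' : ℕ} [NeZero N'] (e : ZMod N →+ ZMod N') (x : Kˣ) :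
    (art (fun v => e (f v)) x).toAdd = e (art f x).toAdd :=
  (finsum_congr fun v => (map_zsmul e _ _).symm).trans (e.map_finsum
    ((fin_ord x.ne_zero).subset fun v hv e => hv (by simp only [e, zero_smul]))).symm

theorem Rc.map {N' : ℕ} [NeZero N'] (h : Rc Q f) (e : ZMod N →+ ZMod N') :
    Rc Q fun v => e (f v) := h.imp fun _ h => ⟨h.1, h.2.1, fun x a k d =>
  (art_map e x).trans (by rw [h.2.2 x a k d]; exact map_zero e)⟩

/-- changing finitely many values -/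
theorem Rc.congr {f' : Pr K → ZMod N} (h : Rc Q f) (k : Al Q fun v => f v = f' v) : Rc Q f' := by
  obtain ⟨m, a, q, h⟩ := h
  obtain ⟨A, hA, k⟩ := k
  refine ⟨m * ∏ l ∈ A, l, mul_ne_zero a (Finset.prod_ne_zero_iff.2 fun l c => (hA l c).1.ne_zero),
    fun l p d => (p.dvd_mul.1 d).elim (q l p) fun d => ?_, fun x y e d => (art_congr fun v => ?_).trans
      (h x y e ((Nat.cast_dvd_cast (dvd_mul_right _ _)).trans d))⟩
  · obtain ⟨r, c, d⟩ := (p.prime.dvd_finsetProd_iff _).1 d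
    exact (Nat.prime_dvd_prime_iff_eq p (hA r c).1).1 d ▸ (hA r c).2
  exact (em (v ∈ ov K A)).imp (fun ⟨l, c, _, n⟩ => unit_of e d (v.asIdeal.mem_of_dvd
    (Nat.cast_dvd_cast ((Finset.dvd_prod_of_mem _ c).mul_left _)) n)) fun c => (k v c).symm

/-- extension of an invariant character from a subgroup of index at most two -/
theorem ext2 {G A : Type} [Group G] [CommGroup A] (H : Subgroup G) [n : H.Normal]
    (hH : ∀ g ∉ H, ∀ g' ∉ H, g * g' ∈ H) (T : G → A)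
    (mul : ∀ g ∈ H, ∀ g' ∈ H, T (g * g') = T g * T g') (cj : ∀ s, ∀ g ∈ H, T (s * g * s⁻¹) = T g)
    (sq : ∀ g, ∃ a, a * a = T g) : ∃ θ : G →* A, ∀ g ∈ H, θ g = T g := by
  classical
  by_cases e : ∀ g, g ∈ H
  · exact ⟨.mk' T fun a b => mul a (e a) b (e b), fun _ _ => rfl⟩
  obtain ⟨s, hs⟩ := not_forall.1 e
  obtain ⟨a, ha⟩ := sq (s * s)
  have o : ∀ g ∉ H, s⁻¹ * g ∈ H := hH _ (mt H.inv_mem_iff.1 hs)
  refine ⟨.mk' (fun g => if g ∈ H then T g else a * T (s⁻¹ * g)) fun g g' => ?_,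
    fun g h => if_pos h⟩
  by_cases h : g ∈ H <;> by_cases h' : g' ∈ H
  · rw [if_pos h, if_pos h', if_pos (mul_mem h h'), mul g h g' h']
  · rw [if_pos h, if_neg h', if_neg (mt (H.mul_mem_cancel_left h).1 h'),
      show s⁻¹ * (g * g') = s⁻¹ * g * s⁻¹⁻¹ * (s⁻¹ * g') by group,
      mul _ (n.conj_mem g h _) _ (o g' h'), cj _ g h, mul_left_comm]
  · rw [if_neg h, if_pos h', if_neg (mt (H.mul_mem_cancel_right h').1 h), ← mul_assoc,
      mul _ (o g h) _ h', mul_assoc]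
  · rw [if_neg h, if_neg h', if_pos (hH g h g' h'),
      show g * g' = s * (s⁻¹ * g) * s⁻¹ * (s * s * (s⁻¹ * g')) by group,
      mul _ (n.conj_mem _ (o g h) _) _ (mul_mem (hH s hs s hs) (o g' h')), cj _ _ (o g h),
      mul _ (hH s hs s hs) _ (o g' h'), ← ha, mul_left_comm, ← mul_assoc, mul_mul_mul_comm, mul_assoc,
      mul_mul_mul_comm]

/-! ### relative norms -/

section rel

variable {L : Type} [Field L] [NumberField L] [Algebra K L] [IsGalois K L] {jL : L →+* Qb}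
  {ρ : GK j →* (L ≃ₐ[K] L)} (D : Dict j jL ρ) {w : Pr L} {P : Ideal (𝓞 Qb)}

variable (K) in
/-- the prime below -/
abbrev dw (w : Pr L) : Pr K := w.under (𝓞 K)

variable (L) in
/-- the residue degree -/
def dg (v : Pr K) : ℕ := v.asIdeal.inertiaDegIn (𝓞 L)

theorem rel_eq (w : Pr L) :
    Ideal.relNorm (𝓞 K) w.asIdeal = (dw K w).asIdeal ^ dg L (dw K w) := by
  haveI := w.isMaximal
  haveI := (dw K w).isMaximal
  haveI : w.asIdeal.LiesOver (dw K w).asIdeal := ⟨rfl⟩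
  rw [Ideal.relNorm_eq_pow_of_isMaximal w.asIdeal (dw K w).asIdeal, dg,
    Ideal.inertiaDegIn_eq_inertiaDeg _ w.asIdeal (L ≃ₐ[K] L)]

theorem abs_eq (w : Pr L) :
    Ideal.absNorm w.asIdeal = Ideal.absNorm (dw K w).asIdeal ^ dg L (dw K w) := by
  rw [← map_pow, ← rel_eq, Ideal.absNorm_relNorm]

theorem dg_dvd (v : Pr K) : dg L v ∣ Nat.card (L ≃ₐ[K] L) := by
  haveI := v.isMaximal
  rw [← Ideal.ncard_primesOver_mul_ramificationIdxIn_mul_inertiaDegIn v.asIdeal (𝓞 L) (L ≃ₐ[K] L)]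
  exact (dvd_mul_left _ _).mul_left _

theorem ov_dw {A : Finset ℕ} : dw K w ∈ ov K A ↔ w ∈ ov L A :=
  exists_congr fun l => and_congr_right fun _ => and_congr_right fun _ => by
    show algebraMap _ _ _ ∈ w.asIdeal ↔ _
    rw [map_natCast]

theorem Al.up {p : Pr K → Prop} (h : Al Q p) : Al Q fun w : Pr L => p (dw K w) :=
  h.imp fun _ a => ⟨a.1, fun w m => a.2 _ (mt ov_dw.1 m)⟩

theorem Al.all {p : Pr L → Prop} (h : Al Q p) : Al Q fun v : Pr K => ∀ w, dw K w = v → p w :=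
  h.imp fun _ a => ⟨a.1, fun _ m w e => a.2 w (mt ov_dw.2 (e ▸ m))⟩

theorem Al.down {p : Pr K → Prop} (h : Al Q fun w : Pr L => p (dw K w)) : Al Q p :=
  h.imp fun _ a => ⟨a.1, fun v m => by
    haveI := v.isMaximal
    obtain ⟨R, q1, q2⟩ := Ideal.exists_maximal_ideal_liesOver_of_isIntegral (S := 𝓞 L) v.asIdeal
    have e : dw K ⟨R, q1.isPrime, Ideal.ne_bot_of_liesOver_of_ne_bot v.ne_bot R⟩ = v :=
      HeightOneSpectrum.ext q2.over.symm
    exact e ▸ a.2 _ (mt ov_dw.2 (e.symm ▸ m))⟩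

theorem nm_one {m : ℕ} (hm : m ≠ 0) {a : 𝓞 L} (h : (m : 𝓞 L) ∣ a - 1) :
    (m : 𝓞 K) ∣ Algebra.intNorm (𝓞 K) (𝓞 L) a - 1 := by
  have e : algebraMap (𝓞 K) (𝓞 L) (Algebra.intNorm (𝓞 K) (𝓞 L) a) = ∏ σ : L ≃ₐ[K] L, σ • a := by
    apply RingOfIntegers.coe_injective
    rw [← IsScalarTower.algebraMap_apply, IsScalarTower.algebraMap_apply (𝓞 K) K L,
      Algebra.algebraMap_intNorm (L := L), Algebra.norm_eq_prod_automorphisms, map_prod]
    rfl
  obtain ⟨c, hc⟩ : (m : 𝓞 L) ∣ (∏ σ : L ≃ₐ[K] L, σ • a) - 1 := by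
    rw [← Ideal.mem_span_singleton, ← Ideal.Quotient.eq, map_prod, map_one]
    refine Finset.prod_eq_one fun σ _ => ?_
    rw [← map_one (Ideal.Quotient.mk _), Ideal.Quotient.eq, Ideal.mem_span_singleton]
    simpa [smul_sub] using map_dvd (MulSemiringAction.toRingHom _ (𝓞 L) σ) h
  have m0 : (m : K) ≠ 0 := Nat.cast_ne_zero.2 hm
  have k : algebraMap K L (((Algebra.intNorm (𝓞 K) (𝓞 L) a - 1 : 𝓞 K) : K) / m) = c := by
    have := congrArg (algebraMap (𝓞 L) L) hc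
    rw [← e, map_sub, map_mul, map_one, map_natCast, ← IsScalarTower.algebraMap_apply,
      IsScalarTower.algebraMap_apply (𝓞 K) K L] at this
    rw [map_div₀, map_natCast, div_eq_iff (Nat.cast_ne_zero.2 hm), mul_comm]
    simpa using this
  have i : IsIntegral ℤ (c : L) := c.isIntegral_coe
  rw [← k, isIntegral_algebraMap_iff (algebraMap K L).injective] at i
  obtain ⟨y, hy⟩ : ∃ y : 𝓞 K, algebraMap _ K y =
      ((Algebra.intNorm (𝓞 K) (𝓞 L) a - 1 : 𝓞 K) : K) / m := ⟨⟨_, i⟩, rfl⟩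
  refine ⟨y, RingOfIntegers.coe_injective ?_⟩
  rw [map_mul, map_natCast, hy]
  exact (mul_div_cancel₀ _ m0).symm

theorem ai_up (I : Ideal (𝓞 L)) (h : I ≠ ⊥) :
    ai (fun w => dg L (dw K w) • f (dw K w)) I = ai f (Ideal.relNorm (𝓞 K) I) :=
  ai_eq (c := ⊤) (ψ := fun I => ai f (Ideal.relNorm (𝓞 K) I)) (fun I I' a b _ _ => by
    rw [map_mul, ai_mul (mt Ideal.relNorm_eq_bot_iff.1 a) (mt Ideal.relNorm_eq_bot_iff.1 b)])
    (fun w _ => by rw [rel_eq, ai_pow]) I h (sup_top_eq I)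

theorem Rc.up (h : Rc Q f) : Rc Q fun w : Pr L => dg L (dw K w) • f (dw K w) := by
  obtain ⟨m, m0, q, h⟩ := h
  refine ⟨m, m0, q, fun x a e d => ?_⟩
  have a0 : a ≠ 0 := fun k => x.ne_zero (by rw [e, k]; rfl)
  refine (ai_span e).trans ((ai_up _ (by simpa using a0)).trans ?_)
  rw [Ideal.relNorm_singleton]
  exact (ai_span (x := Units.mk0 _ (RingOfIntegers.coe_ne_zero_iff.2
    (Algebra.intNorm_ne_zero.2 a0))) rfl).symm.trans (h _ _ rfl (nm_one m0 d))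

include D

theorem le_L : GK jL ≤ GK j := fun g hg x => by rw [← D.comp, hg]

theorem mem_L (g : GK j) : g.1 ∈ GK jL ↔ ρ g = 1 :=
  ⟨fun h => AlgEquiv.ext fun x => jL.injective ((D.act g x).symm.trans (h x)),
    fun h x => by rw [D.act, h]; rfl⟩

theorem bel (h : below jL P = w.asIdeal) : below j P = (dw K w).asIdeal := by
  ext x
  show RingOfIntegers.mapRingHom j x ∈ P ↔ algebraMap _ _ x ∈ w.asIdeal
  rw [← h, show RingOfIntegers.mapRingHom j x = RingOfIntegers.mapRingHom jL (algebraMap _ _ x) from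
    Subtype.ext (D.comp x).symm]
  rfl

theorem fr_up (h : Un θ (dw K w)) :
    θ ⟨fr jL w, le_L D (fr jL w).2⟩ = θ (fr j (dw K w)) ^ dg L (dw K w) := by
  obtain ⟨P, hP⟩ := fr_spec (j := jL) w
  obtain ⟨l, hl, k⟩ := prime_mem w
  obtain ⟨g, hg⟩ := GW.Pl.ex_fri j ⟨hl, hP.1, (nat_mem jL hP.2.1 l).1 k⟩ (bel D hP.2.1)
  rw [← fr_eq h hg, ← map_pow, ← inv_mul_eq_one, ← map_inv, ← map_mul]
  refine h P hP.1 hg.2.1 _ fun x => ?_
  have d := pow_mem (fri_dec (j := jL) hP) 1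
  have e := P.sub_mem (GW.Pl.pw (fri_dec hg) hg.2.2 (dg L (dw K w)) x) (abs_eq (K := K) w ▸ hP.2.2 x)
  rw [sub_sub_sub_cancel_right] at e
  refine (fri_dec hP _).1 ?_
  rw [smul_sub, ← mul_smul]
  simpa using e

/-- invariance under conjugation -/
theorem inv {θ : GK jL →* Multiplicative (ZMod N)} (ho : IsOpen {g | θ g = 1})
    (h : Al ∅ fun w => (θ (fr jL w)).toAdd = f (dw K w)) (s : GK j) (g g' : GK jL)
    (e : g'.1 = s * g * s⁻¹) : θ g' = θ g := by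
  have m : ∀ g : GK jL, (s * g * s⁻¹ : GQ) ∈ GK jL := fun g => by
    have := (mem_L D (s * ⟨g, le_L D g.2⟩ * s⁻¹)).2 (by
      rw [map_mul, map_mul, (mem_L D ⟨g, le_L D g.2⟩).1 g.2, mul_one, map_inv, mul_inv_cancel])
    rwa [Subgroup.coe_mul, Subgroup.coe_mul, Subgroup.coe_inv] at this
  obtain ⟨c, hc⟩ : ∃ c : GK jL →* GK jL, ∀ g, (c g : GQ) = s * g * s⁻¹ :=
    ⟨.mk' (fun g => ⟨_, m g⟩) fun a b => Subtype.ext (by simp [mul_assoc]), fun _ => rfl⟩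
  obtain ⟨A, hA, h⟩ := h.and (al_un ho)
  have le : (kerQ jL θ).normalCore.subgroupOf (GK jL) ≤ (θ.comp c / θ).ker := fun g a => by
    have a1 := (mem_kerQ jL θ g).1 (Subgroup.normalCore_le _ a)
    have a2 := (mem_kerQ jL θ (c g)).1 (by rw [hc]; exact a s)
    simp [a1, a2]
  have oc : IsOpen {g | (θ.comp c / θ) g = 1} := Subgroup.isOpen_mono le
    (Subgroup.subgroupOf_isOpen _ _ (GW.Pl.core_open (isOpen_kerQ jL (φ := θ) ho)))
  refine (congrArg θ (Subtype.ext (e.trans (hc g).symm) : g' = c g)).trans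
    (div_eq_one.1 (triv oc ⟨A, hA, fun w hw => div_eq_one.2 ?_⟩ g))
  obtain ⟨P, hP⟩ := fr_spec (j := jL) w
  obtain ⟨l, hl, k⟩ := prime_mem w
  have o := GW.ov_smul ⟨hl, hP.1, (nat_mem jL hP.2.1 l).1 k⟩ (s : GQ)
  obtain ⟨w', b, k'⟩ := ex_below jL hl.ne_zero o.2.1 o.2.2
  have h' := h w' (not_ov (fun l h => Or.inr (hA l h).1) hl (fun c => hw ⟨l, c, hl.ne_zero, k⟩) k')
  have u : dw K w' = dw K w := HeightOneSpectrum.ext
    ((bel D b).symm.trans ((GW.Pl.below_smul j s.2 P).trans (bel D hP.2.1)))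
  refine (fr_eq h'.2 (P := (s : GQ) • P) ⟨o.2.1, b, fun x => ?_⟩).trans
    (h'.1.trans (u ▸ (h w hw).1.symm))
  rw [GW.Pl.mem_smul, abs_eq (K := K) w', u, ← abs_eq, smul_sub, smul_pow', ← mul_smul]
  simpa [hc, mul_assoc, mul_smul] using hP.2.2 ((s : GQ)⁻¹ • x)

end rel

theorem ex_e {n : ℕ} (hn : N = n * 2) : ∃ e : ZMod 2 →+ ZMod N, Function.Injective e ∧
    ∀ y, 2 • y = 0 → ∃ x, e x = y := by
  have n0 : 0 < n := Nat.pos_of_mul_pos_right (hn ▸ NeZero.pos N)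
  have z : ∀ k : ℕ, (k : ZMod N) = 0 ↔ n * 2 ∣ k := fun k => hn ▸ ZMod.natCast_eq_zero_iff _ _
  let e := ZMod.lift 2 ⟨zmultiplesHom _ (n : ZMod N), by simpa [mul_comm] using (z _).2 dvd_rfl⟩
  have k : ∀ k : ℕ, e k = ((n * k : ℕ) : ZMod N) := fun k => by
    rw [← Int.cast_natCast, ZMod.lift_coe]
    simp [mul_comm]
  refine ⟨e, (injective_iff_map_eq_zero e).2 fun x h => ?_, fun y h => ?_⟩
  · obtain ⟨x, rfl⟩ := ZMod.natCast_zmod_surjective x
    rw [k, z, Nat.mul_dvd_mul_iff_left n0] at h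
    exact (ZMod.natCast_eq_zero_iff _ _).2 h
  · obtain ⟨y, rfl⟩ := ZMod.natCast_zmod_surjective y
    rw [nsmul_eq_mul, ← Nat.cast_mul, z, mul_comm, Nat.mul_dvd_mul_iff_left two_pos] at h
    obtain ⟨x, rfl⟩ := h
    exact ⟨x, k x⟩

theorem half {n : ℕ} (hn : N = n * 2) {y : ZMod N} (h : n • y = 0) : ∃ a, a + a = y := by
  obtain ⟨y, rfl⟩ := ZMod.natCast_zmod_surjective y
  rw [nsmul_eq_mul, ← Nat.cast_mul, ZMod.natCast_eq_zero_iff, hn,
    Nat.mul_dvd_mul_iff_left (Nat.pos_of_mul_pos_right (hn ▸ NeZero.pos N))] at h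
  obtain ⟨x, rfl⟩ := h
  exact ⟨x, by rw [two_mul, Nat.cast_add]⟩

/-- characters of order two -/
theorem two [IsEmpty (K →+* ℝ)] {e : ZMod 2 →+ ZMod N} (he : Function.Injective e)
    (he' : ∀ y, 2 • y = 0 → ∃ x, e x = y) (hQ : 2 ∉ Q) (hf : Rc Q f)
    (h : Al Q fun v => 2 • f v = 0) : ∃ φ : GK j →* Multiplicative (ZMod 2), IsOpen {g | φ g = 1} ∧
      Al Q fun v => Un φ v ∧ e (φ (fr j v)).toAdd = f v := by
  classical
  choose! r hr using he'
  have k := h.mono fun v a => hr _ a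
  obtain ⟨m, m0, q, hm⟩ := hf.congr (k.mono fun v => Eq.symm)
  obtain ⟨b, hb⟩ := kum (j := j) (IsPrimitiveRoot.neg_one 0 two_ne_zero.symm) (fun g => by simp)
    (f := fun v => r (f v)) (fun l p d => (Nat.prime_dvd_prime_iff_eq p Nat.prime_two).1
      ((p.dvd_mul.1 d).elim id id) ▸ hQ) ⟨m, m0, q, fun x a c d =>
      he ((art_map e x).symm.trans ((hm x a c d).trans (map_zero e).symm))⟩
  exact ⟨_, ka_open _ _ b, (hb.and k).mono fun v a => ⟨a.1.1, by rw [a.1.2, a.2]⟩⟩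

theorem ind {C : ℕ} (hN : N = 2 ^ C * 2) (hQ : 2 ∉ Q) (B : ℕ) : B ≤ C + 1 → ∀ (K : Type) [Field K]
    [NumberField K] [IsEmpty (K →+* ℝ)] (j : K →+* Qb) (f : Pr K → ZMod N), Rc Q f →
    (Al Q fun v => 2 ^ B • f v = 0) → ∃ θ : GK j →* Multiplicative (ZMod N), IsOpen {g | θ g = 1} ∧
      (∀ g, θ g ^ 2 ^ B = 1) ∧ Al Q fun v => Un θ v ∧ (θ (fr j v)).toAdd = f v := by
  classical
  obtain ⟨e, he, he'⟩ := ex_e hN
  induction B with
  | zero => exact fun _ K _ _ _ j f _ h =>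
      ⟨1, by simp, by simp, h.mono fun v a => ⟨fun _ _ _ _ _ => rfl, by simpa [eq_comm] using a⟩⟩
  | succ B ih =>
  intro hB K _ _ _ j f hf h
  obtain ⟨φ, ho, hφ⟩ := two (j := j) he he' hQ (hf.map (nsmulAddMonoidHom (2 ^ B)))
    (h.mono fun v a => by rw [← a, pow_succ' 2 B, mul_smul]; rfl)
  obtain ⟨L, _, _, _, _, jL, ρ, D, hρ, cy⟩ := exists_cyc j (φ := φ) ho
  haveI : IsEmpty (L →+* ℝ) := ⟨fun ψ => isEmptyElim (ψ.comp (algebraMap K L))⟩
  have mL : ∀ g : GK j, g.1 ∈ GK jL ↔ g ∈ φ.ker := fun g => (mem_L D g).trans (hρ g)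
  have z2 : ∀ a b : Multiplicative (ZMod 2), a ≠ 1 → b ≠ 1 → a * b = 1 := by decide
  have z3 : ∀ a : Multiplicative (ZMod 2), a ^ 2 = 1 := by decide
  obtain ⟨θ, t0, t1, t2⟩ := ih (by omega) L jL _ hf.up (hφ.up.mono fun w a => by
    rw [smul_comm, show 2 ^ B • f (dw K w) = _ from a.2.symm, ← map_nsmul, ← toAdd_pow,
      ← fr_up D a.1, show φ _ = 1 from (mL _).1 (fr jL w).2]
    exact map_zero e)
  obtain ⟨θ', t3⟩ := ext2 φ.ker (fun g a g' b => (map_mul φ g g').trans (z2 _ _ a b))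
    (fun g => if c : g.1 ∈ GK jL then θ ⟨g, c⟩ else 1) (fun g a g' b => by
      rw [dif_pos ((mL _).2 a), dif_pos ((mL _).2 b), dif_pos ((mL _).2 (mul_mem a b)), ← map_mul]
      rfl) (fun s g a => by
      rw [dif_pos ((mL _).2 a), dif_pos ((mL _).2 (φ.normal_ker.conj_mem g a s))]
      exact inv D t0 (f := fun v => dg L v • f v) (t2.weak.mono fun _ a => a.2) s _ _ rfl)
    fun g => half hN (by
      split_ifs
      · obtain ⟨n, hn⟩ := pow_dvd_pow 2 (show B ≤ C by omega)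
        exact (show θ _ ^ 2 ^ C = 1 by rw [hn, pow_mul, t1, one_pow])
      · exact smul_zero _)
  have t4 : ∀ g : GK jL, θ' ⟨g, le_L D g.2⟩ = θ g := fun g =>
    (t3 _ ((mL _).1 g.2)).trans (dif_pos g.2)
  have o' : IsOpen {g | θ' g = 1} := Subgroup.isOpen_mono (H₁ := (kerQ jL θ).subgroupOf (GK j))
    (H₂ := θ'.ker) (fun g a => (t4 ⟨g, kerQ_le jL θ a⟩).trans ((mem_kerQ jL θ _).1 a))
    ((isOpen_kerQ jL t0).preimage continuous_subtype_val)
  have d2 : Nat.card (L ≃ₐ[K] L) ∣ 2 := by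
    rw [← IsCyclic.exponent_eq_card]
    refine Monoid.exponent_dvd_of_forall_pow_eq_one fun σ => ?_
    obtain ⟨g, rfl⟩ := D.surj σ
    rw [← map_pow, hρ, map_pow, z3]
  have u' : Al Q (Un θ') := (hφ.and t2.all).mono fun v a P hP hb g hg => by
    obtain ⟨l, hl, k⟩ := prime_mem v
    obtain ⟨w, b, -⟩ := ex_below jL hl.ne_zero hP ((nat_mem j hb l).1 k)
    have m := (mL g).2 (a.1.1 P hP hb g hg)
    exact (t4 ⟨g, m⟩).trans ((a.2 w (HeightOneSpectrum.ext ((bel D b).symm.trans hb))).1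
      P hP b _ hg)
  obtain ⟨φ', o2, h2⟩ := two (j := j) he he' hQ (hf.sub (rc_fr o' u')) (Al.down (L := L)
    ((t2.and u'.up).mono fun w a => by
      obtain ⟨n, hn⟩ := (dg_dvd (dw K w)).trans d2
      rw [hn, mul_comm, mul_smul, Pi.sub_apply, smul_sub, ← toAdd_pow, ← fr_up D a.2, t4, a.1.2,
        sub_self, smul_zero]))
  let φ'' := (AddMonoidHom.toMultiplicative e).comp φ'
  refine ⟨θ' * φ'', Subgroup.isOpen_mono (H₁ := θ'.ker ⊓ φ'.ker) (H₂ := (θ' * φ'').ker)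
    (fun g a => by simp [φ'', show θ' g = 1 from a.1, show φ' g = 1 from a.2]) (o'.inter o2),
    fun g => ?_, (h2.and u').mono fun v a => ⟨fun P hP hb g hg => by
      simp [φ'', a.2 P hP hb g hg, a.1.1 P hP hb g hg],
      (congrArg (_ + ·) a.1.2).trans (add_sub_cancel _ _)⟩⟩
  have m := (mL (g ^ 2)).2 ((map_pow φ g 2).trans (z3 _))
  rw [pow_succ' 2 B, pow_mul, ← map_pow, MonoidHom.mul_apply, show θ' (g ^ 2) = _ from t4 ⟨_, m⟩,
    MonoidHom.comp_apply, map_pow φ', z3, map_one, mul_one, t1]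

/-- **the existence theorem** -/
theorem ex_gal [IsEmpty (K →+* ℝ)] (j : K →+* Qb) {C : ℕ} {f : Pr K → ZMod (2 ^ C)} (hQ : 2 ∉ Q)
    (hf : Rc Q f) : ∃ θ : GK j →* Multiplicative (ZMod (2 ^ C)), IsOpen {g | θ g = 1} ∧
      Al Q fun v => Un θ v ∧ (θ (fr j v)).toAdd = f v := by
  cases C with
  | zero =>
    haveI : Subsingleton (ZMod (2 ^ 0)) := ZMod.subsingleton_iff.2 rfl
    exact ⟨1, by simp, ∅, by simp, fun v _ => ⟨fun _ _ _ _ _ => rfl, Subsingleton.elim _ _⟩⟩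
  | succ C =>
    obtain ⟨θ, a, -, b⟩ := ind (pow_succ 2 C) hQ _ le_rfl K j f hf ⟨∅, by simp, fun v _ =>
      (nsmul_eq_mul _ _).trans (by rw [ZMod.natCast_self, zero_mul])⟩
    exact ⟨θ, a, b⟩

/-- the same for additive functions on the ideals prime to `c` -/
theorem ex_ray [IsEmpty (K →+* ℝ)] (j : K →+* Qb) {C : ℕ} {c : Ideal (𝓞 K)} (Q : Finset ℕ)
    (hQ : ∀ q ∈ Q, q.Prime ∧ q ≠ 2 ∧ Ideal.span {(q : 𝓞 K)} ⊔ c = ⊤) (hc : c ≠ ⊥)
    {ψ : Ideal (𝓞 K) → ZMod (2 ^ C)} (h : ∀ I I', I ≠ ⊥ → I' ≠ ⊥ → I ⊔ c = ⊤ → I' ⊔ c = ⊤ →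
      ψ (I * I') = ψ I + ψ I') (hp : ∀ x : 𝓞 K, x ≠ 0 → x - 1 ∈ c → ψ (Ideal.span {x}) = 0) :
    ∃ θ : GK j →* Multiplicative (ZMod (2 ^ C)), IsOpen {g | θ g = 1} ∧ ∃ A : Finset ℕ,
      (∀ l ∈ A, l.Prime) ∧ Disjoint A Q ∧
      (∀ l ∉ A, ∀ P, Ov l P → ∀ g : GK j, Inert P g → θ g = 1) ∧
      ∀ v ∉ ov K A, ∀ P g, FrI j v P g → (θ g).toAdd = ψ v.asIdeal := by
  classical
  have ex : ∃ m : ℕ, m ≠ 0 ∧ (m : 𝓞 K) ∈ c :=
    ⟨_, Ideal.absNorm_eq_zero_iff.not.2 hc, Ideal.absNorm_mem c⟩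
  obtain ⟨m0, mc⟩ := Nat.find_spec ex
  obtain ⟨θ, ho, A, hA, k⟩ := ex_gal (Q := Q) (f := fun v => ψ v.asIdeal) j
    (fun a => (hQ 2 a).2.1 rfl) ⟨_, m0, fun l p ⟨n, d⟩ a => by
      obtain ⟨x, hx, y, hy, e⟩ := Submodule.mem_sup.1 ((Ideal.eq_top_iff_one _).1 (hQ l a).2.2)
      obtain ⟨x, rfl⟩ := Ideal.mem_span_singleton'.1 hx
      have n0 : n ≠ 0 := fun z => m0 (by rw [d, z, mul_zero])
      refine Nat.find_min ex (d ▸ lt_mul_left n0.bot_lt p.one_lt) ⟨n0, ?_⟩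
      rw [← mul_one (n : 𝓞 K), ← e, mul_add, mul_left_comm, mul_comm (n : 𝓞 K), ← Nat.cast_mul, ← d]
      exact add_mem (c.mul_mem_left _ mc) (c.mul_mem_left _ hy), fun x a e d => by
      have a0 : a ≠ 0 := fun k => x.ne_zero (by rw [e, k]; rfl)
      have m := c.mem_of_dvd d mc
      have t : Ideal.span {a} ⊔ c = ⊤ := (Ideal.eq_top_iff_one _).2 (sub_sub_cancel a 1 ▸
        sub_mem (Ideal.mem_sup_left (Ideal.mem_span_singleton_self a)) (Ideal.mem_sup_right m))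
      exact (ai_span e).trans ((ai_eq h (fun _ _ => rfl) _
        (Ideal.span_singleton_eq_bot.not.2 a0) t).trans (hp a a0 m))⟩
  exact ⟨θ, ho, A, fun l a => (hA l a).1, Finset.disjoint_left.2 fun l a => (hA l a).2,
    fun l a P b g d => un_of (fun l a => (hA l a).1) (fun v a => (k v a).1) a b d,
    fun v a P g b => (congrArg _ (fr_eq (k v a).1 b)).trans (k v a).2⟩

end Vale.Agent.P004C.Al.Xt
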