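import Vale.Agent.P004C.Al.Aux1
import Vale.Agent.P004C.Al.Aux2
import Vale.Agent.P004C.Al.Aux3
import Vale.Agent.P004C.Al.Ext

/-!
# P004 C, block AL: row AUX
-/

set_option linter.all false

noncomputable section

namespace Vale.Agent.P004C.Al

open NumberField Module Ideal Matrix NumberField.Units IsDedekindDomain
open scoped Classical

theorem Kn.ext : Kn.EXT := fun _ _ _ _ j _ _ _ Q a b c d => Xt.ex_ray j Q a b c d

theorem Kn.ex_co (L : Type) [Field L] [NumberField L] : ∃ co : (𝓞 L)ˣ → Fin (rank L) → ℤ,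
    (∀ a b, co (a * b) = co a + co b) ∧
      ∀ n : Fin (rank L) → ℕ, co (∏ s, fundSystem L s ^ n s) = fun s => (n s : ℤ) := by
  choose f hf hu using exist_unique_eq_mul_prod L
  refine ⟨fun w => (f w).2, fun a b => (congrArg Prod.snd (hu (a * b)
    ((f a).1 * (f b).1, (f a).2 + (f b).2) ?_)).symm, fun n => (congrArg Prod.snd (hu _
      (1, fun s => (n s : ℤ)) (by simp))).symm⟩
  simp only [Subgroup.coe_mul, Pi.add_apply, _root_.zpow_add, Finset.prod_mul_distrib]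
  rw [mul_mul_mul_comm, ← hf a, ← hf b]

open Kn in
/-- **auxiliary primes** -/
theorem aux (hL : LOG) (hN : LIN) : AUX := by
  intro K _ _ ι J Ω hB L L₂ _ _ _ _ _ _ j₂ h2 hr
  have hl := hL K ι J Ω hB L
  rw [← Gx.rank_eq (M := L) hB rfl] at hl
  obtain ⟨ℓ, l1, l2, l3⟩ := hl
  obtain ⟨h, h0, hπ⟩ := Gx.ex_pow (𝓞 L)
  obtain ⟨N, N0, v1⟩ := Gx.pow_v1 (ι := ι) (J := J) (M := L) 2
  replace v1 : ∀ x : 𝓞 L, IsCoprime x 2 → V1 ι J 2 ((x : L) ^ N) := fun x k =>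
    v1 x ((sup_eq_top_iff_isCoprime _ _).2 k)
  have uc : ∀ u : (𝓞 L)ˣ, IsCoprime (u : 𝓞 L) 2 := fun u => ⟨u⁻¹.1, 0, by simp⟩
  have cm : ∀ x y : 𝓞 L, ((x * y : 𝓞 L) : L) ^ N = x ^ N * y ^ N := fun x y => by
    rw [← mul_pow]; rfl
  let Λ : (𝓞 L)ˣ →* Multiplicative (Fin (rank L + 1) → ℤ_[2]) :=
    MonoidHom.mk' (fun u => .ofAdd (ℓ (((u : 𝓞 L) : L) ^ N))) fun u w => congrArg _ (by
      rw [Units.val_mul, cm]
      exact l1 _ _ (v1 _ (uc u)) (v1 _ (uc w)))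
  obtain ⟨r, c₀, k, μ, l, u, n1, n2, n3, n4, n5⟩ :=
    hN (rank L) (Matrix.of fun s => (Λ (fundSystem L s)).toAdd)
  have lu : ∀ i (w : (𝓞 L)ˣ), l i ⬝ᵥ (Λ w).toAdd = 0 := fun i w => by
    obtain ⟨⟨ζ, e⟩, rfl, -⟩ := exist_unique_eq_mul_prod L w
    have z : (Λ ζ).toAdd = 0 := by
      obtain ⟨n, a, b⟩ := isOfFinOrder_iff_pow_eq_one.1 ζ.2
      have := congrArg (fun x => (Λ x).toAdd) b
      simp only [map_pow, toAdd_pow, map_one, toAdd_one] at this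
      exact (smul_eq_zero.1 this).resolve_left a.ne'
    simp only [map_mul, toAdd_mul, z, zero_add, map_prod, toAdd_prod, map_zpow, toAdd_zpow,
      dotProduct_sum, dotProduct_smul]
    exact Finset.sum_eq_zero fun s _ => by
      rw [dotProduct_comm, show (Λ (fundSystem L s)).toAdd ⬝ᵥ l i = 0 from congrFun (n3 i) s,
        smul_zero]
  obtain ⟨c₁, hc⟩ := ex_prime Kn.ext hB h2 hr
  obtain ⟨R₂, h₂⟩ := Gx.rp_ex (ι := ι) (J := J) (W := fun _ : Fin 1 => (⊤ : Ideal (𝓞 L)))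
    one_le_two (dvd_refl 2)
  have e0 : 2 ^ c₁ * h * N ≠ 0 := by positivity
  have E0 : h * (2 ^ c₀ * (2 ^ c₁ * h * N) * N) ≠ 0 := by positivity
  obtain ⟨c₂, o, ho, eo⟩ := Nat.exists_eq_two_pow_mul_odd e0
  refine ⟨r, c₂ + v2 ((h * (2 ^ c₀ * (2 ^ c₁ * h * N) * N)) ^ (R₂.card + (rank L + 1))),
    fun t t0 m B m2 mB => ?_⟩
  let ρ : ℤ_[2] →+* ZMod (2 ^ B) := PadicInt.toZModPow B
  have ρ0 : ∀ x, ρ x = 0 ↔ 2 ^ B ∣ x := fun x => by
    rw [← RingHom.mem_ker, PadicInt.ker_toZModPow, mem_span_singleton, Nat.cast_ofNat]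
  have ρs : Function.Surjective ρ := ZMod.ringHom_surjective ρ
  have lg : Lg ι J fun x => ρ ∘ ℓ x := ⟨fun x y a b => funext fun i => by simp [l1 x y a b],
    fun x a => by simp only [l2 x B a, funext_iff, Function.comp, Pi.zero_apply, ρ0], fun y => by
      choose y' hy using fun i => ρs (y i)
      obtain ⟨x, a, b, c⟩ := l3 y' B 2 two_ne_zero
      exact ⟨x, a, (sup_eq_top_iff_isCoprime _ _).1 b, funext fun i => by
        rw [← hy, ← sub_eq_zero, Function.comp, ← map_sub, ρ0]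
        exact c i⟩⟩
  let g : 𝓞 L → Fin (rank L + 1) → ZMod (2 ^ B) := fun x => ρ ∘ ℓ ((x : L) ^ N)
  have g1 : ∀ x y, IsCoprime x 2 → IsCoprime y 2 → g (x * y) = g x + g y := fun x y a b =>
    (congrArg (fun x => ρ ∘ ℓ x) (cm x y)).trans (lg.add _ _ (v1 x a) (v1 y b))
  obtain ⟨g2, g3⟩ := pa (p := fun x : 𝓞 L => IsCoprime x 2) isCoprime_one_left
    (fun _ _ => IsCoprime.mul_left) g1
  have g4 : ∀ x : 𝓞 L, V1 ι J 2 (x : L) → g x = N • ρ ∘ ℓ x := fun x a =>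
    ((pa (f := fun x => ρ ∘ ℓ x) Gx.v1_one (fun _ _ => Gx.v1_mul) lg.add).1 _ N a).2
  have g5 : ∀ i x y, IsCoprime x 2 → span {x} = span {y} → ρ ∘ l i ⬝ᵥ g y = ρ ∘ l i ⬝ᵥ g x :=
    fun i x y a e => by
      obtain ⟨w, rfl⟩ := span_singleton_eq_span_singleton.1 e
      rw [g1 x w a (uc w), dotProduct_add, show ρ ∘ l i ⬝ᵥ g w = 0 from
        (ρ.map_dotProduct _ _).symm.trans ((congrArg ρ (lu i w)).trans (map_zero ρ)), add_zero]
  choose! π hπ' using id hπ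
  have π2 : ∀ I, I ≠ ⊥ → I ⊔ span {2} = ⊤ → IsCoprime (π I) 2 := fun I a b => by
    rw [← sup_eq_top_iff_isCoprime, ← hπ' I a, ← isCoprime_iff_sup_eq]
    exact (isCoprime_iff_sup_eq.2 b).pow_left
  have ψ1 : ∀ i x, IsCoprime x 2 → ρ ∘ l i ⬝ᵥ g (π (span {x})) = h • (ρ ∘ l i ⬝ᵥ g x) :=
    fun i x a => by
      rw [← dotProduct_smul, ← (g2 x h a).2]
      exact g5 i _ _ (g2 x h a).1 (by
        rw [← hπ' _ (span_singleton_eq_bot.not.2 (ne2 a)), span_singleton_pow])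
  obtain ⟨co, co1, co2⟩ := ex_co L
  let lam' : Fin r → (𝓞 L)ˣ →* Multiplicative (ZMod (2 ^ B)) := fun i =>
    MonoidHom.mk' (fun w => .ofAdd (ρ ∘ μ i ⬝ᵥ fun s => (co w s : ZMod (2 ^ B)))) fun a b =>
      congrArg Multiplicative.ofAdd ((congrArg (ρ ∘ μ i ⬝ᵥ ·) (funext fun s => by
        simp [co1])).trans (dotProduct_add _ _ _))
  let lam : Fin (r + 1) → (𝓞 L)ˣ →* Multiplicative (ZMod (2 ^ B)) := Fin.cons (∏ i, lam' i)⁻¹ lam'
  choose x x1 x2 x3 using fun j => lg.onto (ρ ∘ u j)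
  obtain ⟨W, inj, hW⟩ := pick (fun j (W : Ideal (𝓞 L)) => W.IsMaximal ∧ 2 ∉ W ∧ t ∉ W ∧
      Ine L₂ W ∧ (∀ i, ρ ∘ l i ⬝ᵥ g (π W) = if i = j then ((2 ^ c₁ * h * N : ℕ) : ZMod (2 ^ B)) else 0) ∧
      ∃ δ : Lˣ →* Multiplicative (ZMod (2 ^ B)),
      (∀ (b : Lˣ) (x : 𝓞 L), (b : L) = x → x - 1 ∈ W → δ b = 1) ∧
      ∀ w : (𝓞 L)ˣ, δ (Units.map (algebraMap (𝓞 L) L : 𝓞 L →* L) w) = lam j w ^ 2 ^ c₁)
    fun j S => by
      obtain ⟨W, a1, a2, a3, a4, a5⟩ := hc B (B + 2) _ (fun i I => ρ ∘ l i ⬝ᵥ g (π I))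
        (fun i I I' a b c d => by
          rw [← dotProduct_add, ← g1 _ _ (π2 I a c) (π2 I' b d)]
          exact g5 i _ _ ((π2 I a c).mul_left (π2 I' b d)) (by
            rw [← hπ' _ (mul_ne_zero a b), mul_pow, hπ' I a, hπ' I' b,
              span_singleton_mul_span_singleton]))
        (fun i y a b c => by
          have k := Gx.v1_mono (Nat.le_add_left 2 B) b
          rw [ψ1 i y ((sup_eq_top_iff_isCoprime _ _).1 c), g4 y k, (lg.zero _ k).1 b]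
          simp)
        (span {x j}) (span_singleton_eq_bot.not.2 (ne2 (x2 j)))
        ((sup_eq_top_iff_isCoprime _ _).2 (x2 j)) (lam j)
        (S.image absNorm ∪ insert 2 (absNorm (span {t})).primeFactors)
      simp only [Finset.mem_union, Finset.mem_insert, not_or] at a2
      have p := isPrime_of_irreducible_absNorm (Nat.irreducible_iff_nat_prime _ |>.2 a1)
      refine ⟨W, fun m => a2.1 (Finset.mem_image_of_mem _ m),
        p.isMaximal (absNorm_eq_zero_iff.not.1 a1.ne_zero), fun m => a2.2.1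
          ((Nat.prime_dvd_prime_iff_eq a1 Nat.prime_two).1 (nat_dvd p a1 (absNorm_mem W) m)),
        fun m => a2.2.2 (Nat.mem_primeFactors.2 ⟨a1, absNorm_dvd_absNorm_of_le
          ((span_singleton_le_iff_mem _).2 m), by simpa using t0⟩), a3, fun i => ?_, a5⟩
      rw [a4, ψ1 i _ (x2 j), g4 _ (x1 j), x3, dotProduct_smul, ← ρ.map_dotProduct, n4]
      split_ifs <;> simp [mul_assoc]
  choose w1 w2 w3 w4 w5 δ w6 w7 using hW
  have W0 : ∀ i, W i ≠ ⊥ := fun i => Ring.ne_bot_of_isMaximal_of_not_isField (w1 i)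
    (RingOfIntegers.not_isField L)
  have wπ : ∀ j, IsCoprime (π (W j)) 2 := fun j =>
    π2 _ (W0 j) (sup_comm (W j) _ ▸ Cm.cop_of (w1 j) (mem_span_singleton_self 2) (w2 j))
  obtain ⟨Φ, φ, X, -, hφ⟩ := aux_of w1 inj w3 hπ δ w6 fun w => by
    simp only [w7, Finset.prod_pow]
    rw [Fin.prod_univ_succ]
    simp [lam]
  have mB' : m ≤ B + 2 := mB.trans (Nat.le_add_right B 2)
  have gu : ∀ z : Fin (rank L) → ZMod (2 ^ B), g (∏ s, fundSystem L s ^ (z s).val : (𝓞 L)ˣ) =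
      ∑ s, z s • ρ ∘ (Λ (fundSystem L s)).toAdd := fun z => by
    simp only [Units.coe_prod, Units.val_pow_eq_pow_val, (g3 _ _ _ fun s => uc _).2, vs]
    rfl
  refine ⟨W, Φ, φ, X, w4, fun t' R _ t2 hR => le_add_left ((padicValNat_dvd_iff_le
    (pow_ne_zero _ E0)).1 (pow_padicValNat_dvd.trans (rp_dvd lg (by omega) mB W0 E0 h₂
      (fun I I0 I2 => ?_) t2 hR))), fun y => ?_⟩
  · obtain ⟨z, hz⟩ := lin_mod n4 n5 ρ ρs ((2 ^ c₁ * h * N) • g (π I) -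
      ∑ j, (ρ ∘ l j ⬝ᵥ g (π I)) • g (π (W j))) fun i => by
        simp only [dotProduct_sub, dotProduct_sum, dotProduct_smul, w5, smul_eq_mul, mul_ite,
          mul_zero, Finset.sum_ite_eq, Finset.mem_univ, if_true]
        rw [nsmul_eq_mul, mul_comm, sub_self]
    obtain ⟨a1, a2⟩ := g2 _ (2 ^ c₀ * (2 ^ c₁ * h * N)) (π2 I I0 I2)
    obtain ⟨b1, b2⟩ := g3 _ _ (fun j => 2 ^ c₀ * (ρ ∘ l j ⬝ᵥ g (π I)).val) wπ
    have b3 := b1.mul_left (uc (∏ s, fundSystem L s ^ (z s).val))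
    refine ⟨_, Gx.v1_mono mB' (lg.cg (v1 _ a1) (v1 _ b3) (show g _ = g _ from ?_)), _ ^ N, _ ^ N,
      0, fun j => h * (2 ^ c₀ * (ρ ∘ l j ⬝ᵥ g (π I)).val) * N, pow_ne_zero _ (ne2 a1),
      pow_ne_zero _ (ne2 b3), ?_, ?_⟩
    · rw [g1 _ _ b1 (uc _), a2, b2, gu, show ∑ s, z s • ρ ∘ (Λ (fundSystem L s)).toAdd = _ from hz]
      simp only [mul_smul (2 ^ c₀), vs, ← Finset.smul_sum, ← smul_add, add_sub_cancel]
    · simp only [RingOfIntegers.coe_eq_algebraMap, map_pow (algebraMap (𝓞 L) L) _ N]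
      exact div_mul_cancel₀ _ (pow_ne_zero _ (RingOfIntegers.coe_ne_zero_iff.2 (ne2 b3)))
    · rw [← span_singleton_pow, span_singleton_mul_right_unit (Units.isUnit _), pow_mul I,
        hπ' I I0, ← prod_span_singleton, ← pow_mul, ← span_singleton_pow, ← Finset.prod_pow]
      simp only [← span_singleton_pow, ← hπ' _ (W0 _), ← pow_mul, Pi.zero_apply, pow_zero,
        Finset.prod_const_one, mul_one]
      exact mul_comm _ _
  · obtain ⟨o', ho'⟩ := ((ZMod.isUnit_iff_coprime o (2 ^ B)).2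
      ((Nat.coprime_two_right.2 ho).pow_right B)).exists_right_inv
    generalize v2 _ = c₃
    let z : Fin (rank L) → ZMod (2 ^ B) := ∑ j, (o' * 2 ^ c₃ * y j) • ρ ∘ k j
    let w : (𝓞 L)ˣ := ∏ s, fundSystem L s ^ (z s).val
    have a1 : g w = 0 := by
      rw [gu]
      funext i
      have : ∀ j, ∑ s, ρ (k j s) * ρ ((Λ (fundSystem L s)).toAdd i) = 0 := fun j => by
        simpa [vecMul, dotProduct] using congrArg ρ (congrFun (n1 j) i)
      simp only [z, Finset.sum_apply, Pi.smul_apply, smul_eq_mul, Function.comp, Finset.sum_mul,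
        mul_assoc]
      rw [Finset.sum_comm]
      simp only [← Finset.mul_sum, this, mul_zero, Finset.sum_const_zero, Pi.zero_apply]
    have a2 : ∀ s, (co w s : ZMod (2 ^ B)) = z s := fun s => by
      rw [co2, Int.cast_natCast, ZMod.natCast_zmod_val]
    refine ⟨((w ^ N : (𝓞 L)ˣ) : 𝓞 L), ⟨Gx.v1_mono mB' ((lg.zero _ (v1 _ (uc w))).2 a1),
      (w ^ N : (𝓞 L)ˣ), 1, 0, 0, Units.ne_zero _, one_ne_zero, mul_one _, by
        rw [span_singleton_eq_top.2 (Units.isUnit _), span_singleton_one]⟩, fun i => ?_⟩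
    let v : HeightOneSpectrum (𝓞 L) := ⟨W i.succ, (w1 _).isPrime, W0 _⟩
    refine (hφ i.succ v rfl (Units.map (algebraMap (𝓞 L) L : 𝓞 L →* L) (w ^ N))).trans ?_
    rw [w7, show P022.C.ordv v _ = 0 from (P022K.Exi.od_int (a := (w ^ N : (𝓞 L)ˣ)) rfl).2
      (notMem_of_isUnit _ (Units.isUnit _)), zero_smul, add_zero, map_pow (lam _), toAdd_pow,
      toAdd_pow,
      smul_smul, smul_smul, mul_comm h, eo]
    have a3 : (lam i.succ w).toAdd = o' * 2 ^ c₃ * y i := by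
      show (ρ ∘ μ i ⬝ᵥ fun s => (co w s : ZMod (2 ^ B))) = _
      simp only [a2]
      show ρ ∘ μ i ⬝ᵥ z = _
      simp [z, dotProduct_sum, ← ρ.map_dotProduct, n2, apply_ite ρ]
    rw [a3, nsmul_eq_mul]
    push_cast
    linear_combination 2 ^ c₂ * 2 ^ c₃ * y i * ho'

end Vale.Agent.P004C.Al
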