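import Vale.Agent.P004C.Al.Cub0
import Vale.Agent.P004C.Al.A8

/-!
# P004 C, block AL: the row `BD1`
-/

open NumberField Module IsDedekindDomain
open scoped Classical

noncomputable section

namespace Vale.Agent.P004C.Al

open Cb

/-- **row BD1** -/
theorem bd1 (h0 : A0) (h5 : A5) (h8 : A8) (h9 : A9) (hU : UMF) (hD : DVF) (hP : PAI) : BD1 := by
  intro K _ _ ι J Ω B A L L₂ _ _ _ _ _ _ _ _ _ _ _ _ _ _ _ _ γ k s q p s0 i h
  let F (m : ℕ) : Subgroup Aˣ := Em (dd ∅) (ua (γ ^ 2 ^ k)) (UL ι J L₂ m)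
  have f : Fi F := Rk.Fi.inf (Rk.Fi.inf (Rk.Fi.inf (hU K ι J Ω B A).1 _) _) _
  have st {σ : A ≃ₐ[K] A} (c : σ * γ = γ * σ) (pσ : Pres L₂ σ) (m) : (F m).map (ua σ) ≤ F m := by
    rintro _ ⟨x, ⟨⟨a, b⟩, e⟩, rfl⟩
    refine ⟨⟨ul_st hU B pσ m ⟨x, a, rfl⟩, ?_⟩, ?_⟩
    · exact ((hD K ι J Ω B A).1 σ x).trans ((congrArg _ b).trans (map_one _))
    · show ua σ x * ua _ (ua σ x) = 1
      rw [← ua_cm (Commute.pow_right c _ :), ← map_mul]
      exact (congrArg _ e).trans (map_one _)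
  have e (x) (hx : x ∈ F 2) : (ua γ)^[2 ^ k] x = x⁻¹ :=
    (ua_pow γ _ x).trans (eq_inv_of_mul_eq_one_right hx.2)
  have r (m) (hm : 2 ≤ m) := hP K ι J Ω B A L L₂ _ q m hm
  obtain ⟨a, h2, ha⟩ : ∃ a, 2 ≤ a ∧ ∀ j, 2 ^ (finrank K L * j) ∣ (F (a + j + 1)).relIndex (F a) := by
    rcases h with h | ⟨h, σ, ss, c, pσ, hσ⟩
    · obtain ⟨a, h2, ha⟩ := h8 _ F _ k f (st rfl p) e fun m hm => h ▸ (r m hm).2.2.2.1
      refine ⟨a, h2, fun j => ?_⟩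
      rw [add_assoc, ha, h]
      exact pow_dvd_pow _ (Nat.mul_le_mul_left _ j.le_succ)
    · rw [h]
      exact h9 _ F _ _ k f (st rfl p) (st c pσ) e (fun x _ => by rw [← ua_mul, ss, ua_one])
        (ua_cm c) fun m hm => ⟨h ▸ (r m hm).2.2.2.1, hσ m hm⟩
  let H (m : ℕ) := hS ι J L L₂ (γ ^ 2 ^ k) (Ss ι J A s) m
  refine ⟨v2 (H a * 2 ^ finrank K L) + ∑ m ∈ Finset.range (a + 1), v2 (H m), fun m _ => ?_⟩
  rcases le_or_gt m a with hm | hm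
  · exact (Finset.single_le_sum (f := fun m => v2 (H m)) (fun _ _ => Nat.zero_le _)
      (Finset.mem_range_succ_iff.2 hm)).trans (Nat.le_add_left _ _)
  obtain ⟨j, rfl⟩ := Nat.exists_eq_add_of_lt hm
  have l := Rk.anti (hU K ι J Ω B A).1 (by omega : a ≤ a + j + 1)
  have d := h5 _ _ _ _ _ _ _ _ _ _ _ (pa hD hP B q s h2) (pa hD hP B q s (by omega : 2 ≤ a + j + 1))
    (inf_le_inf_right _ l) (inf_le_inf_right _ l)
  rw [(r _ h2).2.2.2.2 s i, (r _ (by omega)).2.2.2.2 s i, add_assoc, (r _ h2).2.1, mul_add, pow_add,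
    mul_one, mul_comm (2 ^ _), ← mul_assoc, ← add_assoc] at d
  exact ((padicValNat_dvd_iff_le (mul_ne_zero (hs_ne h0 hD hP B q s0 h2) (by positivity))).1
    (pow_padicValNat_dvd.trans (Nat.dvd_of_mul_dvd_mul_right (by positivity)
      ((mul_dvd_mul_left _ (ha j)).trans d)))).trans (Nat.le_add_right _ _)

end Vale.Agent.P004C.Al
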