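import Mathlib
import Vale.Agent.P016Z.Cheb.Basic

/-!
# P004 C, block AL: factorisation of `L`-series in an extension (row EUL)
-/

open NumberField Ideal Polynomial Function
open scoped Classical

noncomputable section

namespace Vale.Agent.P004C.Al

/-- completely multiplicative -/
structure Cm {O R : Type*} [CommRing O] [CommRing R] (a : Ideal O → R) : Prop where
  one : a 1 = 1
  mul : ∀ I J, a (I * J) = a I * a J

/-- the Euler factors at `P` agree -/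
def Loc {M : Type} [Field M] (M' : Type) [Field M'] [Algebra M M'] {ι : Type} [Fintype ι]
    (ψ : ι → Ideal (𝓞 M) → ℂ) (P : Ideal (𝓞 M)) : Prop :=
  ∏ᶠ Q ∈ P.primesOver (𝓞 M'), (1 - X ^ Q.inertiaDeg (𝓞 M) : ℂ[X]) = ∏ i, (1 - C (ψ i P) * X)

namespace Eu

section

variable {O R : Type*} [CommRing O] [CommRing R] {a : Ideal O → R}

theorem _root_.Vale.Agent.P004C.Al.Cm.pow (h : Cm a) (I : Ideal O) (n : ℕ) :
    a (I ^ n) = a I ^ n := by
  induction n with
  | zero => rw [pow_zero, pow_zero, h.one]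
  | succ n ih => rw [pow_succ, pow_succ, h.mul, ih]

theorem _root_.Vale.Agent.P004C.Al.Cm.prod (h : Cm a) {ι : Type*} (s : Finset ι)
    (I : ι → Ideal O) : a (∏ i ∈ s, I i) = ∏ i ∈ s, a (I i) := by
  induction s using Finset.induction_on with
  | empty => simpa using h.one
  | insert i s hi ih => rw [Finset.prod_insert hi, Finset.prod_insert hi, h.mul, ih]

variable [IsDedekindDomain O]

theorem sieve (h : Cm a) (fin : (support a).Finite) (S : Finset (Ideal O))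
    (hS : ∀ P ∈ S, Prime P) : (∑ᶠ I, a I) * ∏ P ∈ S, (1 - a P) =
      ∑ᶠ I, if ∀ P ∈ S, ¬P ∣ I then a I else 0 := by
  induction S using Finset.induction_on with
  | empty => simp
  | insert P S hP ih =>
    have pP := hS P (Finset.mem_insert_self _ _)
    have pS : ∀ Q ∈ S, Prime Q := fun Q hQ => hS Q (Finset.mem_insert_of_mem hQ)
    set b := fun I => if ∀ Q ∈ S, ¬Q ∣ I then a I else 0 with hb
    have fb : (support b).Finite := fin.subset fun I hI e => hI (by simp [hb, e])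
    have e1 : ∀ I, b (P * I) = a P * b I := fun I => by
      have : (∀ Q ∈ S, ¬Q ∣ P * I) ↔ ∀ Q ∈ S, ¬Q ∣ I := forall₂_congr fun Q hQ => by
        rw [(pS Q hQ).dvd_mul, or_iff_right fun d => hP ?_]
        rwa [← associated_iff_eq.1 (((pS Q hQ).dvd_prime_iff_associated pP).1 d)]
      simp only [hb, this, h.mul, mul_ite, mul_zero]
    have e2 : ∑ᶠ J, (if P ∣ J then b J else 0) = a P * ∑ᶠ I, b I := by
      rw [mul_finsum' _ _ fb, ← finsum_congr e1,
        ← finsum_mem_range (f := b) (mul_right_injective₀ pP.ne_zero)]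
      refine finsum_congr fun J => ?_
      rw [finsum_eq_if]
      exact if_congr ⟨fun ⟨c, e⟩ => ⟨c, e.symm⟩, fun ⟨c, e⟩ => ⟨c, e.symm⟩⟩ rfl rfl
    rw [Finset.prod_insert hP, mul_left_comm, ih pS, sub_mul, one_mul, ← e2,
      ← finsum_sub_distrib fb (fb.subset fun I hI e => hI (by simp [e]))]
    refine finsum_congr fun J => ?_
    by_cases d : P ∣ J <;> simp [hb, d]

/-- the finite Euler product -/
theorem euler (h : Cm a) (fin : (support a).Finite) (h0 : a ⊥ = 0) (S : Finset (Ideal O))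
    (hS : ∀ P ∈ S, Prime P) (hS' : ∀ P, Prime P → a P ≠ 0 → P ∈ S) :
    (∑ᶠ I, a I) * ∏ P ∈ S, (1 - a P) = 1 := by
  rw [sieve h fin S hS, finsum_eq_single _ 1 fun I hI => ?_,
    if_pos fun P hP => (hS P hP).not_dvd_one, h.one]
  split_ifs with k
  · by_contra n
    obtain ⟨P, hP, J, rfl⟩ := WfDvdMonoid.exists_irreducible_factor
      (fun u => hI (isUnit_iff_eq_one.1 u)) (fun e : I = 0 => n (e ▸ h0))
    exact k P (hS' P hP.prime fun e => n (by rw [h.mul, e, zero_mul])) (dvd_mul_right _ _)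
  · rfl

end

variable {M M' : Type} [Field M] [NumberField M] [Field M'] [NumberField M'] [Algebra M M']
  {ι : Type} [Fintype ι] {ψ : ι → Ideal (𝓞 M) → ℂ}

theorem fin_fib (s : Set (Ideal (𝓞 M))) (hs : s.Finite) :
    {I' : Ideal (𝓞 M') | relNorm (𝓞 M) I' ∈ s}.Finite :=
  (hs.biUnion fun I _ => finite_setOfPred_absNorm_le (S := 𝓞 M') (absNorm I)).subset
    fun I' h => Set.mem_biUnion h (absNorm_relNorm (𝓞 M) (𝓞 M') I').ge

theorem prime_iff {P : Ideal (𝓞 M)} : Prime P ↔ P.IsMaximal :=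
  ⟨fun h => (isPrime_of_prime h).isMaximal h.ne_zero, fun h =>
    prime_of_isPrime (Ring.ne_bot_of_isMaximal_of_not_isField h (RingOfIntegers.not_isField M))
      h.isPrime⟩

theorem norm_max (Q : Ideal (𝓞 M')) [Q.IsMaximal] :
    relNorm (𝓞 M) Q = Q.under (𝓞 M) ^ Q.inertiaDeg (𝓞 M) :=
  relNorm_eq_pow_of_isMaximal Q _

/-- the identity for finitely supported characters with values in any algebra -/
theorem alg {R : Type*} [CommRing R] [Algebra ℂ R] {x : Ideal (𝓞 M) → R} (hx : Cm x)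
    (fin : (support x).Finite) (x0 : x ⊥ = 0) (hψ : ∀ i, Cm (ψ i))
    (loc : ∀ P, P.IsMaximal → x P ≠ 0 → Loc M' ψ P) :
    ∑ᶠ I' : Ideal (𝓞 M'), x (relNorm (𝓞 M) I') = ∏ i, ∑ᶠ I, ψ i I • x I := by
  set S := fin.toFinset.filter Prime
  have mS : ∀ P, P ∈ S ↔ x P ≠ 0 ∧ Prime P := fun P => by simp [S]
  have fS : {Q : Ideal (𝓞 M') | Q.IsMaximal ∧ Q.under (𝓞 M) ∈ S}.Finite :=
    (S.finite_toSet.biUnion fun P hP => (have := prime_iff.1 ((mS P).1 hP).2
      IsDedekindDomain.primesOver_finite P (𝓞 M'))).subset fun Q hQ =>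
        Set.mem_biUnion hQ.2 ⟨hQ.1.isPrime, ⟨rfl⟩⟩
  have e1 := euler (a := fun I' : Ideal (𝓞 M') => x (relNorm (𝓞 M) I'))
    ⟨by rw [map_one, hx.one], fun I J => by rw [map_mul, hx.mul]⟩ (fin_fib _ fin)
    (by rw [relNorm_bot, x0]) fS.toFinset
    (fun Q hQ => prime_iff.2 (fS.mem_toFinset.1 hQ).1) fun Q hQ n => by
      have := prime_iff.1 hQ
      rw [norm_max, hx.pow] at n
      exact fS.mem_toFinset.2 ⟨this, (mS _).2 ⟨fun e => n (by
        rw [e, zero_pow (inertiaDeg_pos Q (𝓞 M)).ne']), prime_iff.2 inferInstance⟩⟩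
  have e2 : ∀ i, (∑ᶠ I, ψ i I • x I) * ∏ P ∈ S, (1 - ψ i P • x P) = 1 := fun i =>
    euler (a := fun I => ψ i I • x I) ⟨by rw [(hψ i).one, hx.one, one_smul], fun I J => by
      rw [(hψ i).mul, hx.mul, smul_mul_smul_comm]⟩
      (fin.subset fun I hI e => hI (by simp only [e, smul_zero])) (by rw [x0, smul_zero]) S
      (fun P hP => ((mS P).1 hP).2) fun P hP n => (mS P).2 ⟨fun e => n (by rw [e, smul_zero]), hP⟩
  have e3 : ∏ Q ∈ fS.toFinset, (1 - x (relNorm (𝓞 M) Q)) = ∏ i, ∏ P ∈ S, (1 - ψ i P • x P) := by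
    rw [Finset.prod_comm, ← Finset.prod_fiberwise_of_maps_to (g := fun Q => Q.under (𝓞 M))
      fun Q hQ => (fS.mem_toFinset.1 hQ).2]
    refine Finset.prod_congr rfl fun P hP => ?_
    have mP := prime_iff.1 ((mS P).1 hP).2
    have l := congrArg (aeval (x P)) (loc P mP ((mS P).1 hP).1)
    have k : P.primesOver (𝓞 M') = ↑(fS.toFinset.filter fun Q => Q.under (𝓞 M) = P) :=
      Set.ext fun Q => by
        simp only [Finset.coe_filter, Set.Finite.mem_toFinset, Set.mem_ofPred_eq]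
        exact ⟨fun ⟨k1, k2⟩ => ⟨⟨IsMaximal.of_liesOver_isMaximal Q P, k2.1 ▸ hP⟩, k2.1.symm⟩,
          fun ⟨k1, k2⟩ => ⟨k1.1.isPrime, ⟨k2.symm⟩⟩⟩
    rw [k, finprod_mem_coe_finset] at l
    simp only [map_prod, map_sub, map_one, map_pow, map_mul, aeval_X, aeval_C,
      ← Algebra.smul_def] at l
    rw [← l]
    refine Finset.prod_congr rfl fun Q hQ => ?_
    have ⟨k1, k2⟩ := Finset.mem_filter.1 hQ
    have := (fS.mem_toFinset.1 k1).1
    rw [norm_max, hx.pow, k2]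
  have e4 : (∏ i, ∑ᶠ I, ψ i I • x I) * ∏ i, ∏ P ∈ S, (1 - ψ i P • x P) = 1 := by
    rw [← Finset.prod_mul_distrib, Finset.prod_eq_one fun i _ => e2 i]
  rw [e3] at e1
  exact left_inv_eq_right_inv e1 (mul_comm _ _ |>.trans e4)

theorem fin_dvd {I₀ : Ideal (𝓞 M)} (h0 : I₀ ≠ ⊥) : {I | I ∣ I₀}.Finite :=
  (finite_setOfPred_absNorm_le (absNorm I₀)).subset fun _ h => Nat.le_of_dvd
    (Nat.pos_of_ne_zero (absNorm_eq_zero_iff.not.2 h0)) (map_dvd absNorm h)

/-- the number of ideals of a given norm -/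
theorem count {I₀ : Ideal (𝓞 M)} (h0 : I₀ ≠ ⊥) (hψ : ∀ i, Cm (ψ i))
    (loc : ∀ P, P.IsMaximal → P ∣ I₀ → Loc M' ψ P) :
    ∑' _ : (relNorm (𝓞 M) : Ideal (𝓞 M') → _) ⁻¹' {I₀}, (1 : ℂ) =
      ∑' t : (fun t : ι → Ideal (𝓞 M) => ∏ i, t i) ⁻¹' {I₀}, ∏ i, ψ i (t.1 i) := by
  let 𝔧 : Ideal (MonoidAlgebra ℂ (Ideal (𝓞 M))) :=
    { carrier := {z | ∀ I, I ∣ I₀ → z.coeff I = 0}
      add_mem' := fun h k I d => by simp [h I d, k I d]
      zero_mem' := fun I _ => rfl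
      smul_mem' := fun w z h I d => by
        rw [smul_eq_mul, MonoidAlgebra.coeff_mul]
        refine Finset.sum_eq_zero fun A _ => Finset.sum_eq_zero fun B _ => ?_
        dsimp only
        split_ifs with e
        · rw [h B ((Dvd.intro_left _ e).trans d), mul_zero]
        · rfl }
  let x := fun I => Ideal.Quotient.mk 𝔧 (MonoidAlgebra.single I 1)
  have sx : ∀ I, x I ≠ 0 → I ∣ I₀ := fun I => not_imp_comm.1 fun n =>
    Ideal.Quotient.eq_zero_iff_mem.2 fun J d => Finsupp.single_eq_of_ne fun e => n (e ▸ d)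
  have f1 := fin_dvd h0
  have f2 := fin_fib (M' := M') _ f1
  have e := alg (M' := M') (x := x) ⟨rfl, fun I J => by
    simp only [x, ← map_mul, MonoidAlgebra.single_mul_single, mul_one]⟩ (f1.subset sx)
    (by_contra fun n => h0 (zero_dvd_iff.1 (sx _ n))) hψ fun P hP n => loc P hP (sx P n)
  rw [finsum_eq_sum_of_support_subset (s := f2.toFinset) _ fun I hI => by simpa using sx _ hI,
    Finset.prod_congr rfl fun i _ => finsum_eq_sum_of_support_subset (s := f1.toFinset) _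
      fun I hI => by simpa using sx I fun e => hI (by simp only [e, smul_zero]),
    Finset.prod_univ_sum] at e
  have k : ∀ i I, ψ i I • x I = Ideal.Quotient.mk 𝔧 (MonoidAlgebra.single I (ψ i I)) := fun i I => by
    rw [← mul_one (ψ i I), ← MonoidAlgebra.smul_single', mul_one]; rfl
  simp only [k, x, ← map_prod, ← map_sum, MonoidAlgebra.prod_single] at e
  have c := Ideal.Quotient.eq.1 e I₀ dvd_rfl
  simp only [MonoidAlgebra.coeff_sub, MonoidAlgebra.coeff_sum, MonoidAlgebra.coeff_single,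
    Finsupp.sub_apply, Finsupp.finsetSum_apply, Finsupp.single_apply, sub_eq_zero] at c
  rw [tsum_subtype _ fun _ => (1 : ℂ), tsum_subtype _ fun t : ι → Ideal (𝓞 M) => ∏ i, ψ i (t i),
    tsum_eq_sum (s := f2.toFinset) fun I hI => ?_,
    tsum_eq_sum (s := Fintype.piFinset fun _ => f1.toFinset) fun t ht => ?_]
  · simpa only [Set.indicator_apply, Set.mem_preimage, Set.mem_singleton_iff] using c
  · rw [Set.indicator_of_notMem]
    exact fun e => ht (Fintype.mem_piFinset.2 fun i => f1.mem_toFinset.2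
      ((Finset.dvd_prod_of_mem t (Finset.mem_univ i)).trans (dvd_of_eq e)))
  · rw [Set.indicator_of_notMem]
    exact fun e => hI (f2.mem_toFinset.2 (dvd_of_eq e))

theorem fib {F : Ideal (𝓞 M) → ℂ} (hψ : ∀ i, Cm (ψ i)) (F0 : F ⊥ = 0)
    (loc : ∀ I P, F I ≠ 0 → P.IsMaximal → P ∣ I → Loc M' ψ P) (c : Ideal (𝓞 M)) :
    ∑' b : (relNorm (𝓞 M) : Ideal (𝓞 M') → _) ⁻¹' {c}, F (relNorm (𝓞 M) b.1) =
      ∑' t : (fun t : ι → Ideal (𝓞 M) => ∏ i, t i) ⁻¹' {c}, (∏ i, ψ i (t.1 i)) * F (∏ i, t.1 i) := by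
  refine (tsum_congr fun b => (congrArg F b.2).trans (one_mul _).symm).trans
    (Eq.trans ?_ (tsum_congr fun t => congrArg (fun I => _ * F I) t.2).symm)
  rw [tsum_mul_right, tsum_mul_right]
  by_cases e : F c = 0
  · rw [e, mul_zero, mul_zero]
  · rw [count (fun k : c = ⊥ => e (k ▸ F0)) hψ fun P => loc c P e]

theorem fin_sum {α : Type} (n : ℕ) : ∀ f : Fin n → α → ℂ,
    (∀ i, Summable fun x => ‖f i x‖) → (Summable fun t : Fin n → α => ‖∏ i, f i (t i)‖) ∧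
      ∑' t : Fin n → α, ∏ i, f i (t i) = ∏ i, ∑' x, f i x := by
  induction n with
  | zero => exact fun f _ => ⟨.of_finite, by simp⟩
  | succ n ih =>
    intro f hf
    have ⟨k1, k2⟩ := ih (fun i => f i.succ) fun i => hf _
    have k : ∀ p : α × (Fin n → α), ∏ i, f i (Fin.consEquiv (fun _ => α) p i) =
        f 0 p.1 * ∏ i : Fin n, f i.succ (p.2 i) := fun p => by rw [Fin.prod_univ_succ]; rfl
    have s := (hf 0).mul_norm k1
    refine ⟨(Fin.consEquiv fun _ => α).summable_iff.1 (s.congr fun p => congrArg norm (k p).symm), ?_⟩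
    rw [← (Fin.consEquiv fun _ => α).tsum_eq, tsum_congr k, Fin.prod_univ_succ, ← k2,
      tsum_mul_tsum_of_summable_norm (hf 0) k1]

theorem pi_sum {α : Type} (ι : Type) [Fintype ι] (f : ι → α → ℂ)
    (hf : ∀ i, Summable fun x => ‖f i x‖) : (Summable fun t : ι → α => ‖∏ i, f i (t i)‖) ∧
      ∑' t : ι → α, ∏ i, f i (t i) = ∏ i, ∑' x, f i x := by
  let e := (Fintype.equivFin ι).symm
  have ⟨k1, k2⟩ := fin_sum _ (fun i => f (e i)) fun i => hf _
  have k : ∀ t, ∏ i, f i ((e.arrowCongr (Equiv.refl α)) t i) = ∏ i, f (e i) (t i) :=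
    fun t => (e.prod_comp _).symm.trans (by simp)
  refine ⟨(e.arrowCongr (Equiv.refl α)).summable_iff.1 (k1.congr fun t => congrArg norm (k t).symm),
    ?_⟩
  rw [← (e.arrowCongr (Equiv.refl α)).tsum_eq, tsum_congr k, k2]
  exact e.prod_comp fun i => ∑' x, f i x

end Eu

open Eu

variable {M M' : Type} [Field M] [NumberField M] [Field M'] [NumberField M'] [Algebra M M']
  {ι : Type} [Fintype ι] {ψ : ι → Ideal (𝓞 M) → ℂ}

/-- **sums over the ideals of the extension** -/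
theorem eul {F : Ideal (𝓞 M) → ℂ} (hψ : ∀ i, Cm (ψ i)) (h1 : ∀ i I, ‖ψ i I‖ ≤ 1) (F0 : F ⊥ = 0)
    (loc : ∀ I P, F I ≠ 0 → P.IsMaximal → P ∣ I → Loc M' ψ P)
    (hs : Summable fun t : ι → Ideal (𝓞 M) => ‖F (∏ i, t i)‖) :
    (Summable fun I' : Ideal (𝓞 M') => ‖F (relNorm (𝓞 M) I')‖) ∧
      (Summable fun t : ι → Ideal (𝓞 M) => ‖(∏ i, ψ i (t i)) * F (∏ i, t i)‖) ∧
      ∑' I' : Ideal (𝓞 M'), F (relNorm (𝓞 M) I') =
        ∑' t : ι → Ideal (𝓞 M), (∏ i, ψ i (t i)) * F (∏ i, t i) := by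
  have w : ∀ (t : ι → Ideal (𝓞 M)) (z : ℂ), ‖(∏ i, ψ i (t i)) * z‖ ≤ ‖z‖ := fun t z => by
    rw [norm_mul, norm_prod]
    exact mul_le_of_le_one_left (norm_nonneg _)
      (Finset.prod_le_one (fun _ _ => norm_nonneg _) fun i _ => h1 i _)
  have s1 : Summable fun I' : Ideal (𝓞 M') => ‖F (relNorm (𝓞 M) I')‖ := by
    rw [← (Equiv.sigmaFiberEquiv (relNorm (𝓞 M) : Ideal (𝓞 M') → _)).summable_iff]
    refine (summable_sigma_of_nonneg fun _ => norm_nonneg _).2 ⟨fun c => ?_,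
      .of_nonneg_of_le (fun _ => tsum_nonneg fun _ => norm_nonneg _) (fun c => ?_)
        (hs.hasSum.tsum_fiberwise fun t => ∏ i, t i).summable⟩
    · have : Finite {I' : Ideal (𝓞 M') // relNorm (𝓞 M) I' = c} :=
        (fin_fib (M' := M') _ (Set.finite_singleton c)).to_subtype
      exact .of_finite
    · have e := fib (M' := M') (F := fun I => (‖F I‖ : ℂ)) hψ (by simp [F0])
        (fun I P n => loc I P (by simpa using n)) c
      rw [← Complex.ofReal_tsum] at e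
      refine (le_abs_self _).trans ((Complex.norm_real _).symm.trans_le (e ▸ ?_))
      exact tsum_of_norm_bounded (hs.subtype _).hasSum fun t => (w _ _).trans_eq (by simp)
  have s2 := Summable.of_nonneg_of_le (fun _ => norm_nonneg _) (fun t => w t _) hs
  exact ⟨s1, s2, (s1.of_norm.hasSum.tsum_fiberwise (relNorm (𝓞 M))).unique (by
    simpa only [fib hψ F0 loc] using s2.of_norm.hasSum.tsum_fiberwise fun t => ∏ i, t i)⟩

variable {a : Ideal (𝓞 M) → ℂ}

/-- a character times a bounded function (group ring form: `u` a function of `Φ I`) -/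
theorem eul_bdd (hψ : ∀ i, Cm (ψ i)) (h1 : ∀ i I, ‖ψ i I‖ ≤ 1) (ha : Cm a) (a0 : a ⊥ = 0)
    (loc : ∀ P, P.IsMaximal → a P ≠ 0 → Loc M' ψ P) (hs : Summable fun I => ‖a I‖)
    {u : Ideal (𝓞 M) → ℂ} {B : ℝ} (hu : ∀ I, ‖u I‖ ≤ B) :
    (Summable fun I' : Ideal (𝓞 M') => ‖a (relNorm (𝓞 M) I') * u (relNorm (𝓞 M) I')‖) ∧
      (Summable fun t : ι → Ideal (𝓞 M) => ‖(∏ i, ψ i (t i) * a (t i)) * u (∏ i, t i)‖) ∧
      ∑' I' : Ideal (𝓞 M'), a (relNorm (𝓞 M) I') * u (relNorm (𝓞 M) I') =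
        ∑' t : ι → Ideal (𝓞 M), (∏ i, ψ i (t i) * a (t i)) * u (∏ i, t i) := by
  have := eul (M' := M') (F := fun I => a I * u I) hψ h1 (by rw [a0, zero_mul])
    (fun I P n hP ⟨J, e⟩ => loc P hP fun k => n (by rw [e, ha.mul, k, zero_mul, zero_mul]))
    (.of_nonneg_of_le (fun _ => norm_nonneg _) (fun t => by
      rw [norm_mul, ha.prod]; exact mul_le_mul_of_nonneg_left (hu _) (norm_nonneg _))
      ((pi_sum ι (fun _ => a) fun _ => hs).1.mul_right B))
  simpa only [ha.prod, Finset.prod_mul_distrib, mul_assoc] using this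

/-- **factorisation of the `L`-series** -/
theorem eul_mul (hψ : ∀ i, Cm (ψ i)) (h1 : ∀ i I, ‖ψ i I‖ ≤ 1) (ha : Cm a) (a0 : a ⊥ = 0)
    (loc : ∀ P, P.IsMaximal → a P ≠ 0 → Loc M' ψ P) (hs : Summable fun I => ‖a I‖) :
    (Summable fun I' : Ideal (𝓞 M') => ‖a (relNorm (𝓞 M) I')‖) ∧
      ∑' I' : Ideal (𝓞 M'), a (relNorm (𝓞 M) I') = ∏ i, ∑' I, ψ i I * a I := by
  have ⟨k1, _, k3⟩ := eul_bdd (M' := M') hψ h1 ha a0 loc hs (u := fun _ => 1) (B := 1) (by simp)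
  simp only [mul_one] at k1 k3
  exact ⟨k1, k3.trans (pi_sum ι (fun i I => ψ i I * a I) fun i => .of_nonneg_of_le
    (fun _ => norm_nonneg _) (fun I => by
      rw [norm_mul]; exact mul_le_of_le_one_left (norm_nonneg _) (h1 i I)) hs).2⟩

theorem sum_norm (M : Type) [Field M] [NumberField M] {s : ℝ} (hs : 1 < s) :
    Summable fun I : Ideal (𝓞 M) => (absNorm I : ℝ) ^ (-s) := by
  rw [← (Equiv.sigmaFiberEquiv fun I : Ideal (𝓞 M) => absNorm I).summable_iff]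
  have h1 : (fun I : Ideal (𝓞 M) => (absNorm I : ℝ) ^ (-s)) ∘
      Equiv.sigmaFiberEquiv (fun I : Ideal (𝓞 M) => absNorm I) = fun x => (x.1 : ℝ) ^ (-s) :=
    funext fun x => congrArg (fun n : ℕ => (n : ℝ) ^ (-s)) x.2.2
  have h2 : ∀ n : ℕ, Finite {I : Ideal (𝓞 M) // absNorm I = n} := fun n =>
    (finite_setOfPred_absNorm_eq n).to_subtype
  rw [h1, summable_sigma_of_nonneg fun x => by positivity]
  refine ⟨fun n => .of_finite, (P016Z.EP.summable_aK M hs).congr fun n => ?_⟩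
  have := Fintype.ofFinite {I : Ideal (𝓞 M) // absNorm I = n}
  simp only [tsum_fintype, Finset.sum_const, Finset.card_univ, nsmul_eq_mul]
  split_ifs with hn
  · subst hn
    rw [Nat.cast_zero, Real.zero_rpow (by linarith), mul_zero]
  · rw [P016Z.aK, Nat.card_eq_fintype_card]

theorem prod_root {ζ : ℂ} {f : ℕ} (h : IsPrimitiveRoot ζ f) (hf : 0 < f) (g : ℕ) :
    ∏ i ∈ Finset.range (g * f), (1 - C (ζ ^ i) * X) = (1 - X ^ f : ℂ[X]) ^ g := by
  induction g with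
  | zero => simp
  | succ g ih =>
    rw [add_mul, one_mul, Finset.prod_range_add, ih, pow_succ]
    congr 1
    refine Polynomial.funext fun z => ?_
    simpa [eval_prod, pow_add, mul_comm g, pow_mul, h.pow_eq_one] using
      congrArg (Polynomial.eval 1) (X_pow_sub_C_eq_prod h (α := z) hf rfl).symm

/-- a good prime for the character `χ` of a cyclic extension -/
def Gp (M' : Type) [Field M'] [Algebra M M'] (χ : Ideal (𝓞 M) → ℂ) (P : Ideal (𝓞 M)) : Prop :=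
  ∃ Q ∈ P.primesOver (𝓞 M'),
    Q.ramificationIdx (𝓞 M) = 1 ∧ IsPrimitiveRoot (χ P) (Q.inertiaDeg (𝓞 M)) ∨
      χ P = 0 ∧ Q.ramificationIdx (𝓞 M) = Module.finrank M M'

theorem Gp.loc [IsGalois M M'] {d : ℕ} (hd : Module.finrank M M' = d) {χ : Ideal (𝓞 M) → ℂ}
    {P : Ideal (𝓞 M)} (hP : P.IsMaximal) (h : Gp M' χ P) :
    Loc M' (fun (i : Fin d) I => χ I ^ (i : ℕ)) P := by
  obtain ⟨Q, ⟨_, _⟩, h⟩ := h
  have d0 : 0 < d := hd ▸ Module.finrank_pos
  have g := ncard_primesOver_mul_ramificationIdxIn_mul_inertiaDegIn P (𝓞 M') Gal(M'/M)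
  have f := IsDedekindDomain.primesOver_finite P (𝓞 M')
  rw [IsGaloisGroup.card_eq_finrank Gal(M'/M) M M', hd,
    ramificationIdxIn_eq_ramificationIdx P Q Gal(M'/M), inertiaDegIn_eq_inertiaDeg P Q Gal(M'/M),
    Set.ncard_eq_toFinset_card _ f] at g
  rw [Loc, finprod_mem_eq_finite_toFinset_prod _ f, Finset.prod_congr rfl
    (g := fun _ => 1 - X ^ Q.inertiaDeg (𝓞 M)) fun Q' hQ' => ?_, Finset.prod_const]
  · rcases h with ⟨e, h⟩ | ⟨h, e⟩
    · rw [e, one_mul] at g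
      rw [Fin.prod_univ_eq_prod_range fun i => 1 - C (χ P ^ i) * X, ← g,
        prod_root h (inertiaDeg_pos Q _)]
    · rw [e, hd, mul_left_comm, mul_eq_left₀ d0.ne'] at g
      rw [Nat.eq_one_of_mul_eq_one_right g, Nat.eq_one_of_mul_eq_one_left g, h,
        Finset.prod_eq_single ⟨0, d0⟩ (fun i _ n => by
          rw [zero_pow fun k => n (Fin.ext k)]; simp) (by simp)]
      simp
  · have ⟨_, _⟩ := f.mem_toFinset.1 hQ'
    rw [inertiaDeg_eq_of_isGaloisGroup P Q' Q Gal(M'/M)]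

omit [NumberField M] in
theorem Cm.npow {χ : Ideal (𝓞 M) → ℂ} (h : Cm χ) (n : ℕ) : Cm fun I => χ I ^ n :=
  ⟨by rw [h.one, one_pow], fun I J => by rw [h.mul, mul_pow]⟩

/-- **cyclic extensions** -/
theorem eul_cyc [IsGalois M M'] {d : ℕ} (hd : Module.finrank M M' = d) {χ : Ideal (𝓞 M) → ℂ}
    (hχ : Cm χ) (h1 : ∀ I, ‖χ I‖ ≤ 1) (ha : Cm a) (a0 : a ⊥ = 0) {s : ℝ} (hs : 1 < s)
    (hb : ∀ I, ‖a I‖ ≤ (absNorm I : ℝ) ^ (-s)) (g : ∀ P, P.IsMaximal → a P ≠ 0 → Gp M' χ P) :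
    (Summable fun I' : Ideal (𝓞 M') => ‖a (relNorm (𝓞 M) I')‖) ∧
      (∀ i : ℕ, Summable fun I => ‖a I * χ I ^ i‖) ∧
      ∑' I' : Ideal (𝓞 M'), a (relNorm (𝓞 M) I') = ∏ i ∈ Finset.range d, ∑' I, a I * χ I ^ i := by
  have s1 := Summable.of_nonneg_of_le (fun _ => norm_nonneg _) hb (sum_norm M hs)
  have h2 : ∀ (i : ℕ) I, ‖χ I ^ i‖ ≤ 1 := fun i I =>
    (norm_pow _ _).trans_le (pow_le_one₀ (norm_nonneg _) (h1 I))
  have ⟨k1, k2⟩ := eul_mul (M' := M') (ψ := fun (i : Fin d) I => χ I ^ (i : ℕ))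
    (fun i => hχ.npow i) (fun i => h2 i) ha a0 (fun P hP n => (g P hP n).loc hd hP) s1
  refine ⟨k1, fun i => .of_nonneg_of_le (fun _ => norm_nonneg _) (fun I => by
    rw [norm_mul]; exact mul_le_of_le_one_right (norm_nonneg _) (h2 i I)) s1, ?_⟩
  rw [k2, ← Fin.prod_univ_eq_prod_range fun i => ∑' I, a I * χ I ^ i]
  simp only [mul_comm]

/-- **quadratic extensions**, group ring form -/
theorem eul_two [IsGalois M M'] (hd : Module.finrank M M' = 2) {χ : Ideal (𝓞 M) → ℂ}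
    (hχ : Cm χ) (h1 : ∀ I, ‖χ I‖ ≤ 1) (ha : Cm a) (a0 : a ⊥ = 0) (hs : Summable fun I => ‖a I‖)
    (g : ∀ P, P.IsMaximal → a P ≠ 0 → Gp M' χ P) {u : Ideal (𝓞 M) → ℂ} {B : ℝ}
    (hu : ∀ I, ‖u I‖ ≤ B) :
    (Summable fun I' : Ideal (𝓞 M') => ‖a (relNorm (𝓞 M) I') * u (relNorm (𝓞 M) I')‖) ∧
      (Summable fun p : Ideal (𝓞 M) × Ideal (𝓞 M) =>
        ‖a p.1 * (χ p.2 * a p.2) * u (p.1 * p.2)‖) ∧
      ∑' I' : Ideal (𝓞 M'), a (relNorm (𝓞 M) I') * u (relNorm (𝓞 M) I') =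
        ∑' p : Ideal (𝓞 M) × Ideal (𝓞 M), a p.1 * (χ p.2 * a p.2) * u (p.1 * p.2) := by
  have ⟨k1, k2, k3⟩ := eul_bdd (M' := M') (ψ := fun (i : Fin 2) I => χ I ^ (i : ℕ))
    (fun i => hχ.npow i) (fun i I => (norm_pow _ _).trans_le (pow_le_one₀ (norm_nonneg _) (h1 I)))
    ha a0 (fun P hP n => (g P hP n).loc hd hP) hs hu
  rw [← (finTwoArrowEquiv _).symm.summable_iff] at k2
  rw [← (finTwoArrowEquiv _).symm.tsum_eq] at k3
  exact ⟨k1, by simpa [comp_def] using k2, by simpa using k3⟩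

end Vale.Agent.P004C.Al
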