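import Vale.Agent.P004C.St
import Vale.Agent.P004C.Al.Eul
import Vale.Agent.P022K.Ex.Cnt
import Vale.Agent.P022E.GW.Defs

/-!
# P004 C, block AL: relative class number formula at the place `v` (words and rows)
-/

open NumberField Module IsDedekindDomain
open scoped Classical

noncomputable section

namespace Vale.Agent.P004C.Al

open Vale.Agent.P022 (Qb GQ GK)
open Vale.Agent.P027M.S (Pr Inert)
open Vale.Agent.P022E.GW (Ov)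
open Vale.Agent.P022K.Exi (od)

/-! ### abelian groups -/

section abs

variable {X D Y : Type} [CommGroup X] [CommGroup D] [CommGroup Y]

/-- the squares of a subgroup -/
abbrev sq (A : Subgroup X) : Subgroup X := A.map (powMonoidHom 2)

/-- the index of the squares -/
abbrev i2 (A : Subgroup X) : ℕ := (sq A).relIndex A

/-- the valuation at two -/
abbrev v2 (n : ℕ) : ℕ := padicValNat 2 n

/-- equal up to the factor `5 / 4` -/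
def Ap (x y : ℝ) : Prop := 4 * x ≤ 5 * y ∧ 4 * y ≤ 5 * x

/-- `x * s x` -/
def nm (s : X →* X) : X →* X := MonoidHom.id X * s

/-- `x * u x * u (u x)` -/
def n3 (u : X →* X) : X →* X := MonoidHom.id X * u * u.comp u

/-- `f` is multiplicative on `U` -/
def Mu (f : X → Y) (U : Subgroup X) : Prop := ∀ x ∈ U, ∀ y ∈ U, f (x * y) = f x * f y

variable (d : X →* D) (s : X →* X) (t : D →* D) (f : X → Y) (U' U U₀ : Subgroup X)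
  (I' I : Subgroup D)

/-- elements and divisors of a quadratic extension -/
structure Pa : Prop where
  eq : ∀ x, d (s x) = t (d x)
  le : U' ≤ U
  fx : ∀ x ∈ U', s x = x
  st : ∀ x ∈ U, s x ∈ U ∧ s (s x) = x ∧ x * s x ∈ U'
  le' : I' ≤ I
  fx' : ∀ p ∈ I', t p = p
  st' : ∀ p ∈ I, t p ∈ I ∧ t (t p) = p ∧ p * t p ∈ I'
  dv' : U'.map d ≤ I'
  dv : U.map d ≤ I
  tf : ∀ p ∈ I, p ^ 2 = 1 → p = 1

/-- pairs `(p, x)` with `N p = d x` -/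
def Hn : Subgroup (D × X) :=
  I.prod U' ⊓ ((nm t).comp (MonoidHom.fst D X)).eqLocus (d.comp (MonoidHom.snd D X))

/-- pairs `(d y, N y)` -/
def Hd : Subgroup (D × X) := U.map (d.prod (nm s))

/-- the order of the relative class group -/
def hh : ℕ := (Hd d s U).relIndex (Hn d t U' I)

/-- the order of the cokernel of the norm -/
def h2 : ℕ := (I.map (nm t) ⊔ U'.map d).relIndex I'

/-- the order of the cokernel of `(d, f)` -/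
def Jx : ℕ := (Subgroup.closure ((fun x => (d x, f x)) '' U)).relIndex (I.prod ⊤)

/-- the kernel of `(d, f)` -/
def Kf : Subgroup X := Subgroup.closure {x | x ∈ U ∧ d x = 1 ∧ f x = 1}

/-- the units of norm one -/
def Em : Subgroup X := U ⊓ d.ker ⊓ (nm s).ker

/-- the order of the kernel of the norm between two levels -/
def bb : ℕ := U.relIndex (U₀ ⊓ U'.comap (nm s))

/-- the level below -/
structure Lv : Prop where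
  le : U ≤ U₀
  sq : sq U₀ ≤ U
  dv : U₀.map d ≤ I
  st : ∀ x ∈ U₀, s x ∈ U₀
  tf : ∀ x ∈ U₀, x ^ 2 = 1 → x = 1
  eq : i2 (Em d s U) = bb s U' U U₀
  ne : bb s U' U U₀ ≠ 0

variable (u g : X →* X) (u' g' : D →* D) (V' V V₀ : Subgroup X) (J' J : Subgroup D)

/-- a cubic extension of pairs -/
structure Cu : Prop where
  eq : ∀ x, d (u x) = u' (d x)
  cs : ∀ x, s (u x) = u (s x)
  ct : ∀ p, t (u' p) = u' (t p)
  le : V' ≤ U' ∧ V ≤ U ∧ V₀ ≤ U₀ ∧ J' ≤ I' ∧ J ≤ I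
  nr : U'.map (n3 u) ≤ V' ∧ U.map (n3 u) ≤ V ∧ U₀.map (n3 u) ≤ V₀ ∧ I'.map (n3 u') ≤ J' ∧
    I.map (n3 u') ≤ J
  fx : ∀ x ∈ V₀, u x = x
  fx' : ∀ p ∈ J, u' p = p

/-- a central automorphism whose power `2 ^ k` is the involution -/
structure Ga (k : ℕ) : Prop where
  eq : ∀ x, d (g x) = g' (d x)
  cs : ∀ x, s (g x) = g (s x)
  ct : ∀ p, t (g' p) = g' (t p)
  cu : ∀ x, u (g x) = g (u x)
  cu' : ∀ p, u' (g' p) = g' (u' p)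
  st : U'.map g ≤ U' ∧ U.map g ≤ U ∧ V.map g ≤ V ∧ I.map g' ≤ I
  pw : ∀ x ∈ U, g^[2 ^ k] x = s x
  pw' : ∀ p ∈ I, g'^[2 ^ k] p = t p

/-- a filtration by congruence subgroups -/
structure Fi (F : ℕ → Subgroup X) : Prop where
  le : ∀ m, F (m + 1) ≤ F m
  sq : ∀ m, 2 ≤ m → sq (F m) ≤ F (m + 1)
  rt : ∀ m, ∀ x ∈ F 2, x ^ 2 ∈ F (m + 1) → x ∈ F m
  sep : ∀ x, (∀ m, x ∈ F m) → x = 1

end abs

/-- finiteness -/
def A0 : Prop := ∀ (X D : Type) [CommGroup X] [CommGroup D] (d : X →* D) s t U' U I' I,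
  Pa d s t U' U I' I → (U.map d).relIndex I ≠ 0 → i2 (U' ⊓ d.ker) ≠ 0 → hh d s t U' U I ≠ 0

/-- the five term sequence -/
def A1 : Prop := ∀ (X D Y : Type) [CommGroup X] [CommGroup D] [CommGroup Y] (d : X →* D) s t
  (f : X → Y) U' U I' I, Pa d s t U' U I' I → Mu f U' → Jx d f U' I' ≠ 0 → hh d s t U' U I ≠ 0 →
  Jx d (f ∘ nm s) U I * h2 d t U' I' I *
    ((Kf d (f ∘ nm s) U).map (nm s)).relIndex (Kf d f U') = Jx d f U' I' * hh d s t U' U I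

/-- removing inert primes -/
def A2 : Prop := ∀ (X D : Type) [CommGroup X] [CommGroup D] (d : X →* D) s t U' U I' I
  (π : D →* D), Pa d s t U' U I' I → (∀ p, π (t p) = t (π p)) → I ⊓ π.ker ≤ I' →
  h2 d t U' I' I ≠ 0 → i2 (I ⊓ π.ker) ≠ 0 →
  hh (π.comp d) s t U' U (I.map π) * h2 d t U' I' I =
    i2 (I ⊓ π.ker) * hh d s t U' U I * h2 (π.comp d) t U' (I'.map π) (I.map π) ∧
  hh d s t U' U I ∣ hh (π.comp d) s t U' U (I.map π) ∧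
  h2 (π.comp d) t U' (I'.map π) (I.map π) ∣ h2 d t U' I' I

/-- **the part killed by the cubic norm** -/
def A3 : Prop := ∀ (X D : Type) [CommGroup X] [CommGroup D] (d : X →* D) s t u g u' g' U' U U₀
  V' V V₀ I' I J' J k, Pa d s t U' U I' I → Pa d s t V' V J' J → Lv d s U' U U₀ I →
  Lv d s V' V V₀ J → Cu d s t U' U U₀ I' I u u' V' V V₀ J' J → Ga d s t U' U I u g u' g' V k →
  hh d s t U' U I ≠ 0 → hh d s t V' V J ≠ 0 → h2 d t U' I' I ≠ 0 → h2 d t V' J' J ≠ 0 →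
  ∀ (Z : Type) [Finite Z] (κ : X → Z), (∀ x ∈ U, ∀ y ∈ U, d x ∈ sq I → d y ∈ sq I →
    n3 u x ∈ sq U₀ → n3 u y ∈ sq U₀ → κ x = κ y → x / y ∈ sq U₀) → Nat.card Z < 2 ^ 2 ^ k →
  ∃ b, 2 ^ b ≤ Nat.card Z ∧ v2 (hh d s t U' U I) ≤ b + v2 (hh d s t V' V J) ∧
    v2 (h2 d t V' J' J) ≤ v2 (h2 d t U' I' I)

/-- two levels -/
def A5 : Prop := ∀ (X D : Type) [CommGroup X] [CommGroup D] (d : X →* D) s t U' U U₁' U₁ I' I,
  Pa d s t U' U I' I → Pa d s t U₁' U₁ I' I → U₁' ≤ U' → U₁ ≤ U →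
  hh d s t U₁' U₁ I * (Em d s U₁).relIndex (Em d s U) ∣ hh d s t U' U I * bb s U₁' U₁ U

/-- in the stable range the norm is onto -/
def A6 : Prop := ∀ (X D Y Y₁ : Type) [CommGroup X] [CommGroup D] [CommGroup Y] [CommGroup Y₁]
  (d : X →* D) s t (f : X → Y₁) (π : Y₁ →* Y) U' U U₁' U₁ I' I, Pa d s t U' U I' I →
  Pa d s t U₁' U₁ I' I → U₁' ≤ U' → U₁ ≤ U → sq U ≤ U₁ → sq U' ≤ U₁' → U' ≤ U.map (nm s) ⊔ U₁' →
  Mu f U' → Function.Surjective π → (∀ y ∈ π.ker, y ^ 2 = 1) → Jx d f U₁' I' ≠ 0 →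
  Jx d (f ∘ nm s) U₁ I ≠ 0 → v2 (Jx d f U₁' I') = v2 (Jx d (π ∘ f) U' I') →
  v2 (Jx d (f ∘ nm s) U₁ I) = v2 (Jx d ((π ∘ f) ∘ nm s) U I) → i2 (Kf d (π ∘ f) U') ≠ 0 →
  i2 (Kf d (π ∘ f) U') ≤ U₁'.relIndex U' * Nat.card π.ker →
  Kf d (π ∘ f) U' ≤ (Kf d ((π ∘ f) ∘ nm s) U).map (nm s)

/-- the two factors of `Jx` -/
def A7 : Prop := ∀ (X D Y : Type) [CommGroup X] [CommGroup D] [CommGroup Y] (d : X →* D)
  (f : X → Y) U I, Mu f U → U.map d ≤ I → Jx d f U I =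
    (U.map d).relIndex I * (Subgroup.closure (f '' (U ⊓ d.ker : Subgroup X))).index

/-- modules of rank one -/
def A8 : Prop := ∀ (X : Type) [CommGroup X] (F : ℕ → Subgroup X) (g : X →* X) (k : ℕ), Fi F →
  (∀ m, (F m).map g ≤ F m) → (∀ x ∈ F 2, g^[2 ^ k] x = x⁻¹) →
  (∀ m, 2 ≤ m → i2 (F m) = 2 ^ 2 ^ k) →
  ∃ m, 2 ≤ m ∧ ∀ i, (F (m + i)).relIndex (F m) = 2 ^ (2 ^ k * i)

/-- modules of rank two with an involution -/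
def A9 : Prop := ∀ (X : Type) [CommGroup X] (F : ℕ → Subgroup X) (g σ : X →* X) (k : ℕ), Fi F →
  (∀ m, (F m).map g ≤ F m) → (∀ m, (F m).map σ ≤ F m) → (∀ x ∈ F 2, g^[2 ^ k] x = x⁻¹) →
  (∀ x ∈ F 2, σ (σ x) = x) → (∀ x, σ (g x) = g (σ x)) →
  (∀ m, 2 ≤ m → i2 (F m) = 2 ^ (2 * 2 ^ k) ∧
    i2 (F m ⊓ σ.eqLocus (MonoidHom.id X)) = 2 ^ 2 ^ k) →
  ∃ m, 2 ≤ m ∧ ∀ i, 2 ^ (2 * 2 ^ k * i) ∣ (F (m + i + 1)).relIndex (F m)

/-! ### elements and divisors in an ambient field `A` -/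

section amb

variable {K : Type} [Field K] [NumberField K] (ι : ℂ →+* ℂ_[2]) (J : K →+* ℂ)
  (A : Type) [Field A] [NumberField A] [Algebra K A]

/-- functions on the primes -/
abbrev Dv : Type := Pr A → Multiplicative ℤ

/-- the elements which are `1` modulo `v ^ m` -/
def Um (m : ℕ) : Subgroup Aˣ := Subgroup.closure {x | V1 ι J m (x : A)}

/-- the primes above `v` or above `s` -/
def Ss (s : 𝓞 K) : Set (Pr A) := {P | Av ι J P.asIdeal ∨ algebraMap (𝓞 K) (𝓞 A) s ∈ P.asIdeal}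

/-- the primes above `v` or above one of the `W i` -/
def Sw {L : Type} [Field L] [Algebra L A] {κ : Type} (W : κ → Ideal (𝓞 L)) : Set (Pr A) :=
  {P | Av ι J P.asIdeal ∨ ∃ i, (W i).map (algebraMap (𝓞 L) (𝓞 A)) ≤ P.asIdeal}

variable {A}

/-- forget the primes of `S` -/
def pj (S : Set (Pr A)) : Dv A →* Dv A :=
  MonoidHom.pi fun P => if P ∈ S then 1 else Pi.evalMonoidHom _ P

/-- the divisor outside `S` -/
def dd (S : Set (Pr A)) : Aˣ →* Dv A := (pj S).comp (MonoidHom.pi fun P => od P)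

/-- the action on elements -/
def ua (σ : A ≃ₐ[K] A) : Aˣ →* Aˣ := Units.map (σ : A →* A)

/-- the action on functions on the primes -/
def ta (σ : A ≃ₐ[K] A) : Dv A →* Dv A := MonoidHom.pi fun P => Pi.evalMonoidHom _
  (P.comap (MulSemiringAction.toRingHom _ (𝓞 A) σ) (MulAction.surjective σ))

variable (L : Type) [Field L] [Algebra L A]

/-- the elements of `L` of level `m` -/
def UL (m : ℕ) : Subgroup Aˣ := Um ι J A m ⊓ (Units.map (algebraMap L A : L →* A)).range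

/-- the divisors of `L` outside `S` -/
def IL (S : Set (Pr A)) : Subgroup (Dv A) := (Subgroup.closure {f | ∃ I : Ideal (𝓞 L), I ≠ ⊥ ∧
  f = fun P => .ofAdd (multiplicity P.asIdeal (I.map (algebraMap (𝓞 L) (𝓞 A))) : ℤ)}).map (pj S)

variable (L₂ : Type) [Field L₂] [Algebra L₂ A] (τ : A ≃ₐ[K] A)

/-- the order of the relative ray class group -/
def hS (S : Set (Pr A)) (m : ℕ) : ℕ :=
  hh (dd S) (ua τ) (ta τ) (UL ι J L m) (UL ι J L₂ m) (IL L₂ S)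

/-- the order of the cokernel of the norm -/
def cS (S : Set (Pr A)) (m : ℕ) : ℕ := h2 (dd S) (ta τ) (UL ι J L m) (IL L S) (IL L₂ S)

variable [Algebra K L₂] [NumberField L₂] [Algebra L L₂]

/-- `L₂ / L` is quadratic, `τ` induces its automorphism, the trace is onto at `v` -/
structure Qp : Prop where
  two : finrank L L₂ = 2
  ind : ∃ τ₂ : L₂ ≃ₐ[L] L₂, τ₂ ≠ 1 ∧ (∀ x, algebraMap L₂ A (τ₂ x) = τ (algebraMap L₂ A x)) ∧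
    ∃ θ : L₂, Vi ι J θ ∧ θ + τ₂ θ = 1

end amb

section

variable {K : Type} [Field K] [NumberField K] {L : Type} [Field L] [NumberField L]

/-- the quadratic character of `L₂ / L`, of conductor `c` -/
structure Eta (L₂ : Type) [Field L₂] [Algebra L L₂] (η : Ideal (𝓞 L) → ℂ) (c : ℕ) : Prop where
  cm : Cm η
  bot : η ⊥ = 0
  le : ∀ I, ‖η I‖ ≤ 1
  gp : ∀ P, P.IsMaximal → Gp L₂ η P
  odd : Odd c
  ram : ∀ P : Ideal (𝓞 L), P.IsMaximal → (η P = 0 ↔ (c : 𝓞 L) ∈ P)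
  law : ∀ x : 𝓞 L, x ≠ 0 → (c : 𝓞 L) ∣ x - 1 → η (Ideal.span {x}) = 1

/-- `P` stays prime -/
def Ine (L₂ : Type) [Field L₂] [Algebra L L₂] (P : Ideal (𝓞 L)) : Prop :=
  (P.map (algebraMap (𝓞 L) (𝓞 L₂))).IsMaximal

variable [Algebra K L]

/-- the series without the Euler factors at `s` -/
def Ls (s : 𝓞 K) (lam : Ideal (𝓞 K) → ℂ) (η : Ideal (𝓞 L) → ℂ) : ℂ :=
  ∑' I, if I ⊔ Ideal.span {algebraMap (𝓞 K) (𝓞 L) s} = ⊤ then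
    η I * lam (Ideal.relNorm (𝓞 K) I) else 0

/-- the primes which contain `s` -/
def Ps (L : Type) [Field L] [Algebra K L] (s : 𝓞 K) : Set (Ideal (𝓞 L)) :=
  {P | P.IsMaximal ∧ algebraMap (𝓞 K) (𝓞 L) s ∈ P}

/-- the size of the leading term -/
def Dt (ι : ℂ →+* ℂ_[2]) (J : K →+* ℂ) {n r B : ℕ} (b : Basis (Fin n) K L) (m : ℕ)
    (φ : Fin (r + 1) → L → ZMod (2 ^ B)) (γ : Fin n ⊕ Fin r → L) (R : Finset (Ideal (𝓞 L))) : ℝ :=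
  ‖(R.card : ℂ_[2]) * Matrix.det (Matrix.of fun j j' => Sum.elim
    (fun i => ι (J (b.repr ((γ j - 1) / 2 ^ m) i)))
    (fun i : Fin r => ((φ i.succ (γ j)).val : ℂ_[2])) j')‖

/-- good auxiliary primes exist at every level -/
def Ax (ι : ℂ →+* ℂ_[2]) (J : K →+* ℂ) (L L₂ : Type) [Field L] [NumberField L] [Algebra K L]
    [Field L₂] [Algebra L L₂] : Prop :=
  ∃ r c : ℕ, ∀ t : 𝓞 L, t ≠ 0 → ∀ m B : ℕ, 2 ≤ m → m ≤ B →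
    ∃ (W : Fin (r + 1) → Ideal (𝓞 L)) (Φ : Ideal (𝓞 L) → ZMod (2 ^ B))
      (φ : Fin (r + 1) → L → ZMod (2 ^ B)), Aux t B W Φ φ ∧ (∀ i, Ine L₂ (W i)) ∧
      (∀ t' R, t' ≠ 0 → 2 ∣ t' → Rp ι J W m t' R → v2 R.card ≤ c) ∧
      ∀ y : Fin r → ZMod (2 ^ B), ∃ x : L, Ev ι J W m 1 1 x ∧ ∀ i, φ i.succ x = 2 ^ c * y i

end

/-- the completion at `v` -/
def KV : Prop := ∀ (K : Type) [Field K] [NumberField K] (ι : ℂ →+* ℂ_[2]) (J : K →+* ℂ) (Ω : ℝ),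
  Base ι J Ω → ∃ ρ : K →+* ℚ_[2], ∀ x, ι (J x) = algebraMap ℚ_[2] ℂ_[2] (ρ x)

/-- bases and representatives exist -/
def GBX : Prop := ∀ (K : Type) [Field K] [NumberField K] (ι : ℂ →+* ℂ_[2]) (J : K →+* ℂ) (Ω : ℝ),
  Base ι J Ω → ∀ (L : Type) [Field L] [NumberField L] [Algebra K L],
  (∃ b : Basis (Fin (finrank K L)) K L, Vb ι J b) ∧
  ∀ (r m : ℕ) (W : Fin (r + 1) → Ideal (𝓞 L)), 2 ≤ m → (∀ i, (W i).IsMaximal ∧ 2 ∉ W i) →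
    Function.Injective W → (∃ γ : Fin (finrank K L) ⊕ Fin r → L, Gb ι J W m γ) ∧
      ∀ t : 𝓞 L, t ≠ 0 → 2 ∣ t → ∃ R, Rp ι J W m t R

/-- the filtration -/
def UMF : Prop := ∀ (K : Type) [Field K] [NumberField K] (ι : ℂ →+* ℂ_[2]) (J : K →+* ℂ) (Ω : ℝ),
  Base ι J Ω → ∀ (A : Type) [Field A] [NumberField A] [Algebra K A], Fi (Um ι J A) ∧
  (∀ m x, 1 ≤ m → (x ∈ Um ι J A m ↔ V1 ι J m (x : A))) ∧
  (∀ m (σ : A ≃ₐ[K] A), (Um ι J A m).map (ua σ) ≤ Um ι J A m) ∧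
  ∀ (L : Type) [Field L] [NumberField L] [Algebra K L] [Algebra L A] [IsScalarTower K L A],
    (∀ x : L, Vi ι J (algebraMap L A x) ↔ Vi ι J x) ∧
    ∀ m i, 1 ≤ m → (UL ι J L (m + i) : Subgroup Aˣ).relIndex (UL ι J L m) = 2 ^ (finrank K L * i)

/-- divisors: equivariance, norms, finiteness -/
def DVF : Prop := ∀ (K : Type) [Field K] [NumberField K] (ι : ℂ →+* ℂ_[2]) (J : K →+* ℂ) (Ω : ℝ),
  Base ι J Ω → ∀ (A : Type) [Field A] [NumberField A] [Algebra K A],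
  (∀ (σ : A ≃ₐ[K] A) x, dd ∅ (ua σ x) = ta σ (dd ∅ x)) ∧
  (∀ (σ : A ≃ₐ[K] A) s p, pj (Ss ι J A s) (ta σ p) = ta σ (pj (Ss ι J A s) p)) ∧
  ∀ (L : Type) [Field L] [NumberField L] [Algebra K L] [Algebra L A] [IsScalarTower K L A],
    (∀ x : Lˣ, dd ∅ (Units.map (algebraMap L A : L →* A) x) ∈ IL L (∅ : Set (Pr A))) ∧
    (∀ σ : A ≃ₐ[K] A, (∀ x : L, σ (algebraMap L A x) = algebraMap L A x) →
      (∀ p ∈ IL L (∅ : Set (Pr A)), ta σ p = p) ∧ ∀ (κ : Type) (W : κ → Ideal (𝓞 L)) p,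
        pj (Sw ι J A W) (ta σ p) = ta σ (pj (Sw ι J A W) p)) ∧
    (∀ σ : A ≃ₐ[K] A, (∀ x : L, ∃ y : L, σ (algebraMap L A x) = algebraMap L A y) →
      (IL L ∅).map (ta σ) ≤ IL L (∅ : Set (Pr A))) ∧
    (∀ s m, s ≠ 0 → 2 ≤ m →
      ((UL ι J L m).map (dd (Ss ι J A s))).relIndex (IL L (Ss ι J A s)) ≠ 0 ∧
      i2 (UL ι J L m ⊓ (dd (Ss ι J A s)).ker) ≠ 0) ∧
    ∀ (L₂ : Type) [Field L₂] [NumberField L₂] [Algebra L L₂] [Algebra L₂ A]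
      [IsScalarTower L L₂ A], IL L ∅ ≤ IL L₂ (∅ : Set (Pr A)) ∧
      (∀ (d : ℕ) (σ : A ≃ₐ[K] A) (σ₂ : L₂ ≃ₐ[L] L₂), finrank L L₂ = d → orderOf σ₂ = d →
        (∀ x, algebraMap L₂ A (σ₂ x) = σ (algebraMap L₂ A x)) →
        ∀ p ∈ IL L₂ (∅ : Set (Pr A)), ∏ i ∈ Finset.range d, ta (σ ^ i) p ∈ IL L ∅) ∧
      ∀ T : Set (Ideal (𝓞 L)), T.Finite → (∀ P ∈ T, P.IsMaximal ∧ Ine L₂ P ∧ Pv ι J P) →
        ∀ S : Set (Pr A), S = {P | Av ι J P.asIdeal ∨ P.asIdeal.under (𝓞 L) ∈ T} →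
        IL L₂ (Ss ι J A 1) ⊓ (pj S).ker ≤ IL L (Ss ι J A 1) ∧
        i2 (IL L₂ (Ss ι J A 1) ⊓ (pj S).ker) = 2 ^ T.ncard

/-- quadratic pairs -/
def PAI : Prop := ∀ (K : Type) [Field K] [NumberField K] (ι : ℂ →+* ℂ_[2]) (J : K →+* ℂ) (Ω : ℝ),
  Base ι J Ω → ∀ (A L L₂ : Type) [Field A] [NumberField A] [Field L] [NumberField L] [Field L₂]
  [NumberField L₂] [Algebra K A] [Algebra K L] [Algebra K L₂] [Algebra L L₂] [Algebra L A]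
  [Algebra L₂ A] [IsScalarTower K L L₂] [IsScalarTower K L₂ A] [IsScalarTower L L₂ A]
  [IsScalarTower K L A] (τ : A ≃ₐ[K] A), Qp ι J L L₂ τ → ∀ m, 2 ≤ m →
  (∀ S : Set (Pr A), (∀ p, pj S (ta τ p) = ta τ (pj S p)) →
    Pa (dd S) (ua τ) (ta τ) (UL ι J L m) (UL ι J L₂ m) (IL L S) (IL L₂ S)) ∧
  (∀ i, bb (ua τ) (UL ι J L (m + i)) (UL ι J L₂ (m + i)) (UL ι J L₂ m) = 2 ^ (finrank K L * i)) ∧
  UL ι J L m ≤ (UL ι J L₂ m).map (nm (ua τ)) ⊔ UL ι J L (m + 1) ∧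
  i2 (Em (dd ∅) (ua τ) (UL ι J L₂ m)) = 2 ^ finrank K L ∧
  ∀ s : 𝓞 K, (∀ P ∈ Ps L s, Ine L₂ P) →
    Em (dd (Ss ι J A s)) (ua τ) (UL ι J L₂ m) = Em (dd ∅) (ua τ) (UL ι J L₂ m)

/-- the leading term is the order of a finite group -/
def DJ : Prop := ∀ (K : Type) [Field K] [NumberField K] (ι : ℂ →+* ℂ_[2]) (J : K →+* ℂ) (Ω : ℝ),
  Base ι J Ω → ∀ (A L : Type) [Field A] [NumberField A] [Field L] [NumberField L] [Algebra K A]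
  [Algebra K L] [Algebra L A] [IsScalarTower K L A] (r B : ℕ) (W : Fin (r + 1) → Ideal (𝓞 L))
  (t : 𝓞 L), (∀ i, (W i).IsMaximal ∧ t ∉ W i) → t ≠ 0 → 2 ∣ t → ∀ m, 2 ≤ m →
  (∀ x : Lˣ, Ev ι J W m 1 1 (x : L) ↔ Units.map (algebraMap L A : L →* A) x ∈
    UL ι J L m ⊓ (dd (Sw ι J A W)).ker) ∧
  ∀ R, Rp ι J W m t R →
  ((UL ι J L m).map (dd (Sw ι J A W))).relIndex (IL L (Sw ι J A W)) = R.card ∧ R.card ≠ 0 ∧
  ∀ (n : ℕ) (b : Basis (Fin n) K L) (φ : Fin (r + 1) → L → ZMod (2 ^ B))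
    (γ : Fin n ⊕ Fin r → L) (a : ℕ) (f : Aˣ → Multiplicative (Fin r → ZMod (2 ^ a))),
    Vb ι J b → (∀ i x y, x ≠ 0 → y ≠ 0 → φ i (x * y) = φ i x + φ i y) → Gb ι J W m γ → a ≤ m →
    a ≤ B → (∀ (x : Lˣ) i, (f (Units.map (algebraMap L A : L →* A) x)).toAdd i =
      (φ i.succ (x : L)).cast) →
    i2 (Kf (dd (Sw ι J A W)) f (UL ι J L (m + a))) = 2 ^ (n + r) ∧
    Jx (dd (Sw ι J A W)) f (UL ι J L (m + a)) (IL L (Sw ι J A W)) ≠ 0 ∧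
    (v2 (Jx (dd (Sw ι J A W)) f (UL ι J L (m + a)) (IL L (Sw ι J A W))) < a →
      Dt ι J b m φ γ R =
        (1 / 2) ^ v2 (Jx (dd (Sw ι J A W)) f (UL ι J L (m + a)) (IL L (Sw ι J A W))))

/-- smoothing primes exist -/
def SMX : Prop := ∀ (L L₂ : Type) [Field L] [NumberField L] [Field L₂] [NumberField L₂]
  [Algebra L L₂], finrank L L₂ = 2 → ∀ N : ℕ, N ≠ 0 →
  (∃ (l : ℕ) (c : Ideal (𝓞 L₂)), ¬ l ∣ N ∧ Sm c l) ∧
    ∃ (l : ℕ) (c : Ideal (𝓞 L)), ¬ l ∣ N ∧ Sm c l ∧ Ine L₂ c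

/-- **the quotient of the two leading terms** -/
def CMB : Prop := ∀ (K : Type) [Field K] [NumberField K] (ι : ℂ →+* ℂ_[2]) (J : K →+* ℂ) (Ω : ℝ),
  Base ι J Ω → ∀ (L L₂ : Type) [Field L] [NumberField L] [Field L₂]
  [NumberField L₂] [Algebra K L] [Algebra K L₂] [Algebra L L₂] [IsScalarTower K L L₂]
  (n : ℕ) (b : Basis (Fin n) K L) (n₂ : ℕ) (b₂ : Basis (Fin n₂) K L₂), finrank L L₂ = 2 →
  Vb ι J b → Vb ι J b₂ → dv ι J b₂ = dv ι J b ^ 2 → ∀ (η : Ideal (𝓞 L) → ℂ) (c : ℕ), Eta L₂ η c → ∀ s : 𝓞 K,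
  ‖ι (J s)‖ = 1 → (∀ P ∈ Ps L s, Ine L₂ P) → ∀ h : ℕ, 0 < h → ∃ t l : ℕ, t ≠ 0 ∧ 2 * l ∣ t ∧
  ∀ (r : ℕ) (δ : ℝ), 0 < δ → ∃ m0 : ℕ, ∀ m, m0 ≤ m → ∃ B0 : ℕ, ∀ e B : ℕ, B0 ≤ e → B0 ≤ B →
  ∀ lam, La J h (2 ^ e) lam → ∀ (W : Fin (r + 1) → Ideal (𝓞 L)) Φ
    (φ : Fin (r + 1) → L → ZMod (2 ^ B)), Aux ((t : 𝓞 L) * algebraMap (𝓞 K) (𝓞 L) s) B W Φ φ →
    (∀ i, Ine L₂ (W i)) → ∀ γ R γ₂ R₂, Gb ι J W m γ → Rp ι J W m (2 * l) R →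
    Gb ι J (fun i => (W i).map (algebraMap (𝓞 L) (𝓞 L₂))) m γ₂ →
    Rp ι J (fun i => (W i).map (algebraMap (𝓞 L) (𝓞 L₂))) m (2 * l) R₂ → δ ≤ Dt ι J b m φ γ R →
    δ ≤ Dt ι J b₂ m (fun i x => φ i (Algebra.norm L x)) γ₂ R₂ →
    Ap (Dt ι J b₂ m (fun i x => φ i (Algebra.norm L x)) γ₂ R₂ * 2 ^ (r + 1)) (Dt ι J b m φ γ R *
      (sc Ω (dv ι J b) n (2 * h * 2 ^ e) * ‖ι (Ls s lam η)‖) * 2 ^ (Ps L s).ncard)

/-- the discriminant in a quadratic step -/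
def DS2 : Prop := ∀ (K : Type) [Field K] [NumberField K] (ι : ℂ →+* ℂ_[2]) (J : K →+* ℂ) (Ω : ℝ),
  Base ι J Ω → ∀ (L L₂ : Type) [Field L] [NumberField L] [Field L₂] [NumberField L₂] [Algebra K L]
  [Algebra K L₂] [Algebra L L₂] [IsScalarTower K L L₂] (n : ℕ) (b : Basis (Fin n) K L) (n₂ : ℕ)
  (b₂ : Basis (Fin n₂) K L₂) (τ : L₂ ≃ₐ[L] L₂) (θ : L₂), finrank L L₂ = 2 → τ ≠ 1 → Vi ι J θ →
  θ + τ θ = 1 → Vb ι J b → Vb ι J b₂ → dv ι J b₂ = dv ι J b ^ 2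

/-- **the relative class number formula** -/
def REL : Prop := ∀ (K : Type) [Field K] [NumberField K] (ι : ℂ →+* ℂ_[2]) (J : K →+* ℂ) (Ω : ℝ),
  Base ι J Ω → ∀ (A L L₂ : Type) [Field A] [NumberField A] [Field L]
  [NumberField L] [Field L₂] [NumberField L₂] [Algebra K A] [Algebra K L] [Algebra K L₂]
  [Algebra L L₂] [Algebra L A] [Algebra L₂ A] [IsScalarTower K L L₂] [IsScalarTower K L₂ A]
  [IsScalarTower L L₂ A] [IsScalarTower K L A] (τ : A ≃ₐ[K] A), Qp ι J L L₂ τ → Ax ι J L L₂ →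
  ∀ (η : Ideal (𝓞 L) → ℂ) (c : ℕ), Eta L₂ η c → ∀ s : 𝓞 K, ‖ι (J s)‖ = 1 → (∀ P ∈ Ps L s, Ine L₂ P) →
  (∃ C, ∀ m, 3 ≤ m → v2 (hS ι J L L₂ τ (Ss ι J A s) m) ≤ C) →
  ∀ (n : ℕ) (b : Basis (Fin n) K L), Vb ι J b → ∀ h : ℕ, 0 < h → ∃ m0, ∀ m, m0 ≤ m → ∃ e0,
  ∀ e, e0 ≤ e → ∀ lam, La J h (2 ^ e) lam →
    Ap (sc Ω (dv ι J b) n (2 * h * 2 ^ e) * ‖ι (Ls s lam η)‖ *
      2 ^ v2 (hS ι J L L₂ τ (Ss ι J A s) m)) (2 ^ v2 (cS ι J L L₂ τ (Ss ι J A s) m))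

/-! ### auxiliary primes -/

/-- the logarithm -/
def LOG : Prop := ∀ (K : Type) [Field K] [NumberField K] (ι : ℂ →+* ℂ_[2]) (J : K →+* ℂ) (Ω : ℝ),
  Base ι J Ω → ∀ (L : Type) [Field L] [NumberField L] [Algebra K L],
  ∃ ℓ : L → Fin (finrank K L) → ℤ_[2],
    (∀ x y, V1 ι J 2 x → V1 ι J 2 y → ℓ (x * y) = ℓ x + ℓ y) ∧
    (∀ x m, V1 ι J 2 x → (V1 ι J (m + 2) x ↔ ∀ i, 2 ^ m ∣ ℓ x i)) ∧
    ∀ (y : Fin (finrank K L) → ℤ_[2]) (m : ℕ) (t : 𝓞 L), t ≠ 0 → ∃ x : 𝓞 L, V1 ι J 2 (x : L) ∧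
      Ideal.span {x} ⊔ Ideal.span {t} = ⊤ ∧ ∀ i, 2 ^ m ∣ ℓ x i - y i

/-- linear algebra over `ℤ₂` -/
def LIN : Prop := ∀ (a : ℕ) (B : Matrix (Fin a) (Fin (a + 1)) ℤ_[2]), ∃ (r c : ℕ)
  (k μ : Fin r → Fin a → ℤ_[2]) (l u : Fin (r + 1) → Fin (a + 1) → ℤ_[2]),
  (∀ i, Matrix.vecMul (k i) B = 0) ∧ (∀ i i', μ i ⬝ᵥ k i' = if i = i' then 1 else 0) ∧
  (∀ i, B.mulVec (l i) = 0) ∧ (∀ i i', l i ⬝ᵥ u i' = if i = i' then 1 else 0) ∧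
  ∀ y, (∀ i, l i ⬝ᵥ y = 0) → ∃ x, Matrix.vecMul x B = 2 ^ c • y

/-- **auxiliary primes** -/
def AUX : Prop := ∀ (K : Type) [Field K] [NumberField K] (ι : ℂ →+* ℂ_[2]) (J : K →+* ℂ) (Ω : ℝ),
  Base ι J Ω → ∀ (L L₂ : Type) [Field L] [NumberField L] [Field L₂] [NumberField L₂] [Algebra K L]
  [Algebra L L₂] (j₂ : L₂ →+* Qb), finrank L L₂ = 2 →
  (∃ l P g, l ≠ 2 ∧ Ov l P ∧ Inert P g ∧ g ∈ GK (j₂.comp (algebraMap L L₂)) ∧ g ∉ GK j₂) →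
  Ax ι J L L₂

end Vale.Agent.P004C.Al
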