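import Vale.Agent.P004C.Al.Cmb3
import Vale.Agent.P004C.Al.St

/-!
# P004 C, block AL: row CMB
-/

open NumberField Module Ideal
open scoped Classical

set_option linter.all false

noncomputable section

namespace Vale.Agent.P004C.Cm

open Al

variable {K : Type} [Field K] [NumberField K] {ι : ℂ →+* ℂ_[2]} {J : K →+* ℂ} {Ω : ℝ}
  {L L₂ : Type} [Field L] [NumberField L] [Field L₂] [NumberField L₂] [Algebra L L₂]
  {η : Ideal (𝓞 L) → ℂ} {c : ℕ}

theorem gal (h : finrank L L₂ = 2) : IsGalois L L₂ :=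
  have : Algebra.IsQuadraticExtension L L₂ := { finrank_eq_two' := h }
  inferInstance

theorem ine_un {P : Ideal (𝓞 L)} (p : P.IsMaximal) (h : Ine L₂ P) :
    (P.map (algebraMap (𝓞 L) (𝓞 L₂))).under (𝓞 L) = P :=
  (p.eq_of_le (comap_ne_top _ h.ne_top) le_comap_map).symm

theorem rn_map (h : finrank L L₂ = 2) (P : Ideal (𝓞 L)) :
    relNorm (𝓞 L) (P.map (algebraMap (𝓞 L) (𝓞 L₂))) = P ^ 2 := by
  rw [relNorm_algebraMap, ← h, ← IsFractionRing.finrank_eq (𝓞 L) L (𝓞 L₂) L₂]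

theorem ine_eta (h : finrank L L₂ = 2) {P : Ideal (𝓞 L)} (p : P.IsMaximal) (g : Gp L₂ η P)
    (i : Ine L₂ P) : η P = -1 := by
  have := gal h
  obtain ⟨Q, ⟨_, _⟩, g⟩ := g
  have e : P.map (algebraMap (𝓞 L) (𝓞 L₂)) = Q :=
    i.eq_of_le (IsPrime.ne_top inferInstance) (map_le_iff_le_comap.2 (LiesOver.over (P := Q)).le)
  have m : Q.IsMaximal := e ▸ i
  have f : Q.inertiaDeg (𝓞 L) = 2 := by
    have k := Eu.norm_max (M := L) Q
    rw [← over_def Q P, ← e, rn_map h, e] at k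
    have q := Eu.prime_iff.2 p
    exact (pow_injective_of_not_isUnit q.not_unit q.ne_zero k).symm
  have k := ncard_primesOver_mul_ramificationIdxIn_mul_inertiaDegIn P (𝓞 L₂) Gal(L₂/L)
  rw [IsGaloisGroup.card_eq_finrank Gal(L₂/L) L L₂, h,
    ramificationIdxIn_eq_ramificationIdx P Q Gal(L₂/L), inertiaDegIn_eq_inertiaDeg P Q Gal(L₂/L),
    f] at k
  rcases g with ⟨-, g⟩ | ⟨-, g⟩
  · exact (f ▸ g).eq_neg_one_of_two_right
  · rw [g, h] at k
    omega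

theorem eta_hc [Algebra K L] (E : Eta L₂ η c) : HC J 0 (span {(c : 𝓞 L)}) η where
  one := E.cm.one
  mul := E.cm.mul
  zero I := by
    induction I using UniqueFactorizationMonoid.induction_on_prime with
    | h₁ => simp [E.bot]
    | h₂ I u =>
      have k := E.cm.one
      rw [one_eq_top] at k
      simp [isUnit_iff.1 u, k]
    | h₃ I P i p ih =>
      have m := Eu.prime_iff.1 p
      have k : P ⊔ span {(c : 𝓞 L)} = ⊤ ↔ (c : 𝓞 L) ∉ P :=
        ⟨fun k k' => m.ne_top (by rwa [sup_of_le_left ((span_singleton_le_iff_mem _).2 k')] at k),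
          fun k => (sup_comm _ _).trans (cop_of m (mem_span_singleton_self _) k)⟩
      rw [E.cm.mul, mul_eq_zero, ih, E.ram P m, ne_eq, ne_eq, mul_cop, k, Ideal.mul_eq_bot]
      have := p.ne_zero
      tauto
  prn x hx k := by rw [E.law x hx (mem_span_singleton.1 k), pow_zero]

theorem cop_nat {a b : ℕ} (h : a.Coprime b) : span {(a : 𝓞 L)} ⊔ span {(b : 𝓞 L)} = ⊤ := by
  rw [← isCoprime_iff_sup_eq, isCoprime_span_singleton_iff]
  simpa using (Nat.isCoprime_iff_coprime.2 h).map (Int.castRingHom (𝓞 L))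

theorem sm_rn {c : Ideal (𝓞 L₂)} {l : ℕ} (S : Sm c l) : Sm (relNorm (𝓞 L) c) l := by
  refine ⟨S.1, S.2.1, by rw [absNorm_relNorm, S.2.2.1], fun k => S.2.2.2 ?_⟩
  have := map_mono (f := algebraMap (𝓞 L) (𝓞 L₂)) (le_of_dvd k)
  rw [map_span, Set.image_singleton, map_natCast, Ideal.map_pow] at this
  exact dvd_iff_le.2 (this.trans (pow_le_pow_left' (map_le_iff_le_comap.2 (relNorm_le_comap _ c)) 2))

theorem sm_max {c : Ideal (𝓞 L)} {l : ℕ} (S : Sm c l) : c.IsMaximal :=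
  (isPrime_of_irreducible_absNorm (S.2.2.1 ▸ S.1)).isMaximal (sm_mem S).1

theorem in_coe (x : 𝓞 L₂) : ((Algebra.intNorm (𝓞 L) (𝓞 L₂) x : 𝓞 L) : L) = Algebra.norm L (x : L₂) :=
  Algebra.algebraMap_intNorm (A := 𝓞 L) (K := L) (L := L₂) (B := 𝓞 L₂) x

theorem nm_one [IsGalois L L₂] {P : Ideal (𝓞 L)} (p : P.IsMaximal) (i : Ine L₂ P) {x : 𝓞 L₂}
    (h : x - 1 ∈ P.map (algebraMap (𝓞 L) (𝓞 L₂))) : Algebra.intNorm (𝓞 L) (𝓞 L₂) x - 1 ∈ P := by
  rw [← ine_un p i, under_def, mem_comap, map_sub, map_one, ← Ideal.Quotient.eq]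
  have k : algebraMap (𝓞 L) (𝓞 L₂) (Algebra.intNorm (𝓞 L) (𝓞 L₂) x) = ∏ σ : Gal(L₂/L), σ • x := by
    apply RingOfIntegers.ext
    have := Algebra.norm_eq_prod_automorphisms L (x : L₂)
    rw [← in_coe] at this
    rw [RingOfIntegers.coe_eq_algebraMap (∏ _, _), map_prod]
    exact this
  rw [k, map_prod, map_one]
  refine Finset.prod_eq_one fun σ _ => ?_
  rw [← map_one (Ideal.Quotient.mk _), Ideal.Quotient.eq]
  have k1 := mem_map_of_mem (MulSemiringAction.toAlgHom (𝓞 L) (𝓞 L₂) σ) h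
  rw [map_sub, map_one] at k1
  refine map_le_iff_le_comap.2 (map_le_iff_le_comap.2 fun y hy => ?_) k1
  rw [mem_comap, mem_comap, AlgHom.commutes]
  exact mem_map_of_mem _ hy

variable {r B : ℕ} {t t' : 𝓞 L} {W : Fin (r + 1) → Ideal (𝓞 L)}
  {Φ : Ideal (𝓞 L) → ZMod (2 ^ B)} {φ : Fin (r + 1) → L → ZMod (2 ^ B)}

theorem aux_dvd (X : Aux t B W Φ φ) (h : t' ∣ t) : Aux t' B W Φ φ :=
  { X with cop := fun i k => X.cop i (mem_of_dvd _ h k) }

/-- the auxiliary data pass to the quadratic extension -/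
theorem aux_up (h : finrank L L₂ = 2) (X : Aux t B W Φ φ) (i : ∀ j, Ine L₂ (W j)) :
    Aux (algebraMap (𝓞 L) (𝓞 L₂) t) B (fun j => (W j).map (algebraMap (𝓞 L) (𝓞 L₂)))
      (fun I => Φ (relNorm (𝓞 L) I)) fun j x => φ j (Algebra.norm L x) where
  max := i
  inj j j' k := X.inj (by rw [← ine_un (X.max j) (i j), ← ine_un (X.max j') (i j')]; exact congrArg _ k)
  cop j k := X.cop j (ine_un (X.max j) (i j) ▸ k)
  add I I' a b c d := by
    rw [map_mul]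
    exact X.add _ _ (mt relNorm_eq_bot_iff.1 a) (mt relNorm_eq_bot_iff.1 b)
      (fun j => (cop_rn (X.max j) I).2 (c j)) fun j => (cop_rn (X.max j) I').2 (d j)
  loc j x y a b := by
    rw [map_mul]
    exact X.loc j _ _ (Algebra.norm_ne_zero_iff.2 a) (Algebra.norm_ne_zero_iff.2 b)
  tam j x k := by
    have := gal h
    rw [← in_coe]
    exact X.tam j _ (nm_one (X.max j) (i j) k)
  prd x I e a b k := by
    rw [← in_coe]
    refine X.prd _ _ (fun j => 2 * e j) (fun k => a (Algebra.intNorm_eq_zero.1 k))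
      (fun j => (cop_rn (X.max j) I).2 (b j)) ?_
    rw [← relNorm_singleton, k, map_mul, map_prod]
    simp only [map_pow, rn_map h, pow_mul]

variable [Algebra K L]

theorem ps_fin {s : 𝓞 K} (hs : ‖ι (J s)‖ = 1) : (Ps L s).Finite := by
  have h0 : span {algebraMap (𝓞 K) (𝓞 L) s} ≠ ⊥ := pv_ne ⟨s, hs, mem_span_singleton_self _⟩
  exact (Eu.fin_dvd h0).subset fun P p => dvd_iff_le.2 ((span_singleton_le_iff_mem _).2 p.2)

theorem ls_nm (Bs : Base ι J Ω) (h2 : finrank L L₂ = 2) (E : Eta L₂ η c) {s : 𝓞 K}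
    (hs : ‖ι (J s)‖ = 1) (hi : ∀ P ∈ Ps L s, Ine L₂ P) {h e : ℕ} (h0 : 0 < h) (e0 : 1 ≤ e)
    {lam : Ideal (𝓞 K) → ℂ} (La : La J h (2 ^ e) lam) :
    ‖ι (Ls s lam η)‖ * 2 ^ (Ps L s).ncard = ‖ι (∑' I, η I * lam (relNorm (𝓞 K) I))‖ := by
  have p2 : 2 ≤ 2 ^ e := le_self_pow₀ one_le_two (by omega)
  have hh : (2 : ℝ) ≤ h * (2 ^ e : ℕ) := by exact_mod_cast (by nlinarith : 2 ≤ h * 2 ^ e)
  have H := hc_mul (la_hc (M := L) Bs La) (eta_hc E)
  have f := ps_fin (L := L) hs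
  have k := sieve ⟨H.one, H.mul⟩ (sum_of one_lt_two fun I => by
    rw [norm_mul]
    exact (mul_le_of_le_one_left (norm_nonneg _) (E.le I)).trans (la_le Bs La hh I)) f.toFinset
    fun P p => Eu.prime_iff.2 (f.mem_toFinset.1 p).1
  have k1 : Ls s lam η = _ := (tsum_congr fun I => if_congr ?_ rfl rfl).trans k.symm
  · rw [k1, map_mul, norm_mul, map_prod, norm_prod, Finset.prod_congr rfl (g := fun _ => (1 / 2 : ℝ)),
      Finset.prod_const, Set.ncard_eq_toFinset_card _ f, mul_assoc, ← mul_pow]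
    · simp
    intro P p
    replace p := f.mem_toFinset.1 p
    rw [ine_eta h2 p.1 (E.gp P p.1) (hi P p), neg_one_mul, sub_neg_eq_add, map_add, map_one,
      show ∀ x : ℂ_[2], 1 + x = 2 + (x - 1) from fun x => by ring, add_eq, nm_two]
    rw [nm_two]
    refine (la_one Bs La ⟨s, hs, p.2⟩).trans_lt ?_
    rw [pow_add]
    nlinarith [pow_le_one₀ (n := e) (by norm_num : (0 : ℝ) ≤ 1 / 2) (by norm_num)]
  · simp only [f.mem_toFinset, dvd_iff_le]
    refine ⟨fun k P p k' => p.1.ne_top (top_le_iff.1 (k.ge.trans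
      (sup_le k' ((span_singleton_le_iff_mem _).2 p.2)))), fun k => ?_⟩
    by_contra k'
    obtain ⟨P, p, q⟩ := exists_le_maximal _ k'
    exact k P ⟨p, q (mem_sup_right (mem_span_singleton_self _))⟩ (le_sup_left.trans q)

theorem rg_eq {n : ℕ} (b : Basis (Fin n) K L) (m l : ℕ) (φ : Fin (r + 1) → L → ZMod (2 ^ B))
    (γ : Fin n ⊕ Fin r → L) (R : Finset (Ideal (𝓞 L))) :
    rg ι J b m l φ γ R = ‖(1 - l : ℂ_[2])‖ * Dt ι J b m φ γ R := by
  rw [rg, Dt, mul_assoc, norm_mul]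

theorem ap_of {q δ x y z w p : ℝ} (q0 : 0 < q) (δ0 : 0 < δ) (d : δ ≤ x)
    (k : |q * x - q * y * ((1 / 2) ^ (r + 1) * (z * (w * p)))| ≤ q * (δ / 5)) :
    Ap (x * 2 ^ (r + 1)) (y * (z * w) * p) := by
  rw [mul_assoc, ← mul_sub, abs_mul, abs_of_pos q0, mul_le_mul_iff_right₀ q0, abs_le] at k
  rw [show y * (z * w) * p = y * ((1 / 2) ^ (r + 1) * (z * (w * p))) * 2 ^ (r + 1) by
    rw [one_div, inv_pow]; field_simp]
  generalize y * _ = y at *
  have p : (0 : ℝ) < 2 ^ (r + 1) := by positivity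
  constructor <;> nlinarith

end Vale.Agent.P004C.Cm

namespace Vale.Agent.P004C.Al

open P004C.Cm

theorem cmb (HB : BND) (HL : LEAD) (HS : SMX) : CMB := by
  intro K _ _ ι J Ω Bs L L₂ _ _ _ _ _ _ _ _ n b n₂ b₂ h2 v v₂ hd η c E s hs hi h h0
  have := gal h2
  obtain ⟨⟨l, c', -, S⟩, l₁, c₁, n₁, S₁, i₁⟩ := HS L L₂ h2 c E.odd.pos.ne'
  have l0 := S.1.ne_zero
  have l1 := S₁.1.ne_zero
  refine ⟨2 * l * l₁, l, by positivity, dvd_mul_right _ _, fun r δ δ0 => ?_⟩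
  have q0 : 0 < ‖(1 - l : ℂ_[2])‖ := norm_pos_iff.2 (sub_ne_zero.2 (by
    exact_mod_cast S.1.one_lt.ne))
  obtain ⟨m0, H⟩ := cmb0 HB HL Bs h2 v v₂ hd (sm_rn S) S rfl (eta_hc (J := J) E)
    (Gx.pv_two (by simpa using cop_nat (Nat.coprime_two_right.2 E.odd))) E.le E.gp S₁
    (ine_eta h2 (sm_max S₁) (E.gp _ (sm_max S₁)) i₁)
    (cop_nat ((S₁.1.coprime_iff_not_dvd.2 n₁).symm)) h r h0
    (ε := ‖(1 - l : ℂ_[2])‖ * (δ / 5)) (by positivity)
  refine ⟨m0, fun m hm => ?_⟩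
  obtain ⟨B0, H⟩ := H m hm
  refine ⟨max B0 1, fun e B he hB lam La W Φ φ X i γ R γ₂ R₂ g r g₂ r₂ _ d₂ => ?_⟩
  have X₁ : Aux (2 * l) B W Φ φ := aux_dvd X ((by push_cast; exact dvd_mul_right _ _ :
    (2 * l : 𝓞 L) ∣ (2 * l * l₁ : ℕ)).mul_right _)
  have X₂ := aux_up h2 X₁ i
  rw [map_mul, map_natCast, map_ofNat] at X₂
  have k := H e B (le_of_max_le_left he) (le_of_max_le_left hB) lam La W Φ φ _ _ _ X₁ X₂
    (aux_dvd X ((by push_cast; exact dvd_mul_left _ _ :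
      (l₁ : 𝓞 L) ∣ (2 * l * l₁ : ℕ)).mul_right _)).cop
    (fun j => ine_eta h2 (X.max j) (E.gp _ (X.max j)) (i j)) (fun _ => rfl) (fun _ _ _ => rfl)
    γ R γ₂ R₂ g r g₂ r₂
  rw [← ls_nm Bs h2 E hs hi h0 (le_of_max_le_right he) La, rg_eq, rg_eq] at k
  exact ap_of q0 δ0 d₂ k

end Vale.Agent.P004C.Al
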