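import Vale.Agent.P004C.Al.Cub0

/-!
# P004 C, block AL: the cubic step
-/

set_option linter.all false

open NumberField Module IsDedekindDomain
open scoped Classical

noncomputable section

namespace Vale.Agent.P004C.Al

open Cb

/-- **the cubic step** -/
theorem cub (h0 : A0) (h3 : A3) (hU : UMF) (hD : DVF) (hP : PAI) : CUB := by
  intro K _ _ ι J Ω B A L L₂ N _ _ _ _ _ _ _ _ _ _ _ _ _ _ _ _ _ _ _ _ _ _ _ γ ω k s ω₁ ω₂ q q' c pN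
    p₂ f₁ o₁ e₁ f₂ o₂ e₂ s0 i i' m hm Z _ κ hκ hZ
  have hm' : 2 ≤ m + 1 := hm.trans m.le_succ
  have : IsScalarTower K L N := .of_algebraMap_eq fun x => (algebraMap N A).injective (by
    rw [← IsScalarTower.algebraMap_apply, ← IsScalarTower.algebraMap_apply,
      ← IsScalarTower.algebraMap_apply])
  have c1 : γ ^ 2 ^ k * ω = ω * γ ^ 2 ^ k := (Commute.pow_left c _ :)
  have c2 : γ ^ 2 ^ k * γ = γ * γ ^ 2 ^ k := (Commute.pow_self γ _ :)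
  have fx : ∀ x : L₂, ω (algebraMap L₂ A x) = algebraMap L₂ A x := fun x => by
    rw [← e₂, AlgEquiv.commutes]
  refine h3 _ _ _ _ _ (ua ω) (ua γ) (ta ω) (ta γ) _ _ (UL ι J A m) _ _ (UL ι J L₂ m) _ _ _ _ k
    (pa hD hP B q' s hm') (pa hD hP B q s hm') (lv hU hD hP B q' i' hm) (lv hU hD hP B q i hm)
    ⟨dd_ua hD B ω s, ua_cm c1, ta_cm c1, ⟨ul_le _, ul_le _, ul_le _, il_le hD B _, il_le hD B _⟩,
      ⟨ul_nr hU B f₁ o₁ e₁ _, ul_nr hU B f₂ o₂ e₂ _, ul_nr hU B f₂ o₂ e₂ _, il_nr hD B f₁ o₁ e₁ s,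
        il_nr hD B f₂ o₂ e₂ s⟩, ?_, ?_⟩
    ⟨dd_ua hD B γ s, ua_cm c2, ta_cm c2, ua_cm c.symm, ta_cm c.symm, ⟨ul_st hU B pN _,
      ul_st hU B (pres_top γ) _, ul_st hU B p₂ _, il_st hD B (pres_top γ) s⟩,
      fun x _ => ua_pow γ _ x, fun p _ => ta_pow γ _ p⟩
    (hs_ne h0 hD hP B q' s0 hm') (hs_ne h0 hD hP B q s0 hm') (cs_ne hD B s0 hm') (cs_ne hD B s0 hm')
    Z κ ?_ hZ
  · rintro _ ⟨-, x, rfl⟩
    exact Units.ext (fx x)
  · rw [il_eq]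
    rintro _ ⟨p, a, rfl⟩
    rw [← (hD K ι J Ω B A).2.1, (((hD K ι J Ω B A).2.2 L₂).2.1 ω fx).1 p a]
  · rw [ul_top, ul_top]
    exact hκ

end Vale.Agent.P004C.Al
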