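import Vale.Agent.P004F.Defs

/-!
# P004 C, block AL: algebra for the dictionary
-/

set_option linter.all false

open Matrix PowerSeries
open scoped Classical

noncomputable section

namespace Vale.Agent.P004C.Al.Dc

open Vale.Agent.P004F (Rb M2)

/-! ### square roots close to one -/

section val

variable {F : Type} [Field F] [CharZero F] (O : ValuationSubring F) {m : ℕ} {a b c u a' b' : F}

/-- `y ≡ 1` modulo `2 ^ m` -/
def Nr (m : ℕ) (y : F) : Prop := (y - 1) / 2 ^ m ∈ O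

variable {O}

theorem Nr.mul (h : Nr O m a) (k : Nr O m b) : Nr O m (a * b) := by
  have := add_mem (mul_mem h (add_mem (one_mem O) (mul_mem (pow_mem (ofNat_mem O 2) m) k))) k
  rwa [show (a - 1) / 2 ^ m * (1 + 2 ^ m * ((b - 1) / 2 ^ m)) + (b - 1) / 2 ^ m =
    (a * b - 1) / 2 ^ m by field_simp; ring] at this

theorem Nr.uq (h2 : (2 : F)⁻¹ ∉ O) (hm : 2 ≤ m) (h : Nr O m a) (k : Nr O m b) (e : a ^ 2 = b ^ 2) :
    a = b := (sq_eq_sq_iff_eq_or_eq_neg.1 e).resolve_right fun e => h2 (by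
  obtain ⟨n, rfl⟩ := Nat.exists_eq_add_of_le hm
  have := neg_mem (mul_mem (pow_mem (ofNat_mem O 2) n) (add_mem h k))
  rwa [e, show -((2 : F) ^ n * ((-b - 1) / 2 ^ (2 + n) + (b - 1) / 2 ^ (2 + n))) = 2⁻¹ by
    field_simp; ring] at this)

theorem Nr.ex (h : Nr O (m + 1 + 1) (a ^ 2)) : Nr O (m + 1) a ∨ Nr O (m + 1) (-a) := by
  by_cases h0 : a - 1 = 0
  · exact .inl (by simp [Nr, h0])
  by_cases h1 : a + 1 = 0
  · exact .inr (by simp [Nr, show -a - 1 = 0 by linear_combination -h1])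
  rcases O.mem_or_inv_mem ((a + 1) / (a - 1)) with k | k
  · have := neg_mem (mul_mem h (sub_mem k (one_mem O)))
    rw [show -((a ^ 2 - 1) / 2 ^ (m + 1 + 1) * ((a + 1) / (a - 1) - 1)) = (-a - 1) / 2 ^ (m + 1) by
      field_simp; ring] at this
    exact .inr this
  · have := mul_mem h (sub_mem (one_mem O) k)
    rw [show (a ^ 2 - 1) / 2 ^ (m + 1 + 1) * (1 - ((a + 1) / (a - 1))⁻¹) = (a - 1) / 2 ^ (m + 1) by
      field_simp; ring] at this
    exact .inl this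

/-- the sign -/
def sn (a b : F) : ZMod 2 := if a = b then 0 else 1

theorem sn_eq : sn a b = 0 ↔ a = b := by simp [sn]

theorem sn_neg (h : b ≠ 0) : sn (-b) b = 1 := if_neg fun e => h (neg_eq_self.1 e)

theorem sn_self (a : F) : sn a a = 0 := sn_eq.2 rfl

theorem sn_mul (e : a ^ 2 = b ^ 2) (e' : a' ^ 2 = b' ^ 2) (h : b ≠ 0) (h' : b' ≠ 0) :
    sn (a * a') (b * b') = sn a b + sn a' b' := by
  have := mul_ne_zero h h'
  rcases sq_eq_sq_iff_eq_or_eq_neg.1 e with rfl | rfl <;>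
    rcases sq_eq_sq_iff_eq_or_eq_neg.1 e' with rfl | rfl <;>
    simp only [neg_mul, mul_neg, neg_neg, sn_self, sn_neg, ne_eq, not_false_eq_true, *] <;> rfl

theorem sn_tr (e : a ^ 2 = b ^ 2) (e' : b ^ 2 = c ^ 2) (h : c ≠ 0) : sn a c = sn b c + sn a b := by
  have := neg_ne_zero.2 h
  have k : sn c (-c) = 1 := by simpa using sn_neg this
  rcases sq_eq_sq_iff_eq_or_eq_neg.1 e with rfl | rfl <;>
    rcases sq_eq_sq_iff_eq_or_eq_neg.1 e' with rfl | rfl <;>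
    simp only [neg_neg, sn_self, sn_neg, ne_eq, not_false_eq_true, *] <;> rfl

end val

/-! ### sums over cosets -/

section sum

variable {G V : Type} [Group G] {H : Subgroup G} {f : G → V}

theorem out_eq (hf : ∀ σ, ∀ h ∈ H, f (σ * h) = f σ) (σ : G) : f (σ : G ⧸ H).out = f σ := by
  obtain ⟨h, e⟩ := QuotientGroup.mk_out_eq_mul H σ
  rw [e, hf _ _ h.2]

theorem rei [AddCommMonoid V] [Fintype (G ⧸ H)] (hf : ∀ σ, ∀ h ∈ H, f (σ * h) = f σ) (g : G) :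
    ∑ q : G ⧸ H, f (g * q.out) = ∑ q : G ⧸ H, f q.out :=
  Fintype.sum_equiv (MulAction.toPerm g) _ _ fun q => by
    rw [← out_eq hf]; exact congrArg (fun q : G ⧸ H => f q.out) (MulAction.Quotient.mk_smul_out H g q)

end sum

/-! ### the group ring -/

/-- constants -/
abbrev cs (N : ℕ) : ZMod 2 →+* Rb N := (Ideal.Quotient.mk _).comp C

/-- the generator -/
abbrev tt (N : ℕ) : Rb N := Ideal.Quotient.mk _ (1 + X)

theorem tt_pow (k : ℕ) : tt (2 * 2 ^ k) ^ (2 * 2 ^ k) = 1 := by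
  haveI : CharP (PowerSeries (ZMod 2)) 2 := charP_of_injective_ringHom C_injective 2
  rw [← map_pow, ← pow_succ', add_pow_char_pow, one_pow, map_add, map_one, add_eq_left, pow_succ']
  exact Ideal.Quotient.eq_zero_iff_mem.2 (Ideal.mem_span_singleton_self _)

theorem tt_add {k : ℕ} (a b : ZMod (2 * 2 ^ k)) :
    tt (2 * 2 ^ k) ^ (a + b).val = tt _ ^ a.val * tt _ ^ b.val := by
  rw [ZMod.val_add, ← pow_add]
  exact (pow_eq_pow_mod _ (tt_pow k)).symm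

theorem ex_fun (k : ℕ) : ∃ f : Rb (2 * 2 ^ k) →+ ZMod 2, ∀ (c : ZMod 2) (n : ZMod (2 * 2 ^ k)),
    f (cs _ c * tt _ ^ n.val) = if n = 0 then c else 0 := by
  obtain ⟨N, hN⟩ : ∃ N, 2 * 2 ^ k = N + 1 := Nat.exists_eq_succ_of_ne_zero (by positivity)
  have v : (-1 : ZMod (2 * 2 ^ k)).val = N := by rw [hN]; exact ZMod.val_neg_one N
  let f : Rb (2 * 2 ^ k) →+ ZMod 2 := QuotientAddGroup.lift
    (Ideal.span {(X : PowerSeries (ZMod 2)) ^ (2 * 2 ^ k)}).toAddSubgroup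
    (coeff N).toAddMonoidHom fun x hx =>
      X_pow_dvd_iff.1 (Ideal.mem_span_singleton.1 hx) N (by omega)
  refine ⟨f.comp (AddMonoidHom.mulLeft (tt _ ^ (-1 : ZMod (2 * 2 ^ k)).val)), fun c n => ?_⟩
  have e : f (cs _ c * tt _ ^ (-1 + n).val) = c * ((-1 + n).val.choose N : ZMod 2) := by
    rw [← map_pow, RingHom.comp_apply, ← map_mul]
    refine (coeff_C_mul _ _ _).trans (congrArg _ ?_)
    rw [← Polynomial.coeff_one_add_X_pow, ← Polynomial.coeff_coe]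
    simp
  rw [AddMonoidHom.comp_apply, AddMonoidHom.coe_mulLeft, mul_left_comm, ← tt_add, e]
  split_ifs with h
  · rw [h, add_zero, v, Nat.choose_self, Nat.cast_one, mul_one]
  · rw [Nat.choose_eq_zero_of_lt, Nat.cast_zero, mul_zero]
    exact (Nat.lt_succ_iff.1 ((ZMod.val_lt _).trans_eq hN)).lt_of_ne fun z =>
      h (add_eq_left.1 (ZMod.val_injective _ (z.trans v.symm)))

theorem f2 : ∀ ω : M2 (ZMod 2), ω * ω * ω = 1 → ω ≠ 1 → trace (1 * ω) = 1 ∧ trace (ω * ω) = 1 ∧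
    ∀ N : M2 (ZMod 2), N.det ≠ 0 → trace (N * ω) ≠ 0 → N = 1 ∨ N = ω := by
  simp only [det_fin_two]
  decide

theorem f1 : ∀ ω : M2 (ZMod 2), ω * ω * ω = 1 → ω ≠ 1 → ∃ C : M2 (ZMod 2), C 1 = 0 ∧
    trace (1 * C) = 1 ∧ trace (ω * C) = 1 ∧
      ∀ N : M2 (ZMod 2), N * N * N = 1 → trace (N * C) ≠ 0 → N = 1 ∨ N = ω := by
  decide

/-! ### the induced cocycles -/

variable {G R A : Type} [Group G] [CommRing R] [AddCommGroup A] {Γ H : Subgroup G}
  {ρ : G → M2 (ZMod 2)} {e : G → A} {c : ZMod 2 →+* R} {t : A → R}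

/-- the action -/
abbrev aa (c : ZMod 2 →+* R) (t : A → R) (ρ : G → M2 (ZMod 2)) (e : G → A) (g : G) : M2 R :=
  t (e g) • (ρ g).map c

/-- the group data -/
structure Gr (Γ H : Subgroup G) (c : ZMod 2 →+* R) (t : A → R) (ρ : G → M2 (ZMod 2)) (e : G → A) :
    Prop where
  t0 : t 0 = 1
  ta : ∀ a b, t (a + b) = t a * t b
  fn : ∃ f : R →+ ZMod 2, ∀ x n, f (c x * t n) = if n = 0 then x else 0
  one : ρ 1 = 1
  mul : ∀ g h, ρ (g * h) = ρ g * ρ h
  add : ∀ g ∈ Γ, ∀ h ∈ Γ, e (g * h) = e g + e h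
  ker : ∀ g, g ∈ H ↔ g ∈ Γ ∧ ρ g = 1 ∧ e g = 0

namespace Gr

variable (r : Gr Γ H c t ρ e) {g h σ : G} {z z' : G → ZMod 2}
include r

theorem le (hh : h ∈ H) : h ∈ Γ := ((r.ker h).1 hh).1

theorem amul (hg : g ∈ Γ) (hh : h ∈ Γ) : aa c t ρ e (g * h) = aa c t ρ e g * aa c t ρ e h := by
  rw [aa, r.add g hg h hh, r.ta, r.mul, Matrix.map_mul, smul_mul_smul_comm]

theorem aone (hh : h ∈ H) : aa c t ρ e h = 1 := by
  obtain ⟨-, a, b⟩ := (r.ker h).1 hh
  simp [aa, a, b, r.t0]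

theorem rel (hg : g ∈ Γ) (hh : h ∈ Γ) (a : ρ g = ρ h) (b : e g = e h) : (g : G ⧸ H) = h := by
  have m := mul_mem (inv_mem hg) hh
  refine QuotientGroup.eq.2 ((r.ker _).2 ⟨m, ?_, ?_⟩)
  · rw [r.mul, ← a, ← r.mul, inv_mul_cancel, r.one]
  · have := r.add g hg _ m
    rwa [mul_inv_cancel_left, b, left_eq_add] at this

end Gr

/-- one term -/
def tm (Γ : Subgroup G) (c : ZMod 2 →+* R) (a : G → M2 R) (z : G → ZMod 2) (σ : G) : M2 R :=
  if σ ∈ Γ then c (z σ) • a σ else 0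

variable [Fintype (G ⧸ H)]

variable (H) in
/-- the sum -/
def sm (Γ : Subgroup G) (c : ZMod 2 →+* R) (a : G → M2 R) (z : G → ZMod 2) : M2 R :=
  ∑ q : G ⧸ H, tm Γ c a z q.out

variable {g h σ : G} {z z' z'' : G → ZMod 2} {a : G → M2 R}

theorem sm_add (hz : ∀ σ ∈ Γ, z σ = z' σ + z'' σ) :
    sm H Γ c a z = sm H Γ c a z' + sm H Γ c a z'' := by
  rw [sm, sm, sm, ← Finset.sum_add_distrib]
  refine Finset.sum_congr rfl fun q _ => ?_
  unfold tm
  split_ifs with y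
  · rw [hz _ y, map_add, add_smul]
  · rw [add_zero]

theorem sm_zero (hz : ∀ σ ∈ Γ, z σ = 0) : sm H Γ c a z = 0 :=
  left_eq_add.1 (sm_add (z' := z) (z'' := z) fun σ m => by rw [hz σ m, add_zero])

theorem Gr.sh (r : Gr Γ H c t ρ e) (hg : g ∈ Γ) (hz : ∀ σ, ∀ h ∈ H, z (σ * h) = z σ) :
    sm H Γ c (aa c t ρ e) (fun σ => z (g⁻¹ * σ)) = aa c t ρ e g * sm H Γ c (aa c t ρ e) z := by
  rw [sm, sm, ← rei (f := tm Γ c (aa c t ρ e) z) (fun σ h hh => by
    unfold tm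
    by_cases y : σ ∈ Γ
    · rw [if_pos y, if_pos (mul_mem y (r.le hh)), hz σ h hh, r.amul y (r.le hh), r.aone hh, mul_one]
    · rw [if_neg y, if_neg fun m => y ((Γ.mul_mem_cancel_right (r.le hh)).1 m)]) g⁻¹, Finset.mul_sum]
  refine Finset.sum_congr rfl fun q _ => ?_
  unfold tm
  by_cases y : q.out ∈ Γ
  · have m := mul_mem (inv_mem hg) y
    rw [if_pos y, if_pos m, Matrix.mul_smul, ← r.amul hg m, mul_inv_cancel_left]
  · rw [if_neg y, if_neg fun m => y ((Γ.mul_mem_cancel_left (inv_mem hg)).1 m), mul_zero]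

theorem Gr.inj0 (r : Gr Γ H c t ρ e) (hz : ∀ σ, ∀ h ∈ H, z (σ * h) = z σ) (hg : g ∈ Γ) (g1 : ρ g ≠ 1)
    (g0 : e g = 0) {C : M2 (ZMod 2)} (c1 : trace (1 * C) = 1) (c2 : trace (ρ g * C) = 1)
    (c3 : ∀ σ ∈ Γ, trace (ρ σ * C) ≠ 0 → ρ σ = 1 ∨ ρ σ = ρ g)
    (h0 : sm H Γ c (aa c t ρ e) z * C.map c = 0) : z g = z 1 := by
  obtain ⟨f, hf⟩ := r.fn
  let F : G → ZMod 2 := fun σ => if σ ∈ Γ then if e σ = 0 then z σ * trace (ρ σ * C) else 0 else 0
  have e1 := ((r.ker 1).1 (one_mem _)).2.2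
  have iv : ∀ σ, ∀ h ∈ H, F (σ * h) = F σ := fun σ h hh => by
    obtain ⟨a, b, c⟩ := (r.ker h).1 hh
    by_cases m : σ ∈ Γ
    · simp only [F, if_pos m, if_pos (mul_mem m a), r.add σ m h a, c, add_zero, hz σ h hh, r.mul, b,
        mul_one]
    · simp only [F, if_neg m, if_neg fun m' => m ((Γ.mul_mem_cancel_right a).1 m')]
  have s : ∑ q : G ⧸ H, F q.out = 0 := by
    rw [← map_zero f, ← trace_zero (Fin 2), ← h0, sm, Finset.sum_mul, trace_sum, map_sum]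
    refine Finset.sum_congr rfl fun q _ => ?_
    simp only [F, tm]
    split_ifs with m
    all_goals try rw [smul_smul, smul_mul_assoc, ← Matrix.map_mul, trace_smul, smul_eq_mul,
      ← AddMonoidHom.map_trace, mul_right_comm, ← map_mul, hf]
    all_goals simp [*]
  rw [Finset.sum_eq_add_of_mem ((1 : G) : G ⧸ H) g (Finset.mem_univ _) (Finset.mem_univ _) (fun a => g1 (by
    simpa using ((r.ker _).1 (QuotientGroup.eq.1 a)).2.1)) fun q _ c => ?_, out_eq iv, out_eq iv] at s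
  · simp only [F, if_pos hg, if_pos Γ.one_mem, if_pos g0, if_pos e1, r.one, c1, c2, mul_one] at s
    exact (CharTwo.add_eq_zero.1 s).symm
  simp only [F]
  split_ifs with m b
  · refine by_contra fun t => (c3 _ m (right_ne_zero_of_mul t)).elim (fun a => c.1 ?_) fun a => c.2 ?_
    · rw [← r.rel m (one_mem _) (a.trans r.one.symm) (b.trans e1.symm), QuotientGroup.out_eq']
    · rw [← r.rel m hg a (b.trans g0.symm), QuotientGroup.out_eq']
  all_goals rfl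

/-- **the first `d` columns see the values up to the cubic step** -/
theorem Gr.inj (r : Gr Γ H c t ρ e) (hz : ∀ σ, ∀ h ∈ H, z (σ * h) = z σ) (hg : g ∈ Γ) (g1 : ρ g ≠ 1)
    (g3 : ρ g ^ 3 = 1) (g0 : e g = 0) {d : ℕ} (hd : d = 2 ∨ d = 1 ∧ ∀ g ∈ Γ, ρ g ^ 3 = 1)
    (h0 : ∀ j : Fin 2, j.1 < d → ∀ i, sm H Γ c (aa c t ρ e) z i j = 0) (hσ : σ ∈ Γ) : z (σ * g) = z σ := by
  obtain ⟨C, c0, c1, c2, c3⟩ : ∃ C : M2 (ZMod 2), (∀ j : Fin 2, d ≤ j.1 → C j = 0) ∧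
      trace (1 * C) = 1 ∧ trace (ρ g * C) = 1 ∧
      ∀ σ ∈ Γ, trace (ρ σ * C) ≠ 0 → ρ σ = 1 ∨ ρ σ = ρ g := by
    rw [pow_three'] at g3
    rcases hd with rfl | ⟨rfl, hd⟩
    · obtain ⟨a, b, c⟩ := f2 _ g3 g1
      refine ⟨ρ g, fun j m => absurd j.2 (by omega), a, b, fun σ _ => c _ fun q => ?_⟩
      have := congrArg det (r.mul σ σ⁻¹)
      rw [mul_inv_cancel, r.one, det_mul, q, zero_mul, det_one] at this
      exact one_ne_zero this
    · obtain ⟨C, a, b, c, c'⟩ := f1 _ g3 g1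
      exact ⟨C, fun j m => (show 1 = j from Fin.ext (by have := j.2; simp; omega)) ▸ a, b, c,
        fun σ m => c' _ (pow_three' (ρ σ) ▸ hd σ m)⟩
  have := r.inj0 (z := fun τ => z (σ⁻¹⁻¹ * τ)) (fun τ h hh => by simp only [← mul_assoc, hz _ h hh])
    hg g1 g0 c1 c2 c3 (by
      rw [r.sh (inv_mem hσ) hz, mul_assoc, show sm H Γ c (aa c t ρ e) z * C.map c = 0 from ?_, mul_zero]
      ext i l
      rw [mul_apply]
      refine Finset.sum_eq_zero fun j _ => ?_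
      rcases lt_or_ge j.1 d with c | c
      · rw [h0 j c, zero_mul]
      · rw [map_apply, congrFun (c0 j c) l, Pi.zero_apply, map_zero, mul_zero])
  simpa using this

end Vale.Agent.P004C.Al.Dc
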