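import Vale.Agent.P004C.Al.St2
import Vale.Agent.P004C.Al.Gb0
import Vale.Agent.P004C.Al.Dcz
import Vale.Agent.P022K.Ex.Kum

/-!
# P004 C, block AL: the dictionary between units modulo squares and cocycles
-/

set_option linter.all false

open NumberField Matrix
open scoped Classical Pointwise

noncomputable section

namespace Vale.Agent.P004C.Al

open Vale.Agent.P022 (Qb GQ GK below)
open Vale.Agent.P022.H916 (isOpen_GK fixed exists_smul)
open Vale.Agent.P027M.S (Pr Inert)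
open Vale.Agent.P022D.W (dec)
open Vale.Agent.P022E.GW (Ov)
open Vale.Agent.P022K.G2 (In)
open Vale.Agent.P022K.GW.Pl (mem_smul inert_conj core_open dn cpt)
open Vale.Agent.P022K.Exi
open Vale.Agent.P004F (Rb Cc M2)

namespace Dc

variable {P : Ideal (𝓞 Qb)} {O : ValuationSubring Qb} {l m : ℕ} {g h σ : GQ} {u v : Qb}
  {Γ H : Subgroup GQ}

/-- `O` is the valuation ring of `P` -/
def Lo (P : Ideal (𝓞 Qb)) (O : ValuationSubring Qb) : Prop :=
  ∀ x, x ∈ O ↔ ∃ s t : 𝓞 Qb, s ∉ P ∧ (s : Qb) * x = t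

theorem ex_O (h : Ov l P) : ∃ O, Lo P O :=
  ⟨ValuationSubring.ofSubring (loc h.2.1) fun x => by
    obtain ⟨s, t, h2, h3 | h3⟩ := dich h x
    · exact Or.inl ⟨s, t, h2, h3⟩
    · by_cases hx : x = 0
      · exact Or.inl (hx ▸ (loc h.2.1).zero_mem)
      · refine Or.inr ⟨s, t, h2, ?_⟩
        rw [← h3, mul_comm x, mul_inv_cancel_right₀ hx], fun x => Iff.rfl⟩

theorem Lo.half (o : Lo P O) (h : Ov 2 P) : (2 : Qb)⁻¹ ∉ O := fun k => by
  obtain ⟨s, t, a, b⟩ := (o _).1 k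
  refine a ((show ((2 : ℕ) : 𝓞 Qb) * t = s from RingOfIntegers.ext ?_) ▸ P.mul_mem_right t h.2.2)
  change (2 : Qb) * t = s
  rw [← b, mul_comm, inv_mul_cancel_right₀ two_ne_zero]

theorem Lo.nr (o : Lo P O) (hg : g ∈ dec P) (k : Nr O m u) : Nr O m (g u) := by
  obtain ⟨s, t, a, b⟩ := (o _).1 k
  refine (o _).2 ⟨g • s, g • t, fun c => a ((hg s).1 c), ?_⟩
  have := congrArg g b
  simp only [map_mul, map_div₀, map_sub, map_one, map_pow, map_ofNat] at this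
  exact this

/-- the square root which is close to one -/
def rt (O : ValuationSubring Qb) (m : ℕ) (u : Qb) : Qb :=
  if h : ∃ y, y ^ 2 = u ∧ Nr O m y then h.choose else 0

theorem rt_spec (hm : 2 ≤ m) (k : Nr O (m + 1) u) : rt O m u ^ 2 = u ∧ Nr O m (rt O m u) := by
  have : ∃ y, y ^ 2 = u ∧ Nr O m y := by
    obtain ⟨y, rfl⟩ := ex_root 2 u
    obtain ⟨n, rfl⟩ := Nat.exists_eq_add_of_le' (show 1 ≤ m by omega)
    exact k.ex.elim (fun a => ⟨y, rfl, a⟩) fun a => ⟨-y, neg_sq y, a⟩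
  rw [rt, dif_pos this]
  exact this.choose_spec

/-- the Kummer signs -/
def zs (O : ValuationSubring Qb) (m : ℕ) (u : Qb) (g σ : GQ) : ZMod 2 :=
  sn (g (rt O m ((g⁻¹ * σ) u))) (rt O m (σ u))

/-- admissible elements -/
structure Ok (O : ValuationSubring Qb) (m : ℕ) (Γ H : Subgroup GQ) (u : Qb) : Prop where
  half : (2 : Qb)⁻¹ ∉ O
  le : 2 ≤ m
  ne : u ≠ 0
  fx : ∀ h ∈ H, h u = u
  nr : ∀ σ ∈ Γ, Nr O (m + 1) (σ u)

namespace Ok

variable (k : Ok O m Γ H u)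
include k

theorem sq (hσ : σ ∈ Γ) : rt O m (σ u) ^ 2 = σ u := (rt_spec k.le (k.nr σ hσ)).1

theorem near (hσ : σ ∈ Γ) : Nr O m (rt O m (σ u)) := (rt_spec k.le (k.nr σ hσ)).2

theorem ne0 (hσ : σ ∈ Γ) : rt O m (σ u) ≠ 0 := fun e =>
  (map_ne_zero σ).2 k.ne (by rw [← k.sq hσ, e, zero_pow two_ne_zero])

theorem sq' (hg : g ∈ Γ) (hσ : σ ∈ Γ) : g (rt O m ((g⁻¹ * σ) u)) ^ 2 = rt O m (σ u) ^ 2 := by
  rw [← map_pow, k.sq (mul_mem (inv_mem hg) hσ), ← AlgEquiv.mul_apply, mul_inv_cancel_left, k.sq hσ]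

theorem inv (g σ h : GQ) (hh : h ∈ H) : zs O m u g (σ * h) = zs O m u g σ := by
  simp only [zs, ← mul_assoc, AlgEquiv.mul_apply _ h, k.fx h hh]

theorem coc (hg : g ∈ Γ) (hh : h ∈ Γ) (σ : GQ) (hσ : σ ∈ Γ) :
    zs O m u (g * h) σ = zs O m u g σ + zs O m u h (g⁻¹ * σ) := by
  have a := k.sq' hh (mul_mem (inv_mem hg) hσ)
  rw [zs, _root_.mul_inv_rev, mul_assoc, AlgEquiv.mul_apply,
    sn_tr (by rw [← map_pow, a, map_pow]) (k.sq' hg hσ) (k.ne0 hσ)]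
  simp only [zs, sn, EmbeddingLike.apply_eq_iff_eq]

theorem mul (k' : Ok O m Γ H v) (k'' : Ok O m Γ H (u * v)) (hg : g ∈ Γ) (σ : GQ) (hσ : σ ∈ Γ) :
    zs O m (u * v) g σ = zs O m u g σ + zs O m v g σ := by
  have a : ∀ σ ∈ Γ, rt O m (σ (u * v)) = rt O m (σ u) * rt O m (σ v) := fun σ hσ =>
    (k''.near hσ).uq k.half k.le ((k.near hσ).mul (k'.near hσ)) (by
      rw [mul_pow, k.sq hσ, k'.sq hσ, k''.sq hσ, map_mul])
  rw [zs, a σ hσ, a _ (mul_mem (inv_mem hg) hσ), map_mul,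
    sn_mul (k.sq' hg hσ) (k'.sq' hg hσ) (k.ne0 hσ) (k'.ne0 hσ), zs, zs]

theorem fix (hσ : σ ∈ Γ) (a : σ⁻¹ * g * σ ∈ H) (b : ∀ y, y ^ 2 = u → (σ⁻¹ * g * σ) y = y) :
    zs O m u g σ = 0 := by
  have := b (σ⁻¹ (rt O m (σ u))) (by rw [← map_pow, k.sq hσ]; exact σ.symm_apply_apply u)
  rw [← AlgEquiv.mul_apply, mul_inv_cancel_right, AlgEquiv.mul_apply] at this
  rw [zs, show g⁻¹ * σ = σ * (σ⁻¹ * g * σ)⁻¹ by group, AlgEquiv.mul_apply, k.fx _ (inv_mem a),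
    σ⁻¹.injective this, sn_self]

/-- the cubic norm is a square -/
theorem three {w : GQ} {t : Qb} (hw : w ∈ Γ) (ht : t ^ 2 = u * w u * w (w u))
    (n : ∀ σ ∈ Γ, Nr O m (σ t)) (hg : g ∈ Γ) (e : ∀ σ ∈ Γ, zs O m u g (σ * w) = zs O m u g σ)
    (hσ : σ ∈ Γ) : zs O m u g σ = 0 := by
  have a : ∀ σ ∈ Γ, rt O m (σ u) * rt O m ((σ * w) u) * rt O m ((σ * w * w) u) = σ t := fun σ hσ =>
    have m1 := mul_mem hσ hw
    have m2 := mul_mem m1 hw
    (((k.near hσ).mul (k.near m1)).mul (k.near m2)).uq k.half k.le (n σ hσ) (by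
      rw [mul_pow, mul_pow, k.sq hσ, k.sq m1, k.sq m2, ← map_pow, ht, map_mul, map_mul]; rfl)
  have m1 := mul_mem hσ hw
  have m2 := mul_mem m1 hw
  have b := congrArg g (a _ (mul_mem (inv_mem hg) hσ))
  rw [← AlgEquiv.mul_apply g _ t, mul_inv_cancel_left, ← a σ hσ, map_mul, map_mul, ← sn_eq,
    mul_assoc g⁻¹, mul_assoc g⁻¹, sn_mul (by rw [mul_pow, mul_pow, k.sq' hg hσ, k.sq' hg m1])
      (k.sq' hg m2) (mul_ne_zero (k.ne0 hσ) (k.ne0 m1)) (k.ne0 m2),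
    sn_mul (k.sq' hg hσ) (k.sq' hg m1) (k.ne0 hσ) (k.ne0 m1)] at b
  change zs O m u g σ + zs O m u g (σ * w) + zs O m u g (σ * w * w) = 0 at b
  rwa [e _ m1, e _ hσ, CharTwo.add_self_eq_zero, zero_add] at b

end Ok

section

variable {R A : Type} [CommRing R] [AddCommGroup A] {ρ : GQ → M2 (ZMod 2)} {e : GQ → A}
  {c : ZMod 2 →+* R} {t : A → R} [Fintype (GQ ⧸ H)] {T : Finset ℕ}

variable (O m Γ H c) in
/-- the columns of the induced cocycle -/
def co (a : GQ → M2 R) (u : Qb) (j : Fin 2) (g : GQ) (i : Fin 2) : R :=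
  if g ∈ Γ then sm H Γ c a (zs O m u g) i j else 0

theorem co_zero {a : GQ → M2 R} {j : Fin 2} (z : g ∈ Γ → ∀ σ ∈ Γ, zs O m u g σ = 0) :
    co O m Γ H c a u j g = 0 := funext fun i => by
  unfold co
  split_ifs with y
  · rw [sm_zero (z y)]; rfl
  · rfl

theorem co_cc (r : Gr Γ H c t ρ e) (k : Ok O m Γ H u) (o : Lo P O) (hH : IsOpen (H : Set GQ))
    (ur : ∀ g ∈ Γ, g ∈ In T → g ∈ H ∧ ∀ y, y ^ 2 = u → g y = y) (j : Fin 2) :
    Cc Γ T (aa c t ρ e) (co O m Γ H c (aa c t ρ e) u j) ∧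
      ∀ g ∈ dec P, co O m Γ H c (aa c t ρ e) u j g = 0 := by
  obtain ⟨y, hy⟩ := ex_root 2 u
  refine ⟨⟨fun g hg h hh => funext fun i => ?_, fun g hg => co_zero fun a => absurd a hg,
    ⟨_, core_open (W := H ⊓ MulAction.stabilizer GQ y) (hH.inter (P022E.GW.Kc.stab_open y)),
      fun w hw => co_zero fun _ σ hσ => ?_⟩, fun g hg => co_zero fun a σ hσ => ?_⟩,
    fun g hg => co_zero fun a σ hσ => sn_eq.2 ((o.nr hg (k.near (mul_mem (inv_mem a) hσ))).uq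
      k.half k.le (k.near hσ) (k.sq' a hσ))⟩
  · simp only [co, if_pos hg, if_pos hh, if_pos (mul_mem hg hh), Pi.add_apply, P004F.Pr.ac]
    rw [sm_add (k.coc hg hh), r.sh hg (k.inv h)]
    rfl
  · have := hw σ⁻¹
    rw [inv_inv] at this
    refine k.fix hσ this.1 fun x hx => ?_
    have e : (σ⁻¹ * w * σ) y = y := this.2
    rcases sq_eq_sq_iff_eq_or_eq_neg.1 (hx.trans hy.symm) with rfl | rfl
    exacts [e, by rw [map_neg, e]]
  · obtain ⟨l, h1, Q, h2, h3⟩ := hg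
    have := ur _ (mul_mem (mul_mem (inv_mem hσ) a) hσ) ⟨l, h1, σ⁻¹ • Q, P022K.GW.ov_smul h2 _, by
      simpa using inert_conj h3 σ⁻¹⟩
    exact k.fix hσ this.1 this.2

end

variable {K A : Type} [Field K] [NumberField K] [Field A] [NumberField A] [Algebra K A]
  {ι : ℂ →+* ℂ_[2]} {J : K →+* ℂ} {j : K →+* Qb} {jA : A →+* Qb}

theorem vi_iff (hj : ∀ x, jA (algebraMap K A x) = j x) (hP : Ab ι J j P) (o : Lo P O) (u : A) :
    Vi ι J u ↔ ∀ g ∈ GK j, g (jA u) ∈ O := by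
  have nv : ∀ s : 𝓞 K, s ∉ below j P ↔ ‖ι (J s)‖ = 1 := fun s => (hP.2 s).not.trans Gx.not_vv
  refine ⟨fun ⟨s, a, b⟩ g hg => (o _).2 ⟨RingOfIntegers.mapRingHom j s,
    g • RingOfIntegers.mapRingHom jA ⟨_, b⟩, (nv s).2 a, ?_⟩, fun h => by_contra fun k => ?_⟩
  · change j s * _ = g (jA (_ * _))
    rw [map_mul, map_mul, hj, hg]
  let _ := (RingOfIntegers.mapRingHom j).toAlgebra
  have : Algebra.IsIntegral (𝓞 K) (𝓞 Qb) := Algebra.IsIntegral.tower_top ℤ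
  have := P022.H20.below_prime j hP.1.2.1
  let D : Ideal (𝓞 Qb) :=
    { carrier := {a | IsIntegral ℤ ((a : Qb) * jA u)}
      add_mem' := fun {a b} x y => by simpa [add_mul] using IsIntegral.add x y
      zero_mem' := by simpa using isIntegral_zero
      smul_mem' := fun a b x => by
        have := a.isIntegral_coe.mul x
        rw [← mul_assoc] at this
        exact this }
  obtain ⟨Q, a, b, c⟩ := Ideal.exists_ideal_over_prime_of_isIntegral (below j P) D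
    fun s hs => by_contra fun n => k ⟨s, (nv s).1 n, (isIntegral_algHom_iff jA.toIntAlgHom
      jA.injective).1 (by
        change IsIntegral ℤ (jA (_ * _))
        rw [map_mul, hj]; exact hs)⟩
  obtain ⟨g, rfl⟩ := exists_smul j b hP.1.2.1 c
  obtain ⟨s, t, x, y⟩ := (o _).1 (h g g.2)
  refine x ((mem_smul _ _ _).2 (a ?_))
  have := congrArg (g.1⁻¹ : GQ) y
  rw [map_mul, show (g.1⁻¹ : GQ) (g.1 (jA u)) = _ from g.1.symm_apply_apply _] at this
  change IsIntegral ℤ ((g.1⁻¹ : GQ) s * jA u)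
  exact this ▸ (g.1⁻¹ • t).isIntegral_coe

theorem v1_iff (hj : ∀ x, jA (algebraMap K A x) = j x) (hP : Ab ι J j P) (o : Lo P O) (u : A) :
    V1 ι J m u ↔ ∀ g ∈ GK j, Nr O m (g (jA u)) := by
  simp only [V1, vi_iff hj hP o, Nr, map_div₀, map_sub, map_one, map_pow, map_ofNat]

/-- even order: the square roots are fixed by inertia -/
theorem unr {S : Set (Pr A)} {x : Aˣ} (hx : dd S x ∈ sq (IL A S)) (ho : Ov l P) (h2 : l ≠ 2)
    (hS : dn jA l P ho ∉ S) (hg : g ∈ GK jA) (i : Inert P g) (y : Qb) (hy : y ^ 2 = jA x) :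
    g y = y := by
  obtain ⟨f, -, e⟩ := hx
  obtain ⟨π, hπ⟩ := ex_ord {dn jA l P ho} fun v => (f v).toAdd
  have e1 : f (dn jA l P ho) ^ 2 = od (dn jA l P ho) x := by
    simpa [dd, pj, hS] using congrFun e (dn jA l P ho)
  have z : IsPrimitiveRoot (-1 : Qb) 2 := IsPrimitiveRoot.neg_one 0 (by norm_num)
  have hz : ∀ g : GK jA, g.1 (-1) = -1 := fun g => by simp
  have := ka_unr z hz ho (fun d => h2 ((Nat.prime_dvd_prime_iff_eq ho.1 Nat.prime_two).1 d)) rfl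
    (b := x * π⁻¹ ^ 2) (g := ⟨g, hg⟩) (by
      rw [map_mul, map_pow, map_inv, hπ _ (Finset.mem_singleton_self _), ← e1]; simp) i
  rw [map_mul, ka_pow, mul_one] at this
  exact (ka_one z hz hy).1 this

end Dc

open Dc in
/-- **the dictionary** -/
theorem dic (hU : UMF) : DIC := by
  intro K A _ _ _ _ _ ι J Ω B j jA P ρ c k e S s hj hP hL hT hA ω w hw w1 w3 w0 hω d m hd hm
  obtain ⟨O, o⟩ := ex_O hP.1
  have um := fun n x a => ((hU K ι J Ω B A).2.1 n x a).trans (v1_iff hj hP o _)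
  have := cpt
  have := (GK jA).quotient_finite_of_isOpen (isOpen_GK jA)
  let _ := Fintype.ofFinite (GQ ⧸ GK jA)
  have r : Gr (GK j) (GK jA) (cs (2 * 2 ^ k)) (fun n => tt (2 * 2 ^ k) ^ n.val) ρ e :=
    ⟨by simp, tt_add, (ex_fun k).imp fun f h x n => (h x n).trans (by split_ifs <;> rfl),
      hT.one, hT.mul, hL.add, hA⟩
  have ok : ∀ x ∈ Um ι J A (m + 1), Ok O m (GK j) (GK jA) (jA x) := fun x hx =>
    ⟨o.half hP.1, hm, (map_ne_zero jA).2 x.ne_zero, fun h hh => hh _, (um _ x (by omega)).1 hx⟩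
  have d2 : d ≤ 2 := by omega
  let X : Aˣ → Fin d → GQ → Fin 2 → Rb (2 * 2 ^ k) := fun x i => co O m (GK j) (GK jA) (cs _)
    (aa (cs _) (fun n => tt (2 * 2 ^ k) ^ n.val) ρ e) (jA x) (i.castLE d2)
  have mem : ∀ x ∈ Um ι J A (m + 1), dd (Ss ι J A s) x ∈ sq (IL A (Ss ι J A s)) → ∀ i,
      X x i ∈ Zc j (S ∪ c.primeFactors) ρ (2 * 2 ^ k) (fun g => (e g).val) P := fun x hx a i =>
    co_cc r (ok x hx) o (isOpen_GK jA) (fun g hg ⟨l, h1, Q, h2, h3⟩ => by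
      have lS : l ∉ S := fun q => h1 (Finset.mem_union_left _ q)
      have l2 : l ≠ 2 := fun q => lS (q ▸ hT.two)
      have m := (hA g).2 ⟨hg, hT.unr g ⟨l, lS, Q, h2, h3⟩, hL.unr l Q h2 (fun q => h1
        (Finset.mem_union_right _ (Nat.mem_primeFactors.2 ⟨h2.1, q, by have := hL.one; omega⟩)))
          g hg h3⟩
      refine ⟨m, unr a h2 l2 ?_ m h3⟩
      rintro (⟨-, q⟩ | q)
      · obtain ⟨n, hn⟩ := h2.1.odd_of_ne_two l2
        exact q (Gx.pv_two ((Ideal.eq_top_iff_one _).2 (Submodule.mem_sup.2 ⟨l,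
          P022.H20.l_mem_below jA h2.2.2, -n * 2, Ideal.mem_span_singleton'.2 ⟨_, rfl⟩, by
            rw [hn]; push_cast; ring⟩)))
      · exact lS (hT.ine l Q h2 (show _ ∈ Q from (show RingOfIntegers.mapRingHom jA
          (algebraMap _ _ s) = RingOfIntegers.mapRingHom j s from RingOfIntegers.ext (hj s)) ▸ q)).1) _
  refine ⟨fun x i => if h : X x i ∈ _ then ⟨_, h⟩ else ⟨_, mem 1 (one_mem _) (by
    rw [map_one]; exact one_mem _) i⟩, fun x hx y hy x1 y1 x3 y3 hk => ?_⟩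
  have hz := div_mem hx hy
  obtain ⟨t, t1, t2⟩ := div_mem x3 y3
  rw [← map_div] at t2
  obtain ⟨z, rfl⟩ : ∃ z, x = z * y := ⟨x / y, (div_mul_cancel x y).symm⟩
  rw [mul_div_cancel_right] at hz t2 ⊢
  have kz := ok z hz
  have z0 : ∀ g ∈ GK j, ∀ σ ∈ GK j, zs O m (jA z) g σ = 0 := fun g hg σ =>
    kz.three (t := jA t) hw (by
      rw [← hω, ← hω, ← map_mul, ← map_mul, ← map_pow]
      exact congrArg (fun x : Aˣ => jA x) t2) ((um _ t (by omega)).1 t1) hg fun σ =>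
      r.inj (kz.inv g) hw w1 w3 w0 hd fun i hi i' => by
        have a := congrFun hk ⟨i, hi⟩
        beta_reduce at a
        rw [dif_pos (mem _ hx x1 _), dif_pos (mem _ hy y1 _)] at a
        have b := congrFun (congrFun (congrArg Subtype.val a) g) i'
        have e := ok _ hx
        simp only [X, co, if_pos hg, Units.val_mul, map_mul] at b e
        rw [sm_add (kz.mul (ok y hy) e hg)] at b
        exact add_eq_right.1 b
  have a : ∀ g ∈ GK j, g (rt O m ((g⁻¹ * 1) (jA z))) = rt O m (jA z) := fun g hg =>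
    sn_eq.1 (z0 g hg 1 (one_mem _))
  obtain ⟨v, hv⟩ := fixed jA (x := rt O m (jA z)) fun g => by
    have := a g (r.le g.2)
    rwa [mul_one, kz.fx _ (inv_mem g.2)] at this
  have v2 : v ^ 2 = z := jA.injective (by rw [map_pow, hv]; exact kz.sq (one_mem _))
  refine ⟨Units.mk0 v fun q => z.ne_zero (by rw [← v2, q, zero_pow two_ne_zero]),
    (um _ _ (by omega)).2 fun g hg => ?_, Units.ext v2⟩
  have := a g⁻¹ (inv_mem hg)
  rw [inv_inv, mul_one] at this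
  rw [Units.val_mk0, hv, ← this, show ∀ y, g (g⁻¹ y) = y from g.apply_symm_apply]
  exact kz.near hg

end Vale.Agent.P004C.Al
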