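import Vale.Agent.P004C.Al.Dj2

/-!
# P004 C, block AL: row DJ
-/

open NumberField Module IsDedekindDomain Ideal
open scoped Classical

noncomputable section

namespace Vale.Agent.P004C.Al

open Gx Dj

namespace Dj

/-- the abstract index formula -/
theorem jx (h7 : A7) {G X D Q Y : Type} [CommGroup G] [CommGroup X] [CommGroup D] [CommGroup Q]
    [CommGroup Y] (j : G →* X) (d : X →* D) {f : X → Y} {f' : G →* Y} (hf : ∀ x, f (j x) = f' x)
    {θ : G →* Q} (hθ : Function.Surjective θ) {I : Subgroup D} (hI : j.range.map d ≤ I) :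
    Jx d f (θ.ker.map j) I = (j.range.map d).relIndex I * ((d.comp j).ker.map (θ.prod f')).index := by
  have le : (θ.ker.map j).map d ≤ j.range.map d := Subgroup.map_mono (Subgroup.map_le_range _ _)
  have a := h7 _ _ _ θ f' (d.comp j).ker ⊤ (fun x _ y _ => map_mul _ x y) le_top
  rw [Jx, Subgroup.top_prod_top, Subgroup.relIndex_top_right, Subgroup.relIndex_top_right,
    show ((fun x => (θ x, f' x)) '' (d.comp j).ker) = (d.comp j).ker.map (θ.prod f') from rfl,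
    Subgroup.closure_eq, Subgroup.index_map _ θ, MonoidHom.range_eq_top.2 hθ, Subgroup.index_top,
    mul_one] at a
  rw [h7 _ _ _ d f _ I (by
    rintro _ ⟨x, -, rfl⟩ _ ⟨y, -, rfl⟩
    rw [← map_mul, hf, hf, hf, map_mul]) (le.trans hI), ← Subgroup.relIndex_mul_relIndex _ _ _ le hI,
    a, mul_comm (Subgroup.relIndex _ _), mul_assoc, MonoidHom.range_eq_map, Subgroup.map_map,
    Subgroup.map_map, Subgroup.relIndex_map_map, top_sup_eq, Subgroup.relIndex_top_right, sup_comm]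
  congr 4
  ext y
  constructor
  · rintro ⟨_, ⟨⟨x, a, rfl⟩, b⟩, rfl⟩
    exact ⟨x, ⟨b, a⟩, (hf x).symm⟩
  · rintro ⟨x, ⟨a, b⟩, rfl⟩
    exact ⟨_, ⟨⟨x, b, rfl⟩, a⟩, hf x⟩

/-- splitting of the coordinates -/
def sw (α β Z : Type) [AddCommGroup Z] :
    Multiplicative (α ⊕ β → Z) ≃* Multiplicative (α → Z) × Multiplicative (β → Z) where
  toFun y := (.ofAdd fun i => y.toAdd (.inl i), .ofAdd fun i => y.toAdd (.inr i))
  invFun y := .ofAdd (Sum.elim y.1.toAdd y.2.toAdd)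
  left_inv _ := congrArg Multiplicative.ofAdd (Sum.elim_comp_inl_inr _)
  right_inv _ := rfl
  map_mul' _ _ := rfl

end Dj

theorem dj (hK : KV) (h7 : A7) : DJ := by
  intro K _ _ ι J Ω B A L _ _ _ _ _ _ _ _ r Bq W t hW t0 t2 m hm2
  have hm : 1 ≤ m := by omega
  have hW1 := fun i => (hW i).1
  refine ⟨fun x => (ev_one (A := A) hW1 hm).trans (and_congr_left' (mem_UL hm).symm), fun R hR => ?_⟩
  have c := cls (A := A) B hW1 t0 t2 hm hR
  have c0 : R.card ≠ 0 :=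
    Finset.card_ne_zero.2 ⟨_, (hR.ex 1 one_ne_zero (by simp) (by simp)).exists.choose_spec.1⟩
  refine ⟨c, c0, fun n b φ γ a f hb hφ hγ am aB hf => ?_⟩
  obtain ⟨ρ, hρ⟩ := hK K ι J Ω B
  let j : Vs ι J L hm →* Aˣ := (iu A).comp (Subgroup.subtype _)
  have ji : Function.Injective j :=
    (Units.map_injective (algebraMap L A).injective).comp Subtype.val_injective
  let f' : Vs ι J L hm →* Multiplicative (Fin r → ZMod (2 ^ a)) := .mk' (fun x => f (j x))
    fun x y => Multiplicative.toAdd.injective (funext fun i => by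
      rw [toAdd_mul, Pi.add_apply]
      exact (hf _ i).trans ((congrArg ZMod.cast (hφ _ _ _ x.1.ne_zero y.1.ne_zero)).trans
        ((ZMod.cast_add (pow_dvd_pow 2 aB) _ _).trans (congrArg₂ _ (hf _ i) (hf _ i)).symm)))
  have u0 : UL ι J L m = j.range := by
    rw [UL_eq hm, MonoidHom.range_comp, Subgroup.range_subtype]
  have u1 : UL ι J L (m + a) = (th hρ hb hm am).ker.map j := by
    rw [UL_eq (hm.trans (Nat.le_add_right m a))]
    ext x
    constructor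
    · rintro ⟨y, h, rfl⟩
      exact ⟨⟨y, v1_mono (Nat.le_add_right m a) h⟩, (th_ker hρ hb hm am _).2 h, rfl⟩
    · rintro ⟨y, h, rfl⟩
      exact ⟨y, (th_ker hρ hb hm am _).1 h, rfl⟩
  have e1 : ∀ k, Ev ι J W m 1 1 (γ k) := fun k => (hγ.gen _).2 ⟨Pi.single k 1, by
    rw [Finset.prod_eq_single k (fun j _ h => by simp [h]) (by simp)]
    simp⟩
  let g : Fin n ⊕ Fin r → Vs ι J L hm := fun k => ⟨.mk0 _ (v1_unit hm (e1 k).1).1, (e1 k).1⟩
  let Γ : Multiplicative (Fin n ⊕ Fin r → ℤ) →* Vs ι J L hm :=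
    .mk' (fun c => ∏ k, g k ^ c.toAdd k) fun _ _ => by simp [zpow_add, Finset.prod_mul_distrib]
  have Γ0 : ∀ c, ((Γ c : Lˣ) : L) = ∏ k, γ k ^ c.toAdd k := fun c => by simp [Γ, g]
  have Γ1 : Function.Injective Γ := (injective_iff_map_eq_one _).2 fun c h =>
    hγ.ind _ ((Γ0 c).symm.trans (by rw [h]; rfl))
  have Γ2 : ((dd (Sw ι J A W)).comp j).ker = Γ.range := Subgroup.ext fun x =>
    ((and_iff_right x.2).symm.trans (ev_one hW1 hm).symm).trans ((hγ.gen _).trans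
      ⟨fun ⟨c, h⟩ => ⟨.ofAdd c, Subtype.ext (Units.ext ((Γ0 _).trans h.symm))⟩,
        fun ⟨c, h⟩ => ⟨c.toAdd, h ▸ Γ0 c⟩⟩)
  let Z : Matrix (Fin n ⊕ Fin r) (Fin n ⊕ Fin r) ℤ_[2] := .of fun k =>
    Sum.elim (cz hρ hb ⟨_, (e1 k).1⟩) fun i => ((φ i.succ (γ k)).val : ℤ_[2])
  let Ψ : (Fin n ⊕ Fin r → ℤ) →+ (Fin n ⊕ Fin r → ZMod (2 ^ a)) :=
    .mk' (fun c => ∑ k, c k • fun i => PadicInt.toZModPow a (Z k i)) fun _ _ => by
      simp only [Pi.add_apply, add_smul, Finset.sum_add_distrib]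
  have Ψ1 : ∀ c, (th hρ hb hm am).prod f' (Γ c) = sw _ _ _ (.ofAdd (Ψ c.toAdd)) := fun c => by
    simp only [Γ, Ψ, AddMonoidHom.mk'_apply, MonoidHom.mk'_apply, map_prod, map_zpow, ofAdd_sum,
      ofAdd_zsmul]
    refine Finset.prod_congr rfl fun k _ => congrArg (· ^ _) (Prod.ext rfl ?_)
    refine Multiplicative.toAdd.injective (funext fun i => (hf _ i).trans ?_)
    exact (ZMod.natCast_val _).symm.trans (map_natCast (PadicInt.toZModPow a) _).symm
  have i1 : (((dd (Sw ι J A W)).comp j).ker.map ((th hρ hb hm am).prod f')).index = Ψ.range.index := by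
    rw [Γ2, ← AddSubgroup.index_toSubgroup, ← Ψ.range.toSubgroup.index_map_equiv (sw _ _ _)]
    congr 1
    ext y
    constructor
    · rintro ⟨_, ⟨c, rfl⟩, rfl⟩
      exact ⟨_, ⟨_, rfl⟩, (Ψ1 c).symm⟩
    · rintro ⟨_, ⟨c, rfl⟩, rfl⟩
      exact ⟨_, ⟨.ofAdd c, rfl⟩, Ψ1 _⟩
  have i2' : Jx (dd (Sw ι J A W)) f (UL ι J L (m + a)) (IL L (Sw ι J A W)) =
      R.card * Ψ.range.index := by
    rw [u1, jx h7 j _ (f' := f') (fun _ => rfl) (th_sj hρ hb hm am) (u0 ▸ dd_le), ← u0, c, i1]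
  have i0 : Ψ.range.index ≠ 0 := AddSubgroup.index_ne_zero_of_finite
  refine ⟨?_, i2' ▸ mul_ne_zero c0 i0, fun h => ?_⟩
  · rw [show n + r = Fintype.card (Fin n ⊕ Fin r) by simp, ← i2_fin Ψ.ker (φ := j.comp Γ)
      (ji.comp Γ1), Kf, ← (Subgroup.map _ _).closure_eq, u1]
    congr 2
    ext y
    constructor
    · rintro ⟨⟨x, x1, rfl⟩, x2, x3⟩
      obtain ⟨c, rfl⟩ := Γ2.le x2
      exact ⟨c, (map_eq_one_iff _ (sw _ _ _).injective).1 ((Ψ1 c).symm.trans (Prod.ext x1 x3)), rfl⟩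
    · rintro ⟨c, h, rfl⟩
      have := (Ψ1 c).trans ((congrArg (sw _ _ _) h).trans (map_one _))
      exact ⟨⟨_, congrArg Prod.fst this, rfl⟩, Γ2.ge ⟨c, rfl⟩, congrArg Prod.snd this⟩
  · rw [i2', v2, padicValNat.mul c0 i0] at h ⊢
    rw [pow_add, ← nrm_nat c0, ← lat Z Ψ.range (fun _ => exists_congr fun _ => eq_comm) (by omega),
      Dt, norm_mul, PadicInt.norm_def, ← norm_algebraMap' ℂ_[2] (Z.det : ℚ_[2])]
    refine congrArg (‖(R.card : ℂ_[2])‖ * ‖·‖) (Eq.trans (congrArg Matrix.det (Matrix.ext fun k i => ?_))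
      (((algebraMap ℚ_[2] ℂ_[2]).comp PadicInt.Coe.ringHom).map_det Z).symm)
    obtain i | i := i
    · exact hρ _
    · exact (map_natCast ((algebraMap ℚ_[2] ℂ_[2]).comp PadicInt.Coe.ringHom) _).symm

end Vale.Agent.P004C.Al
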