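import Vale.Agent.P004C.Al.Gb0
import Mathlib.RingTheory.DedekindDomain.Different
import Mathlib.RingTheory.DedekindDomain.Factorization
import Mathlib.RingTheory.Norm.Transitivity

/-!
# P004 C, block AL: the different and the discriminant at `v`
-/

set_option linter.unusedSectionVars false

open NumberField Module Algebra
open scoped Classical nonZeroDivisors

noncomputable section

namespace Vale.Agent.P004C.Al.Ds

open Gx

variable {K : Type} [Field K] [NumberField K] {ι : ℂ →+* ℂ_[2]} {J : K →+* ℂ}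
  {M : Type} [Field M] [NumberField M] [Algebra K M]
  {N : Type} [Field N] [NumberField N] [Algebra K N] [Algebra M N] [IsScalarTower K M N]
  {n n' : ℕ} {b : Basis (Fin n) K M} {I I' : Ideal (𝓞 M)} {g g' : 𝓞 M}

theorem ov_map {x : M} : algebraMap M N x ∈ Ov ι J N ↔ x ∈ Ov ι J M :=
  exists_congr fun s => and_congr_right fun _ => by
    rw [IsScalarTower.algebraMap_apply K M N, ← map_mul,
      isIntegral_algebraMap_iff (algebraMap M N).injective]

theorem ov_nm {z : K} (h : z ∈ Ov ι J K) : ‖ι (J z)‖ ≤ 1 := by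
  obtain ⟨s, a, c⟩ := h
  simpa [a] using nm_int (ι.comp J) c

theorem ov_K (hb : Vb ι J b) {z : K} : z ∈ Ov ι J K ↔ ‖ι (J z)‖ ≤ 1 :=
  ⟨ov_nm, fun h => (ov_map (N := M)).1 ((hb _).2 fun i => by
    rw [algebraMap_eq_smul_one, map_smul, Finsupp.smul_apply, smul_eq_mul, map_mul, map_mul,
      norm_mul]
    exact mul_le_one₀ h (norm_nonneg _) ((hb 1).1 (one_mem (Ov ι J M)) i))⟩

theorem ov_tr {x : N} (h : x ∈ Ov ι J N) : trace M N x ∈ Ov ι J M := by
  obtain ⟨s, a, c⟩ := h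
  refine ⟨s, a, ?_⟩
  rw [← smul_eq_mul, ← map_smul, smul_def, ← IsScalarTower.algebraMap_apply]
  exact isIntegral_trace c

theorem ov_norm {x : N} (h : x ∈ Ov ι J N) : norm M x ∈ Ov ι J M := by
  obtain ⟨s, a, c⟩ := h
  refine ⟨s ^ finrank M N, by simp [a], ?_⟩
  have := isIntegral_norm M c
  rwa [map_mul, IsScalarTower.algebraMap_apply K M N, Algebra.norm_algebraMap, ← map_pow] at this

variable (ι J) in
/-- `g` generates `I` at the primes above `v` -/
def Gn (I : Ideal (𝓞 M)) (g : 𝓞 M) : Prop := g ∈ I ∧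
  ∃ s : 𝓞 K, ‖ι (J s)‖ = 1 ∧ ∀ x ∈ I, algebraMap (𝓞 K) (𝓞 M) s * x ∈ Ideal.span {g}

theorem gn_of {L : Ideal (𝓞 M)} (h : Ideal.span {g} = I * L) (p : Pv ι J L) : Gn ι J I g :=
  let ⟨s, a, c⟩ := p
  ⟨Ideal.mul_le_left (h.le (Ideal.mem_span_singleton_self g)), s, a, fun _ hx => by
    rw [h, mul_comm I]; exact Ideal.mul_mem_mul c hx⟩

theorem gn_ex (hI : I ≠ ⊥) : ∃ g, g ≠ 0 ∧ Gn ι J I g := by
  obtain ⟨g, h⟩ := IsDedekindDomain.exists_sup_span_eq (I := I * Ideal.span {2}) (J := I)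
    Ideal.mul_le_left (mul_ne_zero hI (by simp))
  obtain ⟨L, e⟩ := Ideal.dvd_iff_le.2 (h ▸ le_sup_right : Ideal.span {g} ≤ I)
  have k : L ⊔ Ideal.span {2} = ⊤ := mul_left_cancel₀ hI (by
    rw [Ideal.mul_sup, ← e, sup_comm, h, Ideal.mul_top])
  refine ⟨g, fun c => ?_, gn_of e (pv_two k)⟩
  obtain ⟨s, a, d⟩ : Pv ι J L := pv_two k
  rw [c, Ideal.span_singleton_zero, eq_comm, Ideal.mul_eq_bot, or_iff_right hI] at e
  rw [e, Submodule.mem_bot] at d
  exact ne_of (M := M) a (by rw [← coe_s, d]; rfl)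

theorem Gn.mul (h : Gn ι J I g) (h' : Gn ι J I' g') : Gn ι J (I * I') (g * g') := by
  obtain ⟨a, s, c, d⟩ := h
  obtain ⟨a', s', c', d'⟩ := h'
  refine ⟨Ideal.mul_mem_mul a a', s * s', by simp [c, c'], fun x hx => ?_⟩
  refine Submodule.mul_induction_on hx (fun y hy z hz => ?_) fun y z hy hz => ?_
  · rw [map_mul, mul_mul_mul_comm, ← Ideal.span_singleton_mul_span_singleton]
    exact Ideal.mul_mem_mul (d y hy) (d' z hz)
  · exact mul_add (algebraMap (𝓞 K) (𝓞 M) _) y z ▸ add_mem hy hz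

theorem gn_one : Gn ι J (1 : Ideal (𝓞 M)) 1 := ⟨by simp, 1, by simp, by simp⟩

theorem Gn.pow (h : Gn ι J I g) (k : ℕ) : Gn ι J (I ^ k) (g ^ k) := by
  induction k with
  | zero => simpa using gn_one
  | succ k ih => exact pow_succ I k ▸ pow_succ g k ▸ ih.mul h

/-- two generators have the same size -/
theorem Gn.le (h : Gn ι J I g) (h' : g' ∈ I) : ‖ι (J (norm K (g' : M)))‖ ≤ ‖ι (J (norm K (g : M)))‖ := by
  obtain ⟨-, s, c, d⟩ := h
  obtain ⟨y, e⟩ := Ideal.mem_span_singleton'.1 (d _ h')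
  have := congrArg (fun z : 𝓞 M => ‖ι (J (norm K (z : M)))‖) e
  simp only [map_mul, coe_s, Algebra.norm_algebraMap, map_pow, norm_mul,
    norm_pow, c, one_pow, one_mul] at this
  exact this ▸ mul_le_of_le_one_left (norm_nonneg _) (ov_nm (ov_norm (int_Ov y)))

theorem Gn.eq (h : Gn ι J I g) (h' : Gn ι J I g') :
    ‖ι (J (norm K (g : M)))‖ = ‖ι (J (norm K (g' : M)))‖ := (h'.le h.1).antisymm (h.le h'.1)

variable (ι J M) in
/-- `g` generates the different of `N / M` at the primes above `v` -/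
def Dg (g : N) : Prop := g ≠ 0 ∧
  ∀ y : N, (∀ x ∈ Ov ι J N, trace M N (y * x) ∈ Ov ι J M) ↔ g * y ∈ Ov ι J N

theorem dg_of {g : 𝓞 N} (h0 : g ≠ 0) (h : Gn ι J (differentIdeal (𝓞 M) (𝓞 N)) g) :
    Dg ι J M (g : N) := by
  have D := coeIdeal_differentIdeal (𝓞 M) M N (𝓞 N)
  have d0 := FractionalIdeal.dual_ne_zero (𝓞 M) M (one_ne_zero (α := FractionalIdeal (𝓞 N)⁰ N))
  have g0 : (g : N) ≠ 0 := RingOfIntegers.coe_ne_zero_iff.2 h0
  have k : ∀ y : N, y ∈ FractionalIdeal.dual (𝓞 M) M (1 : FractionalIdeal (𝓞 N)⁰ N) ↔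
      ∀ x : 𝓞 N, IsIntegral ℤ (trace M N (y * x)) := fun y => by
    rw [FractionalIdeal.mem_dual (one_ne_zero (α := FractionalIdeal (𝓞 N)⁰ N))]
    exact ⟨fun a x => by
      obtain ⟨z, hz⟩ := a x ((FractionalIdeal.mem_one_iff _).2 ⟨x, rfl⟩)
      exact (show trace M N (y * x) = z from hz.symm) ▸ z.isIntegral_coe, fun a x hx => by
      obtain ⟨x, rfl⟩ := (FractionalIdeal.mem_one_iff _).1 hx
      exact ⟨⟨_, a x⟩, rfl⟩⟩
  refine ⟨g0, fun y => ⟨fun a => ?_, fun ⟨s₁, a₁, c₁⟩ x ⟨s₂, a₂, c₂⟩ => ?_⟩⟩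
  · choose s s1 s2 using fun i => a _ (int_Ov (RingOfIntegers.basis N i))
    have m : algebraMap K N (∏ i, s i : 𝓞 K) * y ∈
        FractionalIdeal.dual (𝓞 M) M (1 : FractionalIdeal (𝓞 N)⁰ N) := (k _).2 fun x => by
      rw [← (RingOfIntegers.basis N).sum_repr x, mul_assoc, IsScalarTower.algebraMap_apply K M N,
        ← smul_def, map_smul]
      simp only [RingOfIntegers.coe_eq_algebraMap, map_sum, map_zsmul, Finset.mul_sum,
        mul_smul_comm, Finset.smul_sum, smul_comm _ (_ : ℤ)]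
      refine IsIntegral.sum _ fun i _ => IsIntegral.smul _ ?_
      rw [← Finset.prod_erase_mul _ _ (Finset.mem_univ i), map_mul, map_mul, smul_eq_mul, mul_assoc]
      exact (int_s _).mul (s2 i)
    have := FractionalIdeal.mul_mem_mul ((FractionalIdeal.mem_coeIdeal (P := N) _).2
      ⟨g, h.1, rfl⟩) m
    rw [D, inv_mul_cancel₀ d0] at this
    obtain ⟨z, hz⟩ := (FractionalIdeal.mem_one_iff _).1 this
    exact ⟨∏ i, s i, by simp [s1], by rw [mul_left_comm]; exact hz ▸ z.isIntegral_coe⟩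
  · obtain ⟨-, s, a, c⟩ := h
    have m : algebraMap K N s * (g : N)⁻¹ ∈
        FractionalIdeal.dual (𝓞 M) M (1 : FractionalIdeal (𝓞 N)⁰ N) := by
      rw [← inv_inv (FractionalIdeal.dual _ _ _), ← D, FractionalIdeal.mem_inv_iff (D ▸ inv_ne_zero d0)]
      intro z hz
      obtain ⟨z, h1, rfl⟩ := (FractionalIdeal.mem_coeIdeal _).1 hz
      obtain ⟨w, e⟩ := Ideal.mem_span_singleton'.1 (c z h1)
      refine (FractionalIdeal.mem_one_iff _).2 ⟨w, ?_⟩
      have e' : (w : N) * g = algebraMap K N s * z := congrArg (fun z : 𝓞 N => (z : N)) e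
      rw [mul_right_comm, eq_mul_inv_iff_mul_eq₀ g0]
      exact e'
    refine ⟨s * s₁ * s₂, by simp [a, a₁, a₂], ?_⟩
    have := (k _).1 m (⟨_, c₁⟩ * ⟨_, c₂⟩)
    rw [← smul_eq_mul, ← map_smul, smul_def, ← IsScalarTower.algebraMap_apply]
    convert this using 2
    show _ = algebraMap K N s * (g : N)⁻¹ * (algebraMap K N s₁ * (g * y) * (algebraMap K N s₂ * x))
    simp only [map_mul]
    field_simp

theorem Dg.trans {g' : M} {g : N} (h' : Dg ι J K g') (h : Dg ι J M g) :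
    Dg ι J K (g * algebraMap M N g') := by
  refine ⟨mul_ne_zero h.1 ((map_ne_zero _).2 h'.1), fun y => ?_⟩
  rw [mul_assoc, ← h.2]
  refine ⟨fun a x hx => ?_, fun a x hx => ?_⟩
  · rw [mul_assoc, ← smul_def, map_smul]
    refine (h'.2 _).1 fun z hz => ?_
    rw [mul_comm, ← smul_eq_mul, ← map_smul, trace_trace, smul_def, mul_left_comm]
    exact a _ (mul_mem (ov_map.2 hz) hx)
  · have := a x hx
    rw [mul_assoc, ← smul_def, map_smul] at this
    simpa only [mul_one, trace_trace] using (h'.2 _).2 this 1 (one_mem _)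

theorem det_le {A : Matrix (Fin n) (Fin n) K} (h : ∀ i j, ‖ι (J (A i j))‖ ≤ 1) :
    ‖ι (J A.det)‖ ≤ 1 := by
  rw [Matrix.det_apply', map_sum, map_sum]
  refine IsUltrametricDist.norm_sum_le_of_forall_le_of_nonneg zero_le_one fun σ _ => ?_
  rw [map_mul, map_mul, norm_mul, map_prod, map_prod, norm_prod]
  exact mul_le_one₀ (by rcases Int.units_eq_one_or (Equiv.Perm.sign σ) with e | e <;> simp [e])
    (by positivity) (Finset.prod_le_one (fun _ _ => norm_nonneg _) fun i _ => h _ _)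

/-- the discriminant is the norm of the different -/
theorem dv_eq (hb : Vb ι J b) {g : M} (h : Dg ι J K g) : dv ι J b = ‖ι (J (norm K g))‖ := by
  have m : ∀ i, b i ∈ Ov ι J M := fun i => (hb _).2 fun j => by
    rw [b.repr_self, Finsupp.single_apply]; split_ifs <;> simp
  have e : b.traceDual.det b = discr K b := by
    rw [Basis.det_apply, discr_def, ← Matrix.det_transpose]
    congr 1
    ext i j
    simp [Basis.toMatrix_apply]
  have n0 : norm K g ≠ 0 := norm_ne_zero_iff.2 h.1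
  have e1 : b.traceDual.det (fun i => g⁻¹ * b i) = (norm K g)⁻¹ * discr K b := by
    rw [← e, ← Algebra.norm_inv, norm_apply]
    exact b.traceDual.det_comp (lmul K M g⁻¹) b
  have e2 : b.det (fun i => g * b.traceDual i) = norm K g * (discr K b)⁻¹ := by
    rw [← e, ← eq_inv_of_mul_eq_one_left ((b.det_mul_det b.traceDual b).trans b.det_self),
      norm_apply]
    exact b.det_comp (lmul K M g) b.traceDual
  have l1 := det_le (ι := ι) (J := J) (A := b.traceDual.toMatrix fun i => g⁻¹ * b i) fun i j => by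
    rw [Basis.toMatrix_apply, Basis.traceDual_repr_apply]
    exact ov_nm ((h.2 _).2 (by rw [mul_inv_cancel_left₀ h.1]; exact m j) _ (m i))
  have l2 := det_le (ι := ι) (J := J) (A := b.toMatrix fun i => g * b.traceDual i) fun i j =>
    (hb _).1 ((h.2 _).1 fun x hx => (ov_K hb).2 (by
      have := b.traceDual.traceDual_repr_apply x j
      rw [Basis.traceDual_traceDual, traceForm_apply, mul_comm] at this
      exact this ▸ (hb x).1 hx j)) i
  rw [← Basis.det_apply] at l1 l2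
  have d0 : 0 < ‖ι (J (discr K b))‖ := by simpa using discr_not_zero_of_basis K b
  have d1 : 0 < ‖ι (J (norm K g))‖ := by simpa using n0
  simp only [e1, e2, map_mul, map_inv₀, norm_mul, _root_.norm_inv] at l1 l2
  exact ((inv_mul_le_one₀ d1).1 l1).antisymm ((div_le_one d0).1 l2)

theorem dg_ex : ∃ g : 𝓞 N, Gn ι J (differentIdeal (𝓞 M) (𝓞 N)) g ∧ Dg ι J M (g : N) :=
  let ⟨g, a, c⟩ := gn_ex (ι := ι) (J := J) (differentIdeal_ne_bot (A := 𝓞 M) (B := 𝓞 N))
  ⟨g, c, dg_of a c⟩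

/-- towers -/
theorem dv_tower {b' : Basis (Fin n') K N} (hb : Vb ι J b) (hb' : Vb ι J b') {g : N}
    (h : Dg ι J M g) : dv ι J b' = ‖ι (J (norm K g))‖ * dv ι J b ^ finrank M N := by
  obtain ⟨g', -, h'⟩ := dg_ex (ι := ι) (J := J) (M := K) (N := M)
  rw [dv_eq hb' (h'.trans h), dv_eq hb h', map_mul, ← norm_norm (S := M) (a := algebraMap M N _),
    Algebra.norm_algebraMap]
  simp

end Vale.Agent.P004C.Al.Ds
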