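import Vale.Agent.P004C.Al.St
import Vale.Agent.P004C.Al.Dis0

/-!
# P004 C, block AL, row DS2: the discriminant in a quadratic step
-/

set_option linter.unusedSectionVars false

open NumberField Module Algebra
open scoped Classical

noncomputable section

namespace Vale.Agent.P004C.Al

open Gx Ds

variable {K : Type} [Field K] [NumberField K] {ι : ℂ →+* ℂ_[2]} {J : K →+* ℂ}
  {M : Type} [Field M] [NumberField M] [Algebra K M]
  {N : Type} [Field N] [NumberField N] [Algebra K N] [Algebra M N] [IsScalarTower K M N]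

theorem Ds.tr_two (h : finrank M N = 2) {τ : N ≃ₐ[M] N} (h1 : τ ≠ 1) (x : N) :
    algebraMap M N (trace M N x) = x + τ x := by
  have : IsQuadraticExtension M N := { finrank_eq_two' := h }
  rw [trace_eq_sum_automorphisms, ← Finset.eq_univ_of_card {1, τ} (by
    rw [Finset.card_pair h1.symm, ← Nat.card_eq_fintype_card, IsGalois.card_aut_eq_finrank, h]),
    Finset.sum_pair h1.symm, AlgEquiv.one_apply]

theorem Ds.dg_one (h : finrank M N = 2) {τ : N ≃ₐ[M] N} (h1 : τ ≠ 1) {θ : N}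
    (hθ : θ ∈ Ov ι J N) (e : θ + τ θ = 1) : Dg ι J M (1 : N) := by
  refine ⟨one_ne_zero, fun y => ⟨fun a => ?_, fun a x hx => ov_tr (mul_mem (one_mul y ▸ a) hx)⟩⟩
  have a1 := (ov_map (N := N)).2 (a 1 (one_mem _))
  have a2 := (ov_map (N := N)).2 (a θ hθ)
  rw [tr_two h h1] at a1 a2
  obtain ⟨n, u⟩ := v1_unit (ι := ι) (J := J) (x := 1 + 2 ^ 1 * -θ) le_rfl
    (v1_iff.2 ⟨_, neg_mem hθ, rfl⟩)
  convert mul_mem u (sub_mem (mul_mem (sub_mem (one_mem _) hθ) a1) a2) using 1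
  rw [eq_inv_mul_iff_mul_eq₀ n, map_mul τ y θ, eq_sub_of_add_eq' e]
  simp only [mul_one]
  ring

theorem ds2 : DS2 := fun K _ _ ι J _ _ L L₂ _ _ _ _ _ _ _ _ _ _ _ _ _ _ h h1 hθ e hb hb₂ => by
  rw [dv_tower hb hb₂ (dg_one h h1 hθ e), h]
  simp

end Vale.Agent.P004C.Al
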