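import Vale.Agent.P004C.Al.Dvf0

/-!
# P004 C, block AL: divisors, equivariance, norms, finiteness
-/

set_option linter.unusedSectionVars false

open NumberField Module IsDedekindDomain
open scoped Classical

noncomputable section

namespace Vale.Agent.P004C.Al.Df

open Vale.Agent.P027M.S (Pr)
open Vale.Agent.P022K.Exi (od)
open Gx Multiplicative

variable {K : Type} [Field K] [NumberField K] {ι : ℂ →+* ℂ_[2]} {J : K →+* ℂ}
  {A : Type} [Field A] [NumberField A] [Algebra K A]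
  {L : Type} [Field L] [NumberField L] [Algebra L A]

theorem xt_xt (L₂ : Type) [Field L₂] [NumberField L₂] [Algebra L L₂] [Algebra L₂ A]
    [IsScalarTower L L₂ A] (I : Ideal (𝓞 L)) : (xt L₂ (xt L I) : Ideal (𝓞 A)) = xt L I := by
  rw [xt, xt, Ideal.map_map, ← IsScalarTower.algebraMap_eq]

theorem fin_S {s : 𝓞 K} (hs : s ≠ 0) : (Ss ι J A s).Finite := by
  have h0 : Ideal.span {2 * algebraMap (𝓞 K) (𝓞 A) s} ≠ 0 := by
    simpa using hs
  refine (Ideal.finite_factors h0).subset fun P hP => ?_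
  rw [Set.mem_ofPred_eq, Ideal.dvd_span_singleton]
  rcases hP with h | h
  · refine Ideal.mul_mem_right _ _ (by_contra fun k => h.2 (pv_two (P.isMaximal.out.2 _ ?_)))
    exact left_lt_sup.2 (mt (Ideal.span_singleton_le_iff_mem _).1 k)
  · exact Ideal.mul_mem_left _ _ h

theorem i2_fin {S : Set (Pr A)} (hS : S.Finite) (E : Subgroup Aˣ) : i2 (E ⊓ (dd S).ker) ≠ 0 := by
  have := hS.to_subtype
  have : AddGroup.FG (S → ℤ) := Module.Finite.iff_addGroup_fg.1 inferInstance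
  have : Group.FG (𝓞 A)ˣ := Group.fg_iff_monoid_fg.2 inferInstance
  let f : Aˣ →* Multiplicative (S → ℤ) := MonoidHom.mk'
    (fun x => ofAdd fun P => toAdd (od P.1 x)) fun x y => by
      simp only [map_mul, toAdd_mul]
      rfl
  refine (Subgroup.isFiniteRelIndex_map_powMonoidHom_of_fg (fg_of _ f
    (Units.map (algebraMap (𝓞 A) A : 𝓞 A →* A)) fun x hx => ?_) two_ne_zero).relIndex_ne_zero
  obtain ⟨ε, hε⟩ := P027M.S.Cls.unit_of x.ne_zero fun P => by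
    by_cases h : P ∈ S
    · exact congrFun (congrArg toAdd hx.2) ⟨P, h⟩
    · have k := congrFun (dd_eq S x ▸ hx.1.2 : pj S (dd ∅ x) = 1) P
      rw [pj_apply, if_neg h, dd_apply] at k
      exact congrArg toAdd k
  exact ⟨ε, Units.ext hε⟩

section

variable [Algebra K L] [IsScalarTower K L A]

theorem pv_mul {I I' : Ideal (𝓞 L)} (h : Pv ι J I) (h' : Pv ι J I') : Pv ι J (I * I') := by
  obtain ⟨s, a, b⟩ := h
  obtain ⟨t, c, d⟩ := h'
  exact ⟨s * t, by simp [a, c], by rw [map_mul]; exact Ideal.mul_mem_mul b d⟩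

theorem pv_under {P : Ideal (𝓞 A)} : Pv ι J (P.under (𝓞 L)) ↔ Pv ι J P := by
  simp only [Pv, Ideal.under_def, Ideal.mem_comap, ← IsScalarTower.algebraMap_apply]

theorem ex_pv {S : Set (Pr A)} (hS : ∀ P : Pr A, Av ι J P.asIdeal → P ∈ S) {I : Ideal (𝓞 L)}
    (h : I ≠ ⊥) : ∃ I', I' ≠ ⊥ ∧ Pv ι J I' ∧ pj S (dI (xt L I)) = pj S (dI (xt L I')) := by
  induction I using UniqueFactorizationMonoid.induction_on_prime with
  | h₁ => exact absurd rfl h
  | h₂ I hI => exact ⟨I, h, ⟨1, by simp, by simp [Ideal.isUnit_iff.1 hI]⟩, rfl⟩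
  | h₃ I p hI hp ih =>
    obtain ⟨I', h1, h2, h3⟩ := ih hI
    rw [xt, Ideal.map_mul, dI_mul (xt_ne L hp.ne_zero) (xt_ne L hI), map_mul, h3]
    by_cases k : Pv ι J p
    · exact ⟨p * I', mul_ne_zero hp.ne_zero h1, pv_mul k h2, by
        rw [← map_mul, ← dI_mul (xt_ne L hp.ne_zero) (xt_ne L h1), ← Ideal.map_mul]⟩
    · refine ⟨I', h1, h2, mul_eq_right.2 (funext fun P => ?_)⟩
      rw [pj_apply]
      split_ifs with hP
      · rfl
      · refine dI_eq.2 fun e => hP (hS P ((av_iff P).2 fun a => k ?_))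
        rw [((Ideal.isPrime_of_prime hp).isMaximal hp.ne_zero).eq_of_le
          (Ideal.IsPrime.under _ P.asIdeal).ne_top (Ideal.map_le_iff_le_comap.1 e)]
        exact pv_under.2 a

theorem v1_map {m : ℕ} {x : L} (h : V1 ι J m x) : V1 ι J m (algebraMap L A x) := by
  obtain ⟨s, a, b⟩ := h
  refine ⟨s, a, ?_⟩
  have := map_isIntegral_int (algebraMap L A) b
  have e : algebraMap L A (algebraMap K L s) = algebraMap K A s :=
    (IsScalarTower.algebraMap_apply K L A _).symm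
  rw [map_mul] at this
  erw [e] at this
  simpa only [map_div₀, map_sub, map_one, map_pow, map_ofNat] using this

theorem ray_fin {S : Set (Pr A)} (hS : ∀ P : Pr A, Av ι J P.asIdeal → P ∈ S) (m : ℕ) :
    ((UL ι J L m).map (dd S)).relIndex (IL L S) ≠ 0 := by
  have := fin_two (M := L) m
  obtain ⟨c, C, a, C2, ha⟩ := ex_C (show Ideal.span {(2 : 𝓞 L)} ≠ 0 by simp)
  have k : ∀ p : (ML A L).map (pj S), ∃ I : Ideal (𝓞 L), I ≠ ⊥ ∧ Pv ι J I ∧
      (p : Dv A) = pj S (dI (xt L I)) := by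
    rintro ⟨_, _, ⟨I, h, rfl⟩, rfl⟩
    exact ex_pv hS h
  choose I h1 h2 h3 using k
  rw [IL_eq, MonoidHom.map_closure, ← Submonoid.coe_map]
  refine fin_rel _ _ (fun p => (c (I p), Ideal.Quotient.mk (Ideal.span {(2 : 𝓞 L) ^ m}) (a (I p))))
    fun p q e => ?_
  obtain ⟨e1, e2⟩ := Prod.ext_iff.1 e
  have k1 : ∀ p, a (I p) ≠ 0 ∧ (a (I p) : L)⁻¹ ∈ Ov ι J L := fun p =>
    inv_Ov (ha _ (h1 p) ▸ pv_mul (h2 p) (pv_two (C2 _)))
  have k2 : ∀ p, (a (I p) : L) ≠ 0 := fun p => RingOfIntegers.coe_ne_zero_iff.2 (k1 p).1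
  have k3 : ∀ x, C x ≠ ⊥ := fun x e => half (ι := ι) (J := J)
    (inv_Ov (pv_two (f := Ideal.span {(2 : 𝓞 L)}) (by simpa [e] using C2 x))).2
  have k4 : ∀ p, dd S (Units.map (algebraMap L A : L →* A) (.mk0 _ (k2 p))) =
      p * pj S (dI (xt L (C (c (I p))))) := fun p => by
    rw [dd_eq, dd_map rfl, ← ha _ (h1 p), xt, Ideal.map_mul, dI_mul (xt_ne L (h1 p))
      (xt_ne L (k3 _)), map_mul, h3]
  refine ⟨Units.map (algebraMap L A : L →* A) (.mk0 _ (k2 p) / .mk0 _ (k2 q)),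
    ⟨Subgroup.subset_closure (v1_map ?_), _, rfl⟩, ?_⟩
  · obtain ⟨d, hd⟩ := Ideal.mem_span_singleton'.1 (Ideal.Quotient.eq.1 e2)
    have hd' := congrArg (algebraMap (𝓞 L) L) hd
    simp only [map_mul, map_pow, map_ofNat, map_sub] at hd'
    refine v1_iff.2 ⟨d * (a (I q) : L)⁻¹, mul_mem (int_Ov d) (k1 q).2, ?_⟩
    have := k2 q
    simp only [Units.val_div_eq_div_val, Units.val_mk0]
    field_simp
    linear_combination -hd'
  · rw [map_div, map_div, k4, k4, show c (I p) = c (I q) from e1, mul_div_mul_right_eq_div]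

end

section

variable {L₂ : Type} [Field L₂] [NumberField L₂] [Algebra L L₂] [Algebra L₂ A]
  [IsScalarTower L L₂ A]

theorem prod_gal {d : ℕ} {σ₂ : L₂ ≃ₐ[L] L₂} (h1 : finrank L L₂ = d) (h2 : orderOf σ₂ = d) (x : L₂) :
    ∏ i ∈ Finset.range d, (σ₂ ^ i) x = algebraMap L L₂ (Algebra.norm L x) := by
  have : FiniteDimensional L L₂ := Module.Finite.of_restrictScalars_finite ℚ L L₂
  have h3 : Nat.card (L₂ ≃ₐ[L] L₂) = d := le_antisymm
    (by rw [Nat.card_eq_fintype_card, ← h1]; exact AlgEquiv.card_le) (h2 ▸ orderOf_le_card)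
  have : IsGalois L L₂ := IsGalois.of_card_aut_eq_finrank _ _ (h3.trans h1.symm)
  have h4 : Subgroup.zpowers σ₂ = ⊤ :=
    Subgroup.eq_top_of_card_eq _ (by rw [Nat.card_zpowers, h2, h3])
  rw [Algebra.norm_eq_prod_automorphisms, ← IsCyclic.image_range_orderOf
    (a := σ₂) fun x => h4 ▸ Subgroup.mem_top x, Finset.prod_image, h2]
  exact fun i hi j hj => pow_injOn_Iio_orderOf (by simpa using hi) (by simpa using hj)

theorem nrm_mem {d : ℕ} {σ : A ≃ₐ[K] A} {σ₂ : L₂ ≃ₐ[L] L₂} (h1 : finrank L L₂ = d)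
    (h2 : orderOf σ₂ = d) (h : ∀ x, algebraMap L₂ A (σ₂ x) = σ (algebraMap L₂ A x)) {p : Dv A}
    (hp : p ∈ IL L₂ (∅ : Set (Pr A))) : ∏ i ∈ Finset.range d, ta (σ ^ i) p ∈ IL L ∅ := by
  have k0 : ∀ (i : ℕ) x, algebraMap L₂ A ((σ₂ ^ i) x) = (σ ^ i) (algebraMap L₂ A x) := fun i x => by
    induction i with
    | zero => rfl
    | succ i ih => rw [pow_succ', pow_succ', AlgEquiv.mul_apply, AlgEquiv.mul_apply, h, ih]
  rw [← MonoidHom.finsetProd_apply]
  refine IL_le (X := (IL L ∅).comap (∏ i ∈ Finset.range d, ta (σ ^ i))) (fun I hI => ?_) hp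
  obtain ⟨n, n0, hπ⟩ := ex_pow (𝓞 L₂)
  obtain ⟨π, hπ⟩ := hπ I hI
  have π0 : π ≠ 0 := fun e => pow_ne_zero n hI (by simp [hπ, e])
  have π1 : (π : L₂) ≠ 0 := RingOfIntegers.coe_ne_zero_iff.2 π0
  have N0 : Ideal.relNorm (𝓞 L) I ≠ ⊥ := mt Ideal.relNorm_eq_bot_iff.1 hI
  have N1 : Algebra.norm L (π : L₂) ≠ 0 := by
    have : FiniteDimensional L L₂ := Module.Finite.of_restrictScalars_finite ℚ L L₂
    exact Algebra.norm_ne_zero_iff.2 π1
  have k1 : (∏ i ∈ Finset.range d, ta (σ ^ i)) (dI (xt L₂ I)) ^ n =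
      dI (xt L (Ideal.relNorm (𝓞 L) I)) ^ n := by
    rw [← map_pow, ← dI_pow (xt_ne L₂ hI), ← dI_pow (xt_ne L N0), ← Ideal.map_pow, ← Ideal.map_pow,
      ← map_pow, hπ, Ideal.relNorm_singleton, ← dd_map (x := .mk0 _ π1) rfl,
      ← dd_map (x := .mk0 _ N1) (Algebra.algebraMap_intNorm (L := L₂) π).symm,
      MonoidHom.finsetProd_apply]
    simp only [← dd_ua, ← map_prod]
    refine congrArg _ (Units.ext ?_)
    rw [Units.coe_prod]
    change ∏ i ∈ Finset.range d, (σ ^ i) (algebraMap L₂ A π) = algebraMap L A _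
    simp only [← k0]
    rw [← map_prod, prod_gal h1 h2, ← IsScalarTower.algebraMap_apply]
    rfl
  rw [Subgroup.mem_comap, (pow_left_injective n0).eq_iff.1 k1]
  exact mem_IL N0

theorem ex_n {p : Dv A} (hp : p ∈ IL L (∅ : Set (Pr A))) : ∃ n : Ideal (𝓞 L) → ℤ, ∀ P : Pr A,
    p P = dI (xt L (P.asIdeal.under (𝓞 L))) P ^ n (P.asIdeal.under (𝓞 L)) := by
  let X : Subgroup (Dv A) :=
    { carrier := {p | ∃ n : Ideal (𝓞 L) → ℤ, ∀ P : Pr A,
        p P = dI (xt L (P.asIdeal.under (𝓞 L))) P ^ n (P.asIdeal.under (𝓞 L))}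
      one_mem' := ⟨0, fun P => by simp⟩
      mul_mem' := fun ⟨n, h⟩ ⟨n', h'⟩ => ⟨n + n', fun P => by
        rw [Pi.mul_apply, h, h', Pi.add_apply, zpow_add]⟩
      inv_mem' := fun ⟨n, h⟩ => ⟨-n, fun P => by rw [Pi.inv_apply, h, Pi.neg_apply, zpow_neg]⟩ }
  refine IL_le (X := X) (fun I hI => ⟨fun q => multiplicity q I, fun P => ?_⟩) hp
  rw [dI, dI, mult_xt hI, ← ofAdd_zsmul, smul_eq_mul, Nat.cast_mul, mul_comm]

variable [Algebra K L] [IsScalarTower K L A]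

theorem ine_part {T : Set (Ideal (𝓞 L))} (hT : T.Finite)
    (h : ∀ P ∈ T, P.IsMaximal ∧ Ine L₂ P ∧ Pv ι J P) {S : Set (Pr A)}
    (hS : S = {P | Av ι J P.asIdeal ∨ P.asIdeal.under (𝓞 L) ∈ T}) :
    IL L₂ (Ss ι J A 1) ⊓ (pj S).ker ≤ IL L (Ss ι J A 1) ∧
      i2 (IL L₂ (Ss ι J A 1) ⊓ (pj S).ker) = 2 ^ T.ncard := by
  let _ := hT.fintype
  have s1 : ∀ P : Pr A, P ∈ Ss ι J A 1 ↔ Av ι J P.asIdeal := fun P =>
    or_iff_left (by rw [map_one]; exact P.isPrime.one_notMem)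
  have t0 : ∀ t : T, (t : Ideal (𝓞 L)) ≠ ⊥ := fun t =>
    Ring.ne_bot_of_isMaximal_of_not_isField (h t t.2).1 (RingOfIntegers.not_isField L)
  have t1 : ∀ (t : T) (P : Pr A), xt L t ≤ P.asIdeal ↔ P.asIdeal.under (𝓞 L) = t := fun t P =>
    ⟨fun e => ((h t t.2).1.eq_of_le (Ideal.IsPrime.under _ P.asIdeal).ne_top
      (Ideal.map_le_iff_le_comap.1 e)).symm, fun e => Ideal.map_le_iff_le_comap.2 e.ge⟩
  have t2 : ∀ (t : T) (P : Pr A), P.asIdeal.under (𝓞 L) = t →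
      P.asIdeal.under (𝓞 L₂) = xt L t ∧ P ∉ Ss ι J A 1 := fun t P e =>
    ⟨((h t t.2).2.1.eq_of_le (Ideal.IsPrime.under _ P.asIdeal).ne_top
      (Ideal.map_le_iff_le_comap.1 ((xt_xt L₂ _).le.trans ((t1 t P).2 e)))).symm,
      fun k => ((s1 P).1 k).2 (pv_under.1 (e ▸ (h t t.2).2.2))⟩
  let g : T → Dv A := fun t => pj (Ss ι J A 1) (dI (xt L t))
  have g1 : ∀ (t : T) (P : Pr A), P.asIdeal.under (𝓞 L) ≠ t → g t P = 1 := fun t P e => by
    simp only [g, pj_apply, dI_eq.2 (mt (t1 t P).1 e), ite_self]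
  let ψ : Multiplicative (T → ℤ) →* Dv A := MonoidHom.mk' (fun n => ∏ t, g t ^ toAdd n t)
    fun n n' => by simp only [toAdd_mul, Pi.add_apply, zpow_add, Finset.prod_mul_distrib]
  have p1 : ∀ n (t : T) (P : Pr A), P.asIdeal.under (𝓞 L) = t →
      ψ n P = dI (xt L t) P ^ toAdd n t := fun n t P e => by
    change (∏ t, g t ^ toAdd n t) P = _
    rw [Finset.prod_apply, Finset.prod_eq_single t (fun t' _ k => by
      rw [Pi.pow_apply, g1 t' P fun e' => k (Subtype.ext (e'.symm.trans e)), one_zpow]) (by simp),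
      Pi.pow_apply]
    simp only [g, pj_apply, if_neg (t2 t P e).2]
  have p2 : ∀ n (P : Pr A), P.asIdeal.under (𝓞 L) ∉ T → ψ n P = 1 := fun n P e => by
    change (∏ t, g t ^ toAdd n t) P = _
    rw [Finset.prod_apply]
    exact Finset.prod_eq_one fun t _ => by
      rw [Pi.pow_apply, g1 t P fun e' => e (e' ▸ t.2), one_zpow]
  have p3 : ψ.range ≤ IL L (Ss ι J A 1) := by
    rintro _ ⟨n, rfl⟩
    exact prod_mem fun t _ => zpow_mem (Subgroup.mem_map_of_mem _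
      ((IL_empty L).le (mem_IL (t0 t)))) _
  have p4 : IL L₂ (Ss ι J A 1) ⊓ (pj S).ker = ψ.range := by
    refine le_antisymm ?_ (le_inf (p3.trans (Subgroup.map_mono ((Subgroup.closure_mono ?_)))) ?_)
    · rintro _ ⟨⟨p, hp, rfl⟩, k⟩
      obtain ⟨n, hn⟩ := ex_n ((IL_empty L₂).ge hp)
      refine ⟨ofAdd fun t => n (xt L t), funext fun P => ?_⟩
      by_cases e : P.asIdeal.under (𝓞 L) ∈ T
      · obtain ⟨a, b⟩ := t2 ⟨_, e⟩ P rfl
        rw [p1 _ ⟨_, e⟩ P rfl, pj_apply, if_neg b, hn, a, xt_xt]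
        rfl
      · rw [p2 _ P e, pj_apply]
        split_ifs with b
        · rfl
        · have c := congrFun (MonoidHom.mem_ker.1 k) P
          rw [pj_apply, if_neg (hS ▸ not_or.2 ⟨mt (s1 P).2 b, e⟩), pj_apply, if_neg b] at c
          exact c.symm
    · rintro _ ⟨I, hI, rfl⟩
      exact ⟨xt L I, xt_ne L hI, congrArg dI (xt_xt L₂ I).symm⟩
    · rintro _ ⟨n, rfl⟩
      refine funext fun P => ?_
      rw [pj_apply]
      split_ifs with b
      · rfl
      · exact p2 n P fun e => b (hS ▸ .inr e)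
  rw [p4, Set.ncard_eq_toFinset_card', Set.toFinset_card]
  refine ⟨p3, i2_range ψ ((injective_iff_map_eq_one ψ).2 fun n hn => ?_)⟩
  refine congrArg ofAdd (funext fun t => ?_ : toAdd n = 0)
  have := (h t t.2).1
  obtain ⟨Q, q1, q2⟩ := Ideal.exists_maximal_ideal_liesOver_of_isIntegral (S := 𝓞 A) (t : Ideal (𝓞 L))
  have q3 : Q.under (𝓞 L) = t := q2.over.symm
  let P : Pr A := ⟨Q, q1.isPrime,
    Ring.ne_bot_of_isMaximal_of_not_isField q1 (RingOfIntegers.not_isField A)⟩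
  have c := p1 n t P q3
  rw [hn, Pi.one_apply, eq_comm] at c
  by_contra k
  have c' := congrArg toAdd c
  rw [toAdd_zpow, toAdd_one, smul_eq_mul, mul_eq_zero] at c'
  exact dI_eq.1 (congrArg ofAdd (c'.resolve_left k)) ((t1 t P).2 q3)

end

end Vale.Agent.P004C.Al.Df

namespace Vale.Agent.P004C.Al

open Df

/-- **row DVF** -/
theorem dvf : DVF := by
  intro K _ _ ι J Ω _ A _ _ _
  refine ⟨dd_ua, fun σ s => pj_ta fun P => or_congr (av_cm σ P) (s_cm σ s P),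
    fun L _ _ _ _ _ => ⟨dd_mem, fun σ h => ⟨fun p hp => ?_, fun κ W => pj_ta fun P =>
      or_congr (av_cm σ P) (exists_congr fun i => ?_)⟩, fun σ h => ?_,
    fun s m hs _ => ⟨ray_fin (fun _ => .inl) m, i2_fin (fin_S hs) _⟩,
    fun L₂ _ _ _ _ _ => ⟨IL_le fun I hI => xt_xt (A := A) L₂ I ▸ mem_IL (xt_ne L hI),
      fun d σ σ₂ h1 h2 h p => nrm_mem h1 h2 h, fun T hT h S => ine_part hT h⟩⟩⟩
  · exact IL_le (X := (ta σ).eqLocus (MonoidHom.id _))
      (fun I _ => (ta_dI σ _).trans (congrArg dI (xt_fix h I))) hp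
  · exact Ideal.map_le_iff_le_comap.symm.trans (xt_fix h (W i) ▸ Iff.rfl)
  · refine Subgroup.map_le_iff_le_comap.2 (IL_le fun I hI => ?_)
    obtain ⟨I', k1, k2⟩ := xt_stab h hI
    rw [Subgroup.mem_comap, ta_dI, k2]
    exact mem_IL k1

end Vale.Agent.P004C.Al
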