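import Vale.Agent.P022K.PB.Pw
import Vale.Agent.P022.H853.L3.Cyc
import Vale.Agent.P004R.Loc0

/-!
# P004 C: the reciprocity law with no condition at the unramified primes
-/

set_option autoImplicit false
set_option linter.all false

open NumberField IsDedekindDomain

noncomputable section

namespace Vale.Agent.P004C.Al.Rc

open Vale.Agent.P022 Vale.Agent.P022.C Vale.Agent.P022K Vale.Agent.P022K.PB
open Vale.Agent.P027M.S (Pr)
open Vale.Agent.P027M.S.Cls (val_eq ordv_of ordv_mul ordv_zpow ordv_pow)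
open Vale.Agent.P022K.Sh.Tor (ordv_fin mem_iff val_le val_one val_nat val_of_ordv)

variable {K : Type} [Field K] [NumberField K] {j : K →+* Qb}

/-- trivial inertia and trivial Frobenius: trivial decomposition group -/
theorem dec_triv {L : Type} [Field L] [NumberField L] [Algebra K L] {σ : L ≃ₐ[K] L} {v : Pr K}
    {P : Ideal (𝓞 L)} (hP : P.IsPrime) (e : dn K P = v.asIdeal) (hu : Unr σ P)
    (hf : Frob (1 : L ≃ₐ[K] L) (Ideal.absNorm v.asIdeal) P) (i : ℕ)
    (hi : Ideal.comap (RingOfIntegers.mapRingHom ((σ ^ i : L ≃ₐ[K] L) : L →+* L)) P = P) :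
    σ ^ i = 1 := by
  have hP0 : P ≠ ⊥ := fun e0 => v.ne_bot (by
    rw [← e, e0]
    exact Ideal.comap_bot_of_injective _ (FaithfulSMul.algebraMap_injective _ _))
  have := v.isMaximal
  have := hP.isMaximal hP0
  letI := Ideal.Quotient.field v.asIdeal
  letI := Ideal.Quotient.field P
  have : Finite (𝓞 K ⧸ v.asIdeal) := Ideal.finiteQuotientOfFreeOfNeBot _ v.ne_bot
  refine hu i fun x => ?_
  obtain ⟨y, hy⟩ := P004R.Lo.mem_range (Ideal.quotientMap P (algebraMap (𝓞 K) (𝓞 L)) e.ge)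
    (z := Ideal.Quotient.mk P x) (by
      have := hf x
      rw [one_smul] at this
      rw [← map_pow]
      exact (Ideal.Quotient.eq.2 this).symm)
  obtain ⟨y, rfl⟩ := Ideal.Quotient.mk_surjective y
  have h1 : algebraMap (𝓞 K) (𝓞 L) y - x ∈ P := Ideal.Quotient.eq.1 hy
  have h2 := Ideal.mem_comap.1 (hi.ge h1)
  rw [map_sub] at h2
  have h3 : RingOfIntegers.mapRingHom ((σ ^ i : L ≃ₐ[K] L) : L →+* L)
      (algebraMap (𝓞 K) (𝓞 L) y) = algebraMap (𝓞 K) (𝓞 L) y :=
    RingOfIntegers.ext ((σ ^ i).commutes (y : K))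
  rw [h3] at h2
  have := P.sub_mem h1 h2
  rwa [sub_sub_sub_cancel_left] at this

variable {k : Type} [Field k]

/-- the law, with no condition at the split primes -/
theorem pws [IsEmpty (K →+* ℝ)] (θ : GK j →* kˣ) (ho : IsOpen (θ.ker : Set (GK j)))
    {fr : Pr K → GK j} (hfr : ∀ v, ∃ P, FrI j v P (fr v)) {n : ℕ} (hn : 0 < n)
    (hθ : ∀ g, θ g ^ n = 1) {D : ℕ} (hD : D ≠ 0)
    (hu : ∀ v : Pr K, (D : 𝓞 K) ∉ v.asIdeal → Un θ v) {x : K} (hx : x ≠ 0)
    (h : ∀ v : Pr K, (D : 𝓞 K) ∈ v.asIdeal →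
      (Un θ v ∧ (v.valuation K x = 1 ∨ θ (fr v) = 1)) ∨
      v.valuation K (x - 1) < v.valuation K ((n : K) ^ 2)) : sy θ fr x = 1 := by
  have : NeZero n := ⟨hn.ne'⟩
  let φ : GK j →* rootsOfUnity n k := θ.codRestrict _ fun g => (mem_rootsOfUnity n _).2 (hθ g)
  have hφ : ∀ g g', φ g = g' ↔ θ g = g' := fun g g' => Subtype.ext_iff
  have hop : IsOpen (φ.ker : Set (GK j)) := by
    convert ho using 2
    ext g
    exact hφ g 1
  obtain ⟨L, _, _, _, hgal, jL, res, n', σ, g₀, Dc, hk, hcyc, hσ, hpow⟩ := H916.exists_Cyc j hop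
  have hall : ∀ g : GK j, ∃ i : ℕ, res g = σ ^ i := by
    intro g
    have hfd : FiniteDimensional K L := Module.Finite.of_restrictScalars_finite ℚ K L
    have hcard : Nat.card (L ≃ₐ[K] L) = n' := by
      rw [IsGalois.card_aut_eq_finrank, hcyc.rank]
    have h1 : Subgroup.zpowers σ = ⊤ := by
      apply Subgroup.eq_top_of_card_eq
      rw [Nat.card_zpowers, hcyc.ord, hcard]
    have h2 : res g ∈ Subgroup.zpowers σ := by rw [h1]; trivial
    rw [← mem_powers_iff_mem_zpowers] at h2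
    obtain ⟨i, hi⟩ := h2
    exact ⟨i, hi.symm⟩
  have hcomm : ∀ s t : L ≃ₐ[K] L, s * t = t * s := by
    intro s t
    obtain ⟨g, rfl⟩ := Dc.surj s
    obtain ⟨h, rfl⟩ := Dc.surj t
    obtain ⟨a, ha⟩ := hall g
    obtain ⟨b, hb⟩ := hall h
    rw [ha, hb, ← pow_add, ← pow_add, add_comm]
  have hdv : n' ∣ n := by
    rw [← hcyc.ord, orderOf_dvd_iff_pow_eq_one, ← hσ, ← map_pow, hk, hφ, map_pow]
    exact hθ g₀
  have hn' : θ g₀ ^ n' = 1 := by
    have : res (g₀ ^ n') = 1 := by rw [map_pow, hσ, ← hcyc.ord, pow_orderOf_eq_one]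
    rw [← map_pow]
    exact (hφ _ 1).1 ((hk _).1 this)
  have hun : ∀ (v : Pr K) (P : Ideal (𝓞 L)), P.IsPrime → dn K P = v.asIdeal → Un θ v →
      Unr σ P := by
    intro v P hP hv hU i hi
    obtain ⟨Q, hQ, hb⟩ := H916.exists_above jL P hP
    rw [← hb] at hi
    obtain ⟨g, hg, hin⟩ := Dc.inertia_lift hQ hi
    rw [← hg, hk, hφ]
    refine hU Q hQ ?_ g hin
    rw [← Dc.below_comap Q, hb]
    exact hv
  have hab : ∀ v : Pr K, ∃ P : Ideal (𝓞 L), P.IsPrime ∧ dn K P = v.asIdeal := fun v => by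
    obtain ⟨Q, hQ, hb⟩ := H916.exists_above j v.asIdeal v.isPrime
    exact ⟨below jL Q, Ideal.IsPrime.comap _, (Dc.below_comap Q).trans hb⟩
  obtain ⟨m, hm0, hm1, hm2, hrec⟩ := C.REC K L n' σ hcyc
  have cop : ∀ (w : Pr K) (p m : ℕ), p.Prime → (p : 𝓞 K) ∈ w.asIdeal → (m : 𝓞 K) ∈ w.asIdeal →
      p ∣ m := fun w p m hp h1 h2 => by
    by_contra hc
    have := (Nat.isCoprime_iff_coprime.2 ((hp.coprime_iff_not_dvd).2 hc)).map
      (Int.castRingHom (𝓞 K))
    simp only [Int.coe_castRingHom, Int.cast_natCast] at this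
    obtain ⟨a, b, e⟩ := this
    exact w.isPrime.ne_top ((Ideal.eq_top_iff_one _).2 (e ▸ w.asIdeal.add_mem
      (w.asIdeal.mul_mem_left _ h1) (w.asIdeal.mul_mem_left _ h2)))
  have hmD : ∀ v : Pr K, (m : 𝓞 K) ∈ v.asIdeal → (D : 𝓞 K) ∈ v.asIdeal := by
    intro v hv
    obtain ⟨p, hp, hpv⟩ := H651.exists_prime_mem v.isPrime hm0 hv
    obtain ⟨P, hP, hpP, hr⟩ := hm1 p hp (cop v p m hp hpv hv)
    have hP0 : P ≠ ⊥ := fun e => by
      rw [e, Ideal.mem_bot] at hpP
      exact hp.ne_zero (by exact_mod_cast hpP)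
    let w : Pr K := ⟨dn K P, dn_prime hP, dn_ne_bot hP0⟩
    have hw : (D : 𝓞 K) ∈ w.asIdeal := by
      by_contra hc
      exact hr (hun w P hP rfl (hu w hc))
    obtain ⟨c, rfl⟩ := cop w p D hp (nat_mem_dn.2 hpP) hw
    rw [Nat.cast_mul]
    exact v.asIdeal.mul_mem_right _ hpv
  have hn2 : ∀ v : Pr K, v.valuation K ((n : K) ^ 2) ≤ v.valuation K ((n' : K) ^ 2) := fun v => by
    obtain ⟨c, rfl⟩ := hdv
    rw [Nat.cast_mul, mul_pow, map_mul, map_pow _ (c : K)]
    exact mul_le_of_le_one_right' (pow_le_one' (PB.val_nat_le v c) 2)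
  have hx1 : ∀ v : Pr K, (D : 𝓞 K) ∈ v.asIdeal → v.valuation K x = 1 ∨ θ (fr v) = 1 :=
    fun v hv => by
    rcases h v hv with h | h
    · exact h.2
    · refine Or.inl (val_of_lt (h.trans_le ?_))
      rw [map_pow]
      exact pow_le_one' (PB.val_nat_le v n) 2
  choose a ha using fun v => hall (fr v)
  have ha1 : ∀ (v : Pr K) (P : Ideal (𝓞 L)), P.IsPrime → dn K P = v.asIdeal →
      Frob (σ ^ a v) (Ideal.absNorm v.asIdeal) P := fun v P hP e => by
    obtain ⟨Q, hQ⟩ := hfr v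
    rw [← ha]
    exact H651.frob_all Dc hQ hcomm hP e
  obtain ⟨y, c, hc0, hy, hc, -⟩ := H180.APP K L n' σ hcyc _ (over_fin hm0) x hx (fun v hv => by
    rcases h v (hmD v hv) with h | h
    · obtain ⟨P, hP, e⟩ := hab v
      refine H917.LN K L n' σ hcyc v P hP e (hun v P hP e h.1) x hx (h.2.imp_right fun k =>
        dec_triv hP e (hun v P hP e h.1) ?_)
      have := ha1 v P hP e
      rwa [← ha, (hk _).2 ((hφ _ 1).2 k)] at this
    · obtain ⟨z, hz⟩ := H967.POW K v n' hcyc.pos x (h.trans_le (hn2 v))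
      exact nm_of_pow z hz) m hm0
  have ha2 : (fun v => θ (fr v)) = fun v => θ g₀ ^ a v := funext fun v =>
    (hφ _ _).1 ((hpow _ _).1 (ha v))
  have key : ∀ α : 𝓞 K, α ≠ 0 → (m : 𝓞 K) ∣ α - 1 → pw (fun v => θ (fr v)) (α : K) = 1 := by
    intro α h0 h1
    have := hrec a (fun v P _ hP e => ha1 v P hP e) (fun _ => 0) (fun φ => isEmptyElim φ) α h0 h1
    simp only [Nat.cast_zero, finsum_mem_zero, add_zero] at this
    obtain ⟨z, hz⟩ := this
    rw [ha2, pw_zpow _ _ (by exact_mod_cast h0), hz, zpow_mul, zpow_natCast, hn', one_zpow]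
  obtain ⟨d, u, hd, d1, u1, e⟩ := quot_one hm0 hc
  have hd' : (d : K) ≠ 0 := by exact_mod_cast hd
  have hxc := div_ne_zero hx hc0
  have hu0 : u ≠ 0 := fun h0 => mul_ne_zero hd' hxc (by rw [e, h0]; rfl)
  have h1 : pw (fun v => θ (fr v)) (x / c) = 1 := by
    have := pw_mul (fun v => θ (fr v)) hd' hxc
    rwa [e, key u hu0 u1, key d hd d1, one_mul, eq_comm] at this
  have h2 : pw (fun v => θ (fr v)) c = 1 := by
    refine finprod_eq_one_of_forall_eq_one fun v => ?_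
    by_cases hv : (m : 𝓞 K) ∈ v.asIdeal
    · rcases hx1 v (hmD v hv) with k | k
      · have e1 := val_of_lt ((hc v hv).trans_lt (val_nat_lt hv))
        rw [map_div₀, k, one_div, inv_eq_one] at e1
        rw [Sh.Tor.ordv_one e1, zpow_zero]
      · simp only [k, one_zpow]
    · obtain ⟨P, hP, e⟩ := hab v
      have hP0 : P ≠ ⊥ := fun e0 => v.ne_bot (by
        rw [← e, e0]
        exact Ideal.comap_bot_of_injective _ (FaithfulSMul.algebraMap_injective _ _))
      obtain ⟨z, hz⟩ := H352.CF.RDN H269.UNRV K L n' σ hcyc v P hP e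
        (hm2 P hP hP0 fun k => hv (e ▸ nat_mem_dn.2 k)) (a v) _ (ha1 v P hP e) y c hc0 hy
      show θ (fr v) ^ ordv v c = 1
      rw [congrFun ha2 v, ← zpow_natCast, ← zpow_mul, hz, zpow_mul, zpow_natCast, hn', one_zpow]
  rw [pw_div _ hx hc0, h2, div_one] at h1
  exact h1

/-- a cyclotomic character with a given value at `v` -/
theorem ex_tw (v : Pr K) {n : ℕ} (hn : 0 < n) {z : ℂˣ} (hz : z ^ n = 1) :
    ∃ (θ : GK j →* ℂˣ) (M m : ℕ), M ≠ 0 ∧ (M : 𝓞 K) ∉ v.asIdeal ∧ IsOpen (θ.ker : Set (GK j)) ∧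
      0 < m ∧ (∀ g, θ g ^ m = 1) ∧ (∀ w : Pr K, (M : 𝓞 K) ∉ w.asIdeal → Un θ w) ∧
      ∀ P g, FrI j v P g → θ g = z := by
  set q := Ideal.absNorm v.asIdeal with hq
  have q2 : 2 ≤ q := two_le_absNorm v
  have q1 : 1 < q ^ n := Nat.one_lt_pow hn.ne' q2
  have M0 : q ^ n - 1 ≠ 0 := by omega
  have : NeZero (q ^ n - 1) := ⟨M0⟩
  have e : ((q ^ n - 1 : ℕ) : 𝓞 K) = (q : 𝓞 K) ^ n - 1 := by rw [Nat.cast_sub q1.le]; simp
  have Mv : ((q ^ n - 1 : ℕ) : 𝓞 K) ∉ v.asIdeal := fun h => v.isPrime.one_notMem (by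
    have := v.asIdeal.sub_mem (v.asIdeal.pow_mem_of_mem (Ideal.absNorm_mem _) n hn) h
    rwa [e, sub_sub_cancel] at this)
  have c : q.Coprime (q ^ n - 1) := by
    refine Nat.Coprime.coprime_dvd_left (dvd_pow_self q hn.ne') ?_
    rw [← Nat.coprime_sub_self_left (by omega), Nat.sub_sub_self q1.le]
    exact Nat.coprime_one_left _
  let u := ZMod.unitOfCoprime q c
  have o : n ∣ orderOf u := by
    have h1 : ((q ^ orderOf u : ℕ) : ZMod (q ^ n - 1)) = (1 : ℕ) := by
      have := congrArg Units.val (pow_orderOf_eq_one u)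
      rw [Units.val_pow_eq_pow_val, ZMod.coe_unitOfCoprime] at this
      simpa using this
    have h2 := (Nat.modEq_iff_dvd' (Nat.one_le_pow _ _ (by omega))).1
      ((ZMod.natCast_eq_natCast_iff _ _ _).1 h1).symm
    have h3 := Nat.pow_sub_one_mod_pow_sub_one q n (orderOf u)
    rw [Nat.mod_eq_zero_of_dvd h2] at h3
    by_contra k
    have := Nat.one_lt_pow (fun e => k (Nat.dvd_of_mod_eq_zero e)) q2
    omega
  have hg : ∀ x : Subgroup.zpowers u,
      x ∈ Subgroup.zpowers (⟨u, Subgroup.mem_zpowers u⟩ : Subgroup.zpowers u) := by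
    rintro ⟨_, i, rfl⟩
    exact ⟨i, rfl⟩
  have hg' : orderOf z ∣ orderOf (⟨u, Subgroup.mem_zpowers u⟩ : Subgroup.zpowers u) := by
    rw [Subgroup.orderOf_mk]
    exact (orderOf_dvd_of_pow_eq_one hz).trans o
  obtain ⟨χ, hχ⟩ := MonoidHom.domRestrict_surjective (M := ℂ) (Subgroup.zpowers u)
    (monoidHomOfForallMemZpowers hg hg')
  have hu : χ u = z := (DFunLike.congr_fun hχ ⟨u, Subgroup.mem_zpowers u⟩).trans
    (monoidHomOfForallMemZpowers_apply_gen hg hg')
  have key : ∀ (w : Pr K) (P : Ideal (𝓞 Qb)) (g : GQ) (r : ℕ),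
      ((q ^ n - 1 : ℕ) : 𝓞 K) ∉ w.asIdeal → P.IsPrime → below j P = w.asIdeal →
      (∀ x : 𝓞 Qb, g • x - x ^ r ∈ P) → (H853.cyc (q ^ n - 1) g : ZMod (q ^ n - 1)) = r :=
    fun w P g r h hP hb hg => by
      rw [← ZMod.natCast_zmod_val (H853.cyc (q ^ n - 1) g : ZMod (q ^ n - 1)),
        ZMod.natCast_eq_natCast_iff]
      exact H853.cyc_of_pow dvd_rfl hP (fun k => h (hb ▸ (H651.natCast_mem_below j).2 k)) hg
  refine ⟨χ.comp ((H853.cyc (q ^ n - 1)).comp (GK j).subtype), q ^ n - 1,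
    Nat.card (ZMod (q ^ n - 1))ˣ, M0, Mv, ?_, Nat.card_pos, fun g => ?_, fun w h P hP hb g hg => ?_,
    fun P g hg => ?_⟩
  · refine Subgroup.isOpen_mono (H₁ := (H853.cyc (q ^ n - 1)).ker.comap (GK j).subtype)
      (fun g h => ?_) ((H853.isOpen_cyc _).preimage continuous_subtype_val)
    exact (congrArg χ (h : H853.cyc _ _ = 1)).trans (map_one χ)
  · rw [MonoidHom.comp_apply, ← map_pow, pow_card_eq_one', map_one]
  · have : H853.cyc (q ^ n - 1) g = 1 :=
      Units.ext ((key w P g 1 h hP hb (fun x => by rw [pow_one]; exact hg x)).trans Nat.cast_one)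
    exact (congrArg χ this).trans (map_one χ)
  · have : H853.cyc (q ^ n - 1) g = u := Units.ext (key v P g q Mv hg.1 hg.2.1 hg.2.2)
    exact (congrArg χ this).trans hu

theorem val_sq_le (w : Pr K) (n : ℕ) : w.valuation K ((n : K) ^ 2) ≤ 1 := by
  rw [map_pow]
  exact pow_le_one' (PB.val_nat_le w n) 2

theorem near_mul {w : Pr K} {x y : K} {b : WithZero (Multiplicative ℤ)} (hb : b ≤ 1)
    (hx : w.valuation K (x - 1) < b) (hy : w.valuation K (y - 1) < b) :
    w.valuation K (x * y - 1) < b := by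
  rw [show x * y - 1 = (x - 1) * y + (y - 1) by ring]
  refine Valuation.map_add_lt _ ?_ hy
  rwa [map_mul, val_of_lt (hy.trans_le hb), mul_one]

section

variable [IsEmpty (K →+* ℝ)] {fr : Pr K → GK j} (hfr : ∀ v, ∃ P, FrI j v P (fr v)) {n : ℕ}
  (hn : 0 < n)

include hfr hn

/-- an element of given valuation at an unramified prime, with trivial symbol -/
theorem ex_one {θ : GK j →* ℂˣ} (ho : IsOpen (θ.ker : Set (GK j))) (hθ : ∀ g, θ g ^ n = 1)
    {D : ℕ} (hD : D ≠ 0) (hu : ∀ v : Pr K, (D : 𝓞 K) ∉ v.asIdeal → Un θ v) {v : Pr K}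
    (hv : Un θ v) {z : K} (hz : z ≠ 0) : ∃ y : K, y ≠ 0 ∧ v.valuation K y = v.valuation K z ∧
      (∀ w : Pr K, w ≠ v → (D : 𝓞 K) ∈ w.asIdeal →
        w.valuation K (y - 1) < w.valuation K ((n : K) ^ 2)) ∧ sy θ fr y = 1 := by
  classical
  obtain ⟨θ', M, m, M0, Mv, o', m0, hm, u', f'⟩ := ex_tw (j := j) v hn (hθ (fr v))
  have N0 : 0 < n * m := mul_pos hn m0
  obtain ⟨y, hy⟩ := Sh.Tor.crt1 (S := insert v {w : Pr K | ((D * M : ℕ) : 𝓞 K) ∈ w.asIdeal})
    ((over_fin (mul_ne_zero hD M0)).insert v) (fun w => if w = v then z else 1)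
    (fun w => w.valuation K (if w = v then z else ((n * m : ℕ) : K) ^ 2)) fun w =>
      (Valuation.ne_zero_iff _).2 (by
        split_ifs
        · exact hz
        · exact pow_ne_zero _ (Nat.cast_ne_zero.2 N0.ne'))
  have y1 : v.valuation K y = v.valuation K z :=
    (v.valuation K).map_eq_of_sub_lt (by simpa using hy v (Or.inl rfl))
  have y0 : y ≠ 0 := fun e => hz ((Valuation.zero_iff _).1 (by rw [← y1, e, map_zero]))
  have y2 : ∀ w : Pr K, w ≠ v → ((D * M : ℕ) : 𝓞 K) ∈ w.asIdeal →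
      w.valuation K (y - 1) < w.valuation K (((n * m : ℕ) : K) ^ 2) := fun w c h => by
    simpa only [if_neg c] using hy w (Or.inr h)
  have l : ∀ w : Pr K, (D : 𝓞 K) ∈ w.asIdeal → ((D * M : ℕ) : 𝓞 K) ∈ w.asIdeal := fun w h => by
    rw [Nat.cast_mul]
    exact w.asIdeal.mul_mem_right _ h
  have r : ∀ w : Pr K, (M : 𝓞 K) ∈ w.asIdeal → ((D * M : ℕ) : 𝓞 K) ∈ w.asIdeal := fun w h => by
    rw [Nat.cast_mul]
    exact w.asIdeal.mul_mem_left _ h
  refine ⟨y, y0, y1, fun w c h => (y2 w c (l w h)).trans_le ?_, ?_⟩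
  · rw [Nat.cast_mul, mul_pow, map_mul]
    exact mul_le_of_le_one_right' (val_sq_le w m)
  have un : ∀ w, Un θ w → Un θ' w → Un (θ / θ') w := fun w a b P hP hb g hg => by
    rw [MonoidHom.div_apply, a P hP hb g hg, b P hP hb g hg, div_one]
  have e1 := pwl θ' o' hfr N0 (fun g => by rw [mul_comm, pow_mul, hm, one_pow]) M0 u' y0
    fun w h => Or.inr (y2 w (fun e => Mv (e ▸ h)) (r w h))
  have e2 := pws (θ / θ') (Subgroup.isOpen_mono (H₁ := θ.ker ⊓ θ'.ker) (fun g k => by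
      rw [MonoidHom.mem_ker, MonoidHom.div_apply, k.1, k.2, div_one]) (ho.inter o')) hfr N0
    (fun g => by rw [MonoidHom.div_apply, div_pow, pow_mul, hθ, mul_comm, pow_mul, hm, one_pow,
      one_pow, div_one]) (mul_ne_zero hD M0)
    (fun w h => un w (hu w (mt (l w) h)) (u' w (mt (r w) h))) y0 fun w h => by
      by_cases c : w = v
      · subst c
        obtain ⟨P, hP⟩ := hfr w
        exact Or.inl ⟨un w hv (u' w Mv), Or.inr (by
          rw [MonoidHom.div_apply, f' P _ hP, div_self'])⟩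
      · exact Or.inr (y2 w c h)
  rw [sy_eq] at e1 e2 ⊢
  simp only [MonoidHom.div_apply] at e2
  rwa [pw_div' _ _ y0, e1, div_one] at e2

theorem pwc {θ : GK j →* ℂˣ} (ho : IsOpen (θ.ker : Set (GK j))) (hθ : ∀ g, θ g ^ n = 1)
    {x : K} (hx : x ≠ 0) (h : ∀ v : Pr K, Un θ v ∨
      v.valuation K (x - 1) < v.valuation K ((n : K) ^ 2)) : sy θ fr x = 1 := by
  classical
  rcases eq_or_ne x 1 with rfl | x1
  · exact pw_one _
  obtain ⟨a, b, hb, e⟩ := IsFractionRing.div_surjective (A := 𝓞 K) (x - 1)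
  have a0 : a ≠ 0 := fun k => x1 (sub_eq_zero.1 (by rw [← e, k, map_zero, zero_div]))
  have b0 : algebraMap (𝓞 K) K b ≠ 0 := by simpa using nonZeroDivisors.ne_zero hb
  have D0 : Ideal.absNorm (Ideal.span {a}) ≠ 0 := by
    rwa [Ne, Ideal.absNorm_eq_zero_iff, Ideal.span_singleton_eq_bot]
  have hu : ∀ v : Pr K, ((Ideal.absNorm (Ideal.span {a}) : ℕ) : 𝓞 K) ∉ v.asIdeal → Un θ v :=
    fun v hv => (h v).resolve_right fun k => hv ((Ideal.span_singleton_le_iff_mem _).2
      ((mem_iff v a).2 (by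
        rw [show (a : K) = (x - 1) * b from (div_eq_iff b0).1 e, map_mul]
        exact (mul_le_of_le_one_right' (val_le v b)).trans_lt (k.trans_le (val_sq_le v n))))
      (Ideal.absNorm_mem _))
  generalize Ideal.absNorm (Ideal.span {a}) = D at D0 hu
  have key : ∀ S : Finset (Pr K), ∀ x : K, x ≠ 0 → (∀ v : Pr K, (D : 𝓞 K) ∈ v.asIdeal →
      (Un θ v ∧ (v.valuation K x = 1 ∨ v ∈ S)) ∨
      v.valuation K (x - 1) < v.valuation K ((n : K) ^ 2)) → sy θ fr x = 1 := fun S => by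
    induction S using Finset.induction_on with
    | empty => exact fun x hx h => pwl θ ho hfr hn hθ D0 hu hx (by simpa using h)
    | insert v S _ ih =>
      intro x hx h
      by_cases hv : Un θ v
      · obtain ⟨y, y0, y1, y2, y3⟩ := ex_one hfr hn ho hθ D0 hu hv (inv_ne_zero hx)
        have := ih (x * y) (mul_ne_zero hx y0) fun w hw => by
          by_cases c : w = v
          · exact Or.inl (c ▸ ⟨hv, Or.inl (by
              rw [map_mul, y1, ← map_mul, mul_inv_cancel₀ hx, map_one])⟩)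
          · refine (h w hw).imp (And.imp_right (Or.imp (fun k => ?_) fun k => ?_)) fun k =>
              near_mul (val_sq_le w n) k (y2 w c hw)
            · rw [map_mul, k, val_of_lt ((y2 w c hw).trans_le (val_sq_le w n)), mul_one]
            · exact (Finset.mem_insert.1 k).resolve_left c
        rwa [sy_eq, pw_mul _ hx y0, ← sy_eq, ← sy_eq, y3, mul_one] at this
      · exact ih x hx fun w hw => (h w hw).imp_left fun k => ⟨k.1, k.2.imp_right fun m =>
          (Finset.mem_insert.1 m).resolve_left fun c : w = v => hv (c ▸ k.1)⟩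
  exact key (over_fin D0).toFinset x hx fun v hv => (h v).imp_left fun k =>
    ⟨k, Or.inr ((Set.Finite.mem_toFinset _).2 hv)⟩

end

theorem fin_range {A : Type} [Group A] {θ : GK j →* A} (ho : IsOpen (θ.ker : Set (GK j))) :
    Finite θ.range := by
  have : CompactSpace GQ := inferInstance
  have : CompactSpace (GK j) :=
    isCompact_iff_compactSpace.1 ((GK j).isClosed_of_isOpen (H916.isOpen_GK j)).isCompact
  have : Finite (GK j ⧸ θ.ker) := θ.ker.quotient_finite_of_isOpen ho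
  exact .of_equiv _ (QuotientGroup.quotientKerEquivRange θ).toEquiv

/-- **the reciprocity law**: conditions only at the ramified primes -/
theorem pwf [IsEmpty (K →+* ℝ)] {A : Type} [CommGroup A] {θ : GK j →* A}
    (ho : IsOpen (θ.ker : Set (GK j))) {fr : Pr K → GK j} (hfr : ∀ v, ∃ P, FrI j v P (fr v))
    {n : ℕ} (hn : 0 < n) (hθ : ∀ g, θ g ^ n = 1) {x : K} (hx : x ≠ 0)
    (h : ∀ v : Pr K, Un θ v ∨ v.valuation K (x - 1) < v.valuation K ((n : K) ^ 2)) :
    sy θ fr x = 1 := by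
  have := fin_range ho
  have k : pw (fun v => θ.rangeRestrict (fr v)) x = 1 := by
    by_contra c
    obtain ⟨φ, hφ⟩ := CommGroup.exists_apply_ne_one_of_hasEnoughRootsOfUnity θ.range ℂ c
    refine hφ ((map_pw φ _ hx).trans (pwc (θ := φ.comp θ.rangeRestrict) hfr hn
      (Subgroup.isOpen_mono (fun g k => ?_) ho) (fun g => ?_) hx fun v =>
        (h v).imp_left fun k P hP hb g hg => ?_))
    · exact (congrArg φ (Subtype.ext k : θ.rangeRestrict g = 1)).trans (map_one φ)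
    · rw [MonoidHom.comp_apply, ← map_pow]
      exact (congrArg φ (Subtype.ext (hθ g) : θ.rangeRestrict g ^ n = 1)).trans (map_one φ)
    · exact (congrArg φ (Subtype.ext (k P hP hb g hg) : θ.rangeRestrict g = 1)).trans (map_one φ)
  exact (map_pw θ.range.subtype _ hx).symm.trans (by rw [k, map_one])

end Vale.Agent.P004C.Al.Rc
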