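import Vale.Agent.P004C.Al.Gpd
import Vale.Agent.P004C.Al.Rec

/-!
# P004 C: the ideal character of a Galois character
-/

set_option autoImplicit false
set_option linter.all false

open NumberField IsDedekindDomain
open scoped Classical

noncomputable section

namespace Vale.Agent.P004C.Al.Rc

open Vale.Agent.P022 Vale.Agent.P022.C Vale.Agent.P022.H916 Vale.Agent.P022K Vale.Agent.P022K.PB

variable {M : Type} [Field M] [NumberField M] {j : M →+* Qb}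

/-- extension by zero -/
def iz (f : HeightOneSpectrum (𝓞 M) → ℂ) (I : Ideal (𝓞 M)) : ℂ := if I = ⊥ then 0 else ip f I

section

variable {f : HeightOneSpectrum (𝓞 M) → ℂ} {I : Ideal (𝓞 M)}

theorem iz_bot : iz f ⊥ = 0 := if_pos rfl

theorem iz_ne (h : I ≠ ⊥) : iz f I = ip f I := if_neg h

theorem iz_cm : Cm (iz f) := ⟨(iz_ne one_ne_zero).trans ip_one, fun I I' => by
  by_cases a : I = ⊥
  · rw [a, Ideal.bot_mul, iz_bot, zero_mul]
  by_cases b : I' = ⊥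
  · rw [b, Ideal.mul_bot, iz_bot, mul_zero]
  rw [iz_ne a, iz_ne b, iz_ne (mul_ne_zero a b), ip_mul a b]⟩

theorem iz_pr (v : HeightOneSpectrum (𝓞 M)) : iz f v.asIdeal = f v := (iz_ne v.ne_bot).trans ip_pr

theorem cm_le {a : Ideal (𝓞 M) → ℂ} (h : Cm a) (h0 : a ⊥ = 0)
    (hp : ∀ v : HeightOneSpectrum (𝓞 M), ‖a v.asIdeal‖ ≤ 1) (I : Ideal (𝓞 M)) : ‖a I‖ ≤ 1 := by
  by_cases b : I = ⊥
  · rw [b, h0, norm_zero]; exact zero_le_one
  refine ind (p := fun I => ‖a I‖ ≤ 1) (by rw [h.one, norm_one]) (fun v I _ k => ?_) b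
  rw [h.mul, norm_mul]
  exact mul_le_one₀ (hp v) (norm_nonneg _) k

/-- multiplicative functions which agree at the prime factors -/
theorem cm_ext {R : Type} [CommRing R] {a b : Ideal (𝓞 M) → R} (ha : Cm a) (hb : Cm b) (h0 : I ≠ ⊥)
    (h : ∀ v : HeightOneSpectrum (𝓞 M), I ≤ v.asIdeal → a v.asIdeal = b v.asIdeal) :
    a I = b I :=
  ind (p := fun I => (∀ v : HeightOneSpectrum (𝓞 M), I ≤ v.asIdeal → a v.asIdeal = b v.asIdeal) →
    a I = b I) (fun _ => ha.one.trans hb.one.symm) (fun v I _ k m => by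
      rw [ha.mul, hb.mul, m v Ideal.mul_le_left, k fun w e => m w (Ideal.mul_le_right.trans e)])
    h0 h

end

variable (θ : GK j →* ℂˣ) (fr : HeightOneSpectrum (𝓞 M) → GK j)

/-- the ideal character -/
def ic : Ideal (𝓞 M) → ℂ := iz fun v => if Un θ v then (θ (fr v) : ℂ) else 0

variable {θ fr} {v : HeightOneSpectrum (𝓞 M)}

theorem ic_cm : Cm (ic θ fr) := iz_cm

theorem ic_bot : ic θ fr ⊥ = 0 := iz_bot

theorem ic_un (h : Un θ v) : ic θ fr v.asIdeal = θ (fr v) := (iz_pr v).trans (if_pos h)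

theorem ic_ram (h : ¬ Un θ v) : ic θ fr v.asIdeal = 0 := (iz_pr v).trans (if_neg h)

theorem ic_zero : ic θ fr v.asIdeal = 0 ↔ ¬ Un θ v :=
  ⟨fun e h => (θ (fr v)).ne_zero ((ic_un h).symm.trans e), ic_ram⟩

theorem ic_le {n : ℕ} (hn : 0 < n) (hθ : ∀ g, θ g ^ n = 1) (I : Ideal (𝓞 M)) : ‖ic θ fr I‖ ≤ 1 :=
  cm_le ic_cm ic_bot (fun v => by
    by_cases h : Un θ v
    · rw [ic_un h]
      exact (Complex.norm_eq_one_of_pow_eq_one (by
        rw [← Units.val_pow_eq_pow_val, hθ, Units.val_one]) hn.ne').le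
    · rw [ic_ram h, norm_zero]; exact zero_le_one) I

theorem ic_ip {I : Ideal (𝓞 M)} (h0 : I ≠ ⊥) (h : ∀ v, I ≤ v.asIdeal → Un θ v) :
    ic θ fr I = (ip (fun v => θ (fr v)) I : ℂˣ) :=
  ((iz_ne h0).trans (ip_congr h0 fun v k => if_pos (h v k))).trans
    (map_ip (Units.coeHom ℂ) h0).symm

variable (hfr : ∀ v, ∃ P, FrI j v P (fr v))

include hfr

theorem ic_fr (h : Un θ v) {P : Ideal (𝓞 Qb)} {g : GK j} (hg : FrI j v P g) :
    ic θ fr v.asIdeal = θ g := by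
  obtain ⟨Q, hQ⟩ := hfr v
  rw [ic_un h, H565.fre_unique j θ v h _ _ _ _ hQ hg]

/-- the reciprocity law -/
theorem ic_law [IsEmpty (M →+* ℝ)] (ho : IsOpen (θ.ker : Set (GK j))) {n : ℕ} (hn : 0 < n)
    (hθ : ∀ g, θ g ^ n = 1) {x : 𝓞 M} (hx : x ≠ 0)
    (h : ∀ v, Un θ v ∨ v.valuation M ((x : M) - 1) < v.valuation M ((n : M) ^ 2)) :
    ic θ fr (Ideal.span {x}) = 1 := by
  rw [ic_ip (Ideal.span_singleton_eq_bot.not.2 hx) fun v k => (h v).resolve_right fun m =>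
    ((Sh.Tor.mem_iff v x).1 ((Ideal.span_singleton_le_iff_mem _).1 k)).ne
      (val_of_lt (m.trans_le (val_sq_le v n))), ip_span _ hx]
  exact congrArg Units.val (pwf ho hfr hn hθ (by exact_mod_cast hx) h)

variable {M' : Type} [Field M'] [NumberField M'] [Algebra M M'] {j' : M' →+* Qb}
  (e : ∀ x, j' (algebraMap M M' x) = j x)

include e

theorem ic_gp (hk : ∀ g, θ g = 1 ↔ g.1 ∈ GK j')
    (h : Un θ v ∨ ∃ P : Ideal (𝓞 Qb), P.IsPrime ∧ below j P = v.asIdeal ∧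
      ∀ g, ∃ h, InI j P h ∧ θ h = θ g) : Gp M' (ic θ fr) v.asIdeal := by
  by_cases u : Un θ v
  · obtain ⟨P, hP⟩ := hfr v
    obtain ⟨a, b, c⟩ := unr_deg e hk (u P hP.1 hP.2.1) hP
    refine ⟨_, a, Or.inl ⟨b, ?_⟩⟩
    rw [c, ic_un u]
    exact IsPrimitiveRoot.coe_units_iff.2 (IsPrimitiveRoot.orderOf _)
  · obtain ⟨P, hP, hb, k⟩ := h.resolve_left u
    obtain ⟨a, b⟩ := ram_deg e hk hP hb k
    exact ⟨_, a, Or.inr ⟨ic_ram u, b⟩⟩

end Vale.Agent.P004C.Al.Rc
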