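import Vale.Agent.P004C.Al.St2
import Vale.Agent.P004C.Al.Ic0

/-!
# P004 C, block AL: rows ICX and ETA
-/

set_option autoImplicit false
set_option linter.all false

open NumberField IsDedekindDomain Module
open scoped Classical Pointwise

noncomputable section

namespace Vale.Agent.P004C.Al

open Vale.Agent.P022 Vale.Agent.P022.C Vale.Agent.P022.H916 Vale.Agent.P022K Vale.Agent.P022K.PB
open Vale.Agent.P027M.S (Pr Inert)
open Vale.Agent.P022D.W (dec)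
open Vale.Agent.P022E.GW (Ov)
open Rc

variable {M : Type} [Field M] [NumberField M] {j : M →+* Qb} {θ : GQ → ℂ} {n l : ℕ}
  {P : Ideal (𝓞 Qb)} {v : Pr M} {χ : Ideal (𝓞 M) → ℂ}

namespace Rc

theorem ex_ov (hP : P.IsPrime) (hb : below j P = v.asIdeal) : ∃ l, Ov l P := by
  obtain ⟨l, hl, m⟩ := H565.exists_prime_mem v
  exact ⟨l, hl, hP, (H651.natCast_mem_below j).1 (hb ▸ m)⟩

theorem ex_ab (j : M →+* Qb) (v : Pr M) : ∃ l P, Ov l P ∧ below j P = v.asIdeal := by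
  obtain ⟨P, hP, hb⟩ := exists_above j v.asIdeal v.isPrime
  obtain ⟨l, hl⟩ := ex_ov hP hb
  exact ⟨l, P, hl, hb⟩

/-- the prime below `P` -/
def bl (j : M →+* Qb) (h : Ov l P) : Pr M :=
  ⟨below j P, P004R.Gl.below_pr j h.2.1, P004R.Gl.below_ne j h.1.ne_zero h.2.2⟩

/-- a maximal ideal as a prime -/
def mx {p : Ideal (𝓞 M)} (h : p.IsMaximal) : Pr M :=
  ⟨p, h.isPrime, Ring.ne_bot_of_isMaximal_of_not_isField h (RingOfIntegers.not_isField M)⟩

theorem nat_mem (h : Ov l P) {c : ℕ} : (c : 𝓞 M) ∈ below j P ↔ l ∣ c := by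
  rw [H651.natCast_mem_below]
  refine ⟨fun k => by_contra fun m => ?_, fun ⟨d, e⟩ => ?_⟩
  · obtain ⟨a, b, e⟩ := (Nat.isCoprime_iff_coprime.2 ((h.1.coprime_iff_not_dvd).2 m)).map
      (Int.castRingHom (𝓞 Qb))
    simp only [Int.coe_castRingHom, Int.cast_natCast] at e
    exact h.2.1.one_notMem (e ▸ P.add_mem (P.mul_mem_left _ h.2.2) (P.mul_mem_left _ k))
  · rw [e, Nat.cast_mul]
    exact P.mul_mem_right _ h.2.2

/-- one prime above `v` is enough -/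
theorem un_of {A : Type} [CommGroup A] {φ : GK j →* A} (hP : P.IsPrime)
    (hb : below j P = v.asIdeal) (h : ∀ g, InI j P g → φ g = 1) : Un φ v := by
  intro Q hQ hc g hg
  obtain ⟨t, rfl⟩ := exists_smul j hP hQ (hb.trans hc.symm)
  have := h (t⁻¹ * g * t) fun x => by
    have k := Ideal.mem_pointwise_smul_iff_inv_smul_mem.1 (hg (t.1 • x))
    rwa [smul_sub, inv_smul_smul, ← mul_smul, ← mul_smul] at k
  rwa [map_mul, map_mul, map_inv, inv_mul_cancel_comm] at this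

/-- inert primes -/
theorem ine_map {M' : Type} [Field M'] [NumberField M'] [Algebra M M'] {j' : M' →+* Qb}
    {A : Type} [Group A] {φ : GK j →* A} (e : ∀ x, j' (algebraMap M M' x) = j x)
    (hk : ∀ g, φ g = 1 ↔ g.1 ∈ GK j') (hP : P.IsPrime) (hb : below j P = v.asIdeal)
    (hv : ∀ g, InI j P g → φ g = 1) (hd : ∀ g, ∃ h : GK j, h.1 ∈ dec P ∧ φ h = φ g) :
    v.asIdeal.map (algebraMap (𝓞 M) (𝓞 M')) = below j' P := by
  obtain ⟨g, hg⟩ := ex_fri hP hb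
  obtain ⟨a, b, -⟩ := unr_deg e hk hv hg
  have := v.isMaximal
  rw [Ideal.map_algebraMap_eq_finsetProd_pow v.ne_bot, Finset.prod_eq_single (below j' P)
    (fun Q m c => (c ?_).elim) (fun m => (m (by simpa using a)).elim), b, pow_one]
  have m' : Q ∈ v.asIdeal.primesOver (𝓞 M') := by simpa using m
  obtain ⟨P', hP', rfl⟩ := exists_above j' Q m'.1
  obtain ⟨t, rfl⟩ := exists_smul j hP hP' (by rw [hb, below_dw e]; exact m'.2.over)
  obtain ⟨h, h1, h2⟩ := hd t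
  have k : (h * t⁻¹).1 ∈ GK j' := (hk _).1 (by rw [map_mul, map_inv, h2, mul_inv_cancel])
  ext x
  have k' : (h * t⁻¹).1 • RingOfIntegers.mapRingHom j' x = RingOfIntegers.mapRingHom j' x :=
    RingOfIntegers.ext (k x)
  rw [below, below, Ideal.mem_comap, Ideal.mem_comap, Ideal.mem_pointwise_smul_iff_inv_smul_mem,
    ← h1, ← mul_smul]
  exact Iff.of_eq (congrArg (· ∈ P) k')

end Rc

theorem Gc.one (h : Gc j θ n) : θ 1 = 1 := by
  have a := h.mul 1 (one_mem _) 1 (one_mem _)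
  rw [mul_one] at a
  exact mul_left_cancel₀ (fun e => by
    have := h.pow 1 (one_mem _)
    rw [e, zero_pow h.pos.ne'] at this
    exact zero_ne_one this) (a.symm.trans (mul_one _).symm)

/-- the character as a homomorphism -/
def Gc.hom (h : Gc j θ n) : GK j →* ℂˣ :=
  MonoidHom.toHomUnits ⟨⟨fun g => θ g, h.one⟩, fun a b => h.mul a a.2 b b.2⟩

namespace Gc

variable (h : Gc j θ n)

theorem coe (g : GK j) : (h.hom g : ℂ) = θ g := rfl

theorem eq_one {g : GK j} : h.hom g = 1 ↔ θ g = 1 := Units.ext_iff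

theorem hpow (g : GK j) : h.hom g ^ n = 1 := Units.ext (h.pow g g.2)

theorem hopn : IsOpen (h.hom.ker : Set (GK j)) := by
  obtain ⟨W, o, k⟩ := h.opn
  exact Subgroup.isOpen_mono (H₁ := W.comap (GK j).subtype) (fun g m => h.eq_one.2 (k g g.2 m))
    (o.preimage continuous_subtype_val)

theorem un_iff (hP : P.IsPrime) (hb : below j P = v.asIdeal) : Un h.hom v ↔ ¬ Rm j θ P :=
  ⟨fun u ⟨g, a, b, c⟩ => c (h.eq_one.1 (u P hP hb ⟨g, a⟩ b)), fun k => un_of hP hb fun g m =>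
    h.eq_one.2 (by_contra fun c => k ⟨g, g.2, m, c⟩)⟩

variable {fr : Pr M → GK j} (hfr : ∀ v, ∃ P, FrI j v P (fr v))

include hfr

theorem ic : Ic j θ (ic h.hom fr) :=
  ⟨ic_cm, ic_bot, fun l P o r => ic_ram (v := bl j o) fun u => (h.un_iff o.2.1 rfl).1 u r,
    fun l P o r g a b => ic_fr (v := bl j o) hfr ((h.un_iff o.2.1 rfl).2 r) (g := ⟨g, a⟩)
      ⟨o.2.1, rfl, b⟩⟩

theorem ic_eq (k : Ic j θ χ) : χ = Rc.ic h.hom fr := funext fun I => by
  by_cases b : I = ⊥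
  · rw [b, k.bot, ic_bot]
  refine cm_ext k.cm ic_cm b fun v _ => ?_
  obtain ⟨P, hP⟩ := hfr v
  obtain ⟨l, o⟩ := ex_ov hP.1 hP.2.1
  by_cases r : Rm j θ P
  · rw [ic_ram fun u => (h.un_iff hP.1 hP.2.1).1 u r, ← hP.2.1, k.ram l P o r]
  · rw [ic_un ((h.un_iff hP.1 hP.2.1).2 r), ← hP.2.1,
      k.unr l P o r _ (fr v).2 (hP.2.1 ▸ hP.2.2), h.coe]

end Gc

namespace Ic

variable (k : Ic j θ χ) (h : Gc j θ n)

include k h

theorem le (I : Ideal (𝓞 M)) : ‖χ I‖ ≤ 1 := by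
  obtain ⟨fr, hfr⟩ := exists_fr j
  exact h.ic_eq hfr k ▸ ic_le h.pos h.hpow I

theorem zero (o : Ov l P) : χ (below j P) = 0 ↔ Rm j θ P := by
  obtain ⟨fr, hfr⟩ := exists_fr j
  rw [h.ic_eq hfr k]
  exact (ic_zero (v := bl j o)).trans (by rw [h.un_iff o.2.1 rfl, not_not])

theorem law [IsEmpty (M →+* ℝ)] {x : 𝓞 M} (hx : x ≠ 0)
    (a : ∀ (v : Pr M) l P, Ov l P → below j P = v.asIdeal → Rm j θ P →
      v.valuation M ((x : M) - 1) < v.valuation M ((n : M) ^ 2)) : χ (Ideal.span {x}) = 1 := by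
  obtain ⟨fr, hfr⟩ := exists_fr j
  rw [h.ic_eq hfr k]
  refine ic_law hfr h.hopn h.pos h.hpow hx fun v => or_iff_not_imp_left.2 fun u => ?_
  obtain ⟨l, P, o, e⟩ := ex_ab j v
  exact a v l P o e (by rwa [h.un_iff o.2.1 e, not_not] at u)

variable {M' : Type} [Field M'] [NumberField M'] [Algebra M M'] {j' : M' →+* Qb}
  (e : ∀ x, j' (algebraMap M M' x) = j x)

include e

/-- good primes -/
theorem gp (hk : ∀ g, g ∈ GK j' ↔ g ∈ GK j ∧ θ g = 1) (o : Ov l P)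
    (a : Rm j θ P → ∀ g ∈ GK j, ∃ t ∈ GK j, Inert P t ∧ θ t = θ g) : Gp M' χ (below j P) := by
  obtain ⟨fr, hfr⟩ := exists_fr j
  rw [h.ic_eq hfr k]
  refine ic_gp (v := bl j o) hfr e (fun g => by rw [h.eq_one, hk, and_iff_right g.2])
    (or_iff_not_imp_left.2 fun u => ⟨P, o.2.1, rfl, fun g => ?_⟩)
  obtain ⟨t, b, c, d⟩ := a (by rwa [h.un_iff o.2.1 rfl, not_not] at u) g g.2
  exact ⟨⟨t, b⟩, c, Units.ext d⟩

/-- the value at a prime of the extension -/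
theorem norm {χ' : Ideal (𝓞 M') → ℂ} (k' : Ic j' θ χ') (o : Ov l P) (u : ¬ Rm j θ P) :
    χ' (below j' P) = χ (Ideal.relNorm (𝓞 M) (below j' P)) := by
  have b : below j P = (dw M (bl j' o)).asIdeal := below_dw e P
  obtain ⟨g, hg⟩ := ex_fri o.2.1 b
  obtain ⟨g', hg'⟩ := ex_fri (j := j') (v := bl j' o) o.2.1 rfl
  have := congrArg Units.val (fr_norm e ((h.un_iff o.2.1 b).2 u) hg hg')
  rw [k'.unr l P o (fun ⟨t, x, y⟩ => u ⟨t, gk_le e x, y⟩) _ g'.2 hg'.2.2]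
  refine this.trans (Eq.symm ((congrArg χ (rel_pr (bl j' o))).trans ?_))
  rw [k.cm.pow, ← b, k.unr l P o u _ g.2 (b ▸ hg.2.2), Units.val_pow_eq_pow_val, h.coe]

end Ic

theorem icx : ICX := fun M _ _ j θ n h =>
  ⟨(exists_fr j).elim fun _ hfr => ⟨_, h.ic hfr⟩, fun χ k => ⟨k.le h, fun _ _ => k.law h⟩⟩

theorem eta : ETA := by
  intro L L₂ _ _ _ _ _ j j₂ θ c im e _ h hk hc hr
  have ab : ∀ p : Ideal (𝓞 L), p.IsMaximal → ∃ l P, Ov l P ∧ below j P = p :=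
    fun p m => ex_ab j (mx m)
  have two : ∀ t ∈ GK j, θ t ≠ 1 → ∀ g ∈ GK j, θ g = 1 ∨ θ t = θ g := fun t a b g d =>
    (sq_eq_one_iff.1 (h.pow g d)).imp_right fun m =>
      ((sq_eq_one_iff.1 (h.pow t a)).resolve_left b).trans m.symm
  refine ⟨fun η k => ⟨k.cm, k.bot, k.le h, fun p m => ?_, hc, fun p m => ?_, fun x x0 d =>
    k.law h x0 fun v l P o b r => ?_⟩, fun l P o d ⟨t, t1, t2, t3⟩ => ?_, ab⟩
  · obtain ⟨l, P, o, rfl⟩ := ab p m
    refine k.gp h e hk o fun ⟨t, t1, t2, t3⟩ g a => (two t t1 t3 g a).elim (fun z => ?_)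
      fun z => ⟨t, t1, t2, z⟩
    exact ⟨1, one_mem _, fun x => by simp, h.one.trans z.symm⟩
  · obtain ⟨l, P, o, rfl⟩ := ab p m
    rw [k.zero h o, hr l P o, nat_mem o]
  · have d1 := (hr l P o).1 r
    have d2 : ((2 : ℕ) : 𝓞 L) ∉ v.asIdeal := fun z => (Nat.not_even_iff_odd.2 hc)
      (even_iff_two_dvd.2 ((Nat.prime_dvd_prime_iff_eq o.1 Nat.prime_two).1
        ((nat_mem o).1 (b ▸ z)) ▸ d1))
    rw [map_pow, Sh.Tor.val_nat d2, one_pow]
    exact_mod_cast (Sh.Tor.mem_iff v (x - 1)).1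
      (Ideal.mem_of_dvd _ d (b ▸ (nat_mem o).2 d1))
  · have := ine_map (v := bl j o) (φ := h.hom) e (fun g => by rw [h.eq_one, hk, and_iff_right g.2])
      o.2.1 rfl (fun g m => h.eq_one.2 (by_contra fun z => d ((hr l P o).1 ⟨g, g.2, m, z⟩)))
      fun g => (two t t2 t3 g g.2).elim (fun z => ⟨1, one_mem _, Units.ext (h.one.trans z.symm)⟩)
        fun z => ⟨⟨t, t2⟩, t1, Units.ext z⟩
    exact (congrArg Ideal.IsMaximal this).mpr (bl j₂ o).isMaximal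

end Vale.Agent.P004C.Al
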