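import Vale.Agent.P004C.Al.Lf0

/-!
# P004 C, block AL: the faithful characters of a layer (row LF2)
-/

set_option linter.all false

open NumberField Module IsDedekindDomain
open scoped Classical

noncomputable section

namespace Vale.Agent.P004C.Al

open Vale.Agent.P022 (Qb GQ GK below)
open Vale.Agent.P027M.S (Pr Inert)
open Vale.Agent.P027M.M (ze)
open Vale.Agent.P022E.GW (Ov)
open Vale.Agent.P022K

namespace Lf

variable {M N : Type} [Field M] [NumberField M] [Field N] [NumberField N] [Algebra M N]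
  {j : M →+* Qb} {j' : N →+* Qb}

/-- the degree is the order of the image -/
theorem deg {A : Type} [Group A] {θ : GK j →* A} (e : ∀ x, j' (algebraMap M N x) = j x)
    (hk : ∀ g, θ g = 1 ↔ g.1 ∈ GK j') : IsGalois M N ∧ finrank M N = Nat.card θ.range := by
  obtain ⟨_, ρ, D⟩ := Rc.ex_dict e hk
  refine ⟨inferInstance, ?_⟩
  rw [← IsGalois.card_aut_eq_finrank, ← Subgroup.index_ker,
    show θ.ker = ρ.ker from Subgroup.ext fun g => (hk g).trans (D.ker g).symm, Subgroup.index_ker,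
    MonoidHom.range_eq_top.2 D.surj, Subgroup.card_top]

/-- good primes -/
theorem gp {A : Type} [Group A] {θ : GK j →* A} (e : ∀ x, j' (algebraMap M N x) = j x)
    (hk : ∀ g, θ g = 1 ↔ g.1 ∈ GK j') {l : ℕ} {P : Ideal (𝓞 Qb)} (hP : Ov l P)
    (hm : (below j P).IsMaximal) (hv : ∀ g : GK j, Inert P g → θ g = 1) {g : GK j}
    (fg : ∀ x : 𝓞 Qb, g.1 • x - x ^ Ideal.absNorm (below j P) ∈ P) {ψ : Ideal (𝓞 M) → ℂ}
    (hψ : IsPrimitiveRoot (ψ (below j P)) (orderOf (θ g))) : Gp N ψ (below j P) := by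
  have := Rc.unr_deg (v := ⟨below j P, hm.isPrime, (Eu.prime_iff.2 hm).ne_zero⟩) e hk hv
    (g := g) ⟨hP.2.1, rfl, fg⟩
  exact ⟨_, this.1, .inl ⟨this.2.1, this.2.2 ▸ hψ⟩⟩

variable {c k : ℕ} {e : GQ → ZMod (2 * 2 ^ k)}

/-- the layer as a homomorphism -/
def eh (W : Lw j c k e) : GK j →* Multiplicative (ZMod (2 * 2 ^ k)) :=
  MonoidHom.mk' (fun g => .ofAdd (e g)) fun g h => congrArg Multiplicative.ofAdd (W.add _ g.2 _ h.2)

theorem e_one (W : Lw j c k e) : e 1 = 0 := map_one (eh W)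

theorem e_pow (W : Lw j c k e) {g : GQ} (hg : g ∈ GK j) (n : ℕ) : e (g ^ n) = n * e g := by
  rw [← nsmul_eq_mul]
  exact map_pow (eh W) ⟨g, hg⟩ n

theorem ex_one (W : Lw j c k e) : ∃ t ∈ GK j, e t = 1 := by
  obtain ⟨l, hl, d⟩ := Nat.exists_prime_and_dvd W.one.ne'
  obtain ⟨P, hP⟩ := GW.Pl.ex_ov hl
  obtain ⟨t, a, -, b⟩ := W.ram l P hP d
  exact ⟨t, a, b⟩

theorem half_ne : ((2 ^ k : ℕ) : ZMod (2 * 2 ^ k)) ≠ 0 := fun z => by
  have := Nat.le_of_dvd (by positivity) ((ZMod.natCast_eq_zero_iff _ _).1 z)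
  have : 0 < 2 ^ k := by positivity
  omega

theorem sq_eq (W : Lw j c k e) (g : GK j) :
    (powMonoidHom 2).comp (eh W) g = .ofAdd (2 * e g) := by
  rw [two_mul (e g), ofAdd_add, ← pow_two]; rfl

theorem card_sq (W : Lw j c k e) : Nat.card ((powMonoidHom 2).comp (eh W)).range = 2 ^ k := by
  have : NeZero (2 * 2 ^ k) := ⟨by positivity⟩
  obtain ⟨t, a, b⟩ := ex_one W
  have : ((powMonoidHom 2).comp (eh W)).range =
      Subgroup.zpowers (Multiplicative.ofAdd ((2 : ℕ) : ZMod (2 * 2 ^ k))) := by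
    refine le_antisymm ?_ (Subgroup.zpowers_le_of_mem ⟨⟨t, a⟩, by
      rw [sq_eq, b, mul_one, Nat.cast_ofNat]⟩)
    rintro _ ⟨g, rfl⟩
    rw [sq_eq, ← ZMod.natCast_zmod_val (e g), mul_comm (2 : ZMod _), ← nsmul_eq_mul,
      ofAdd_nsmul, Nat.cast_ofNat]
    exact pow_mem (Subgroup.mem_zpowers _) _
  rw [this, Nat.card_zpowers, orderOf_ofAdd_eq_addOrderOf, ZMod.addOrderOf_coe _ (NeZero.ne _),
    Nat.gcd_mul_right_left, Nat.mul_div_cancel_left _ two_pos]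

end Lf

open Lf

theorem lf2 : LF2 := by
  intro K M N _ _ _ _ _ _ _ _ _ _ ι J Ω B j j' c k e hj W hk χ η hχ hη s h a lam hh ha L
  have : NeZero (2 * 2 ^ k) := ⟨by positivity⟩
  have hk' : ∀ g, (powMonoidHom 2).comp (eh W) g = 1 ↔ g.1 ∈ GK j' := fun g => by
    rw [sq_eq, hk, and_iff_right g.2]; rfl
  obtain ⟨_, hd⟩ := deg hj hk'
  rw [card_sq] at hd
  have h1 := ic_le hχ fun g _ => (ze_norm _ _).le
  have r := res hj (fun g a h b => by rw [W.add g a h b, ze_add]) ((ze_one _ _).2 (e_one W))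
    (fun l P hP ⟨g, a, b, n⟩ => by
      obtain ⟨t, a', b', n'⟩ := W.ram l P hP
        (by_contra fun z => n ((ze_one _ _).2 (W.unr l P hP z g a b)))
      have p : e (t ^ 2 ^ k) = (2 ^ k : ℕ) := by rw [e_pow W a', n', mul_one]
      refine ⟨t ^ 2 ^ k, (hk _).2 ⟨pow_mem a' _, ?_⟩, pow_mem (S := P022.H443.inP P)
        b' _, fun z => half_ne (p ▸ (ze_one _ _).1 z)⟩
      rw [p, ← ZMod.natCast_self (2 * 2 ^ k), Nat.cast_mul, Nat.cast_ofNat]) hχ hη
  rw [funext r, cyc B hd hh ha L hχ.cm (hχ.cm.npow 2) h1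
    (fun I => (norm_pow _ _).trans_le (pow_le_one₀ (norm_nonneg _) (h1 I))) fun p hp n => ?_]
  · refine Finset.prod_congr rfl fun i _ => congrArg (Ls s lam) (funext fun I => ?_)
    rw [← pow_mul, pow_succ']
  obtain ⟨l, P, hP, rfl⟩ := ex_pl j hp
  have u : ¬ Rm j (fun g => ze (2 * 2 ^ k) (e g).val) P := fun z => n (hχ.ram l P hP z)
  obtain ⟨g, hg, fg⟩ := ex_fr j hP
  refine gp hj hk' hP hp (fun t ht => ?_) (g := ⟨g, hg⟩) fg ?_
  · have : e t = 0 := (ze_one _ _).1 (by_contra fun z => u ⟨t, t.2, ht, z⟩)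
    rw [sq_eq, this, mul_zero]; rfl
  · rw [hχ.unr l P hP u g hg fg, sq_eq, pow_two, ← ze_add, ← two_mul]
    exact ze_prim _ _

end Vale.Agent.P004C.Al
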