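import Vale.Agent.P004C.Al.Cmb2

/-!
# P004 C: leading terms in a quadratic extension
-/

open NumberField Module Ideal
open scoped Classical

set_option linter.all false

noncomputable section

namespace Vale.Agent.P004C.Cm

open Al.Gx (pv_two)

variable {K : Type} [Field K] [NumberField K] {ι : ℂ →+* ℂ_[2]} {J : K →+* ℂ} {Ω : ℝ}
  {h e : ℕ} {lam : Ideal (𝓞 K) → ℂ} {M : Type} [Field M] [NumberField M] [Algebra K M]
  {r A k l : ℕ} {W : Fin (r + 1) → Ideal (𝓞 M)} {Φ : Ideal (𝓞 M) → ZMod (2 ^ A)}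
  {φ : Fin (r + 1) → M → ZMod (2 ^ A)} {f g c : Ideal (𝓞 M)} {a η : Ideal (𝓞 M) → ℂ}

theorem pv_mul (h1 : Pv ι J f) (h2 : Pv ι J g) : Pv ι J (f * g) := by
  obtain ⟨s, a, b⟩ := h1
  obtain ⟨t, c, d⟩ := h2
  exact ⟨s * t, by simp [a, c], by rw [map_mul]; exact mul_mem_mul b d⟩

theorem pv_ne (h1 : Pv ι J f) : f ≠ ⊥ := by
  rintro rfl
  obtain ⟨s, a, b⟩ := h1
  exact Al.Gx.ne_of (M := M) a (by rw [← Al.Gx.coe_s, mem_bot.1 b]; rfl)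

theorem pv_top : Pv ι J (⊤ : Ideal (𝓞 M)) := ⟨1, by simp, trivial⟩

theorem aux_two (X : Aux (2 * l) A W Φ φ) (i) : (2 : 𝓞 M) ∉ W i ∧ (l : 𝓞 M) ∉ W i :=
  ⟨fun k => X.cop i (mul_mem_right _ _ k), fun k => X.cop i (mul_mem_left _ _ k)⟩

theorem aux_pv (X : Aux (2 * l) A W Φ φ) (i) : Pv ι J (W i) :=
  pv_two (sup_comm (W i) _ ▸ cop_of (X.max i) (mem_span_singleton_self 2) (aux_two X i).1)

theorem aux_pv' (X : Aux (2 * l) A W Φ φ) : Pv ι J (∏ i, W i) :=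
  pv_two (sup_comm (∏ i, W i) _ ▸ cop_prod.2 fun i =>
    cop_of (X.max i) (mem_span_singleton_self 2) (aux_two X i).1)

theorem sm_pv (S : Sm c l) : Pv ι J c := by
  refine ⟨l, ?_, by simpa using (sm_mem S).2⟩
  obtain ⟨j, hj⟩ := S.1.odd_of_ne_two S.2.1
  have h2 : ‖(2 * j : ℂ_[2])‖ < ‖(1 : ℂ_[2])‖ := by
    rw [norm_mul, nm_two, norm_one]
    nlinarith [nat_le j, norm_nonneg (j : ℂ_[2])]
  have := add_eq h2
  rw [norm_one, add_comm] at this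
  rw [← this, RingOfIntegers.coe_eq_algebraMap, map_natCast, map_natCast, map_natCast, hj]
  push_cast
  rfl

/-- the text of `BND` for one field and one smoothing prime -/
def Bd (ι : ℂ →+* ℂ_[2]) (J : K →+* ℂ) (s : ℕ → ℝ) (c : Ideal (𝓞 M)) (l : ℕ) (C : ℝ) : Prop :=
  ∀ (k : ℕ) (f : Ideal (𝓞 M)) (a u : Ideal (𝓞 M) → ℂ), 3 ≤ k → Pv ι J f →
    f ⊔ span {(l : 𝓞 M)} = ⊤ → (∃ w : Ideal (𝓞 M), w.IsMaximal ∧ f ≤ w ∧ 2 ∉ w) →
    HC J k f a → Ry f u → (∀ I, ‖ι (u I)‖ ≤ 1) →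
    s k * ‖ι (∑' I, a I * (u I - l * a c * u (c * I)))‖ ≤ C

theorem mu_bd {s : ℕ → ℝ} {C : ℝ} {c₁ : Ideal (𝓞 M)} {l₁ : ℕ} (D : Bd ι J s c₁ l₁ C)
    (S : Sm c₁ l₁) (X : Aux (2 * l) A W Φ φ) (hl : ∀ i, (l₁ : 𝓞 M) ∉ W i) (hk : 3 ≤ k)
    (H : HC J k f a) (p : Pv ι J f) (hc : span {(l₁ : 𝓞 M)} ⊔ f = ⊤) (ha : Summable (rs W a))
    (x : ZMod (2 ^ A)) : s k * ‖ι (mu (rs W a) Φ c₁ l₁ x)‖ ≤ C := by
  have h1 : ∀ i, f * ∏ i, W i ≤ W i := fun i => Ideal.mul_le_right.trans (prod_le i)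
  have h0 : (f * ∏ i, W i) ⊔ span {(l₁ : 𝓞 M)} = ⊤ := (sup_comm _ _).trans <|
    cop_mul.2 ⟨hc, cop_prod.2 fun i => cop_of (X.max i) (mem_span_singleton_self _) (hl i)⟩
  have h2 : (f * ∏ i, W i) ⊔ c₁ = ⊤ := eq_top_iff.2 (h0.ge.trans
    (sup_le_sup_left ((span_singleton_le_iff_mem _).2 (sm_mem S).2) _))
  obtain ⟨u, h3, h4, h5⟩ := mu_eq (ι := ι) X (rs_hc H) h1 ha (sm_mem S).1 h2 l₁ x
  rw [h5]
  exact D k _ _ u hk (pv_mul p (aux_pv' X)) h0 ⟨W 0, X.max 0, h1 0, (aux_two X 0).1⟩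
    (rs_hc H) h3 h4

theorem sum_of {s : ℝ} (hs : 1 < s) (h : ∀ I, ‖a I‖ ≤ (absNorm I : ℝ) ^ (-s)) : Summable a :=
  .of_norm_bounded (Al.sum_norm M hs) h

variable (ι J) in
/-- the leading term -/
def rg {n : ℕ} (b : Basis (Fin n) K M) (m l : ℕ) (φ : Fin (r + 1) → M → ZMod (2 ^ A))
    (γ : Fin n ⊕ Fin r → M) (R : Finset (Ideal (𝓞 M))) : ℝ :=
  ‖(1 - l : ℂ_[2]) * R.card * Matrix.det (Matrix.of fun j j' => Sum.elim
    (fun i => ι (J (b.repr ((γ j - 1) / 2 ^ m) i)))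
    (fun i : Fin r => ((φ i.succ (γ j)).val : ℂ_[2])) j')‖

variable {N : Type} [Field N] [NumberField N] [Algebra K N] [Algebra M N] [IsScalarTower K M N]

theorem rn_rn (I : Ideal (𝓞 N)) : relNorm (𝓞 K) (relNorm (𝓞 M) I) = relNorm (𝓞 K) I :=
  relNorm_relNorm _ _ I

theorem cop_rn {w : Ideal (𝓞 M)} (hw : w.IsMaximal) (I : Ideal (𝓞 N)) :
    relNorm (𝓞 M) I ⊔ w = ⊤ ↔ I ⊔ w.map (algebraMap (𝓞 M) (𝓞 N)) = ⊤ := by
  constructor
  · intro k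
    have := congrArg (map (algebraMap (𝓞 M) (𝓞 N))) k
    rw [Ideal.map_sup, Ideal.map_top] at this
    exact eq_top_iff.2 (this ▸ sup_le_sup_right (map_le_iff_le_comap.2 (relNorm_le_comap _ I)) _)
  · induction I using UniqueFactorizationMonoid.induction_on_prime with
    | h₁ =>
      intro k
      rw [zero_eq_bot, bot_sup_eq] at k
      have := congrArg (relNorm (𝓞 M)) k
      rw [relNorm_algebraMap, relNorm_top] at this
      exact absurd (pow_eq_top_iff.1 this) (not_or.2 ⟨hw.ne_top, finrank_pos.ne'⟩)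
    | h₂ I u => intro _; rw [isUnit_iff.1 u, relNorm_top, top_sup_eq]
    | h₃ I Q _ q ih =>
      intro k
      rw [map_mul]
      refine mul_cop.2 ⟨?_, ih (mul_cop.1 k).2⟩
      have := Al.Eu.prime_iff.1 q
      rw [Al.Eu.norm_max, ← isCoprime_iff_sup_eq]
      refine IsCoprime.pow_left (isCoprime_iff_sup_eq.2 (IsMaximal.coprime_of_ne inferInstance hw ?_))
      rintro rfl
      exact this.ne_top (top_le_iff.1 ((mul_cop.1 k).1.ge.trans (sup_le le_rfl map_comap_le)))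

theorem fin_est {x x' z z' y q δ C ε E : ℝ} (h1 : |z - x| ≤ ε) (h2 : |z' - x'| ≤ ε)
    (h3 : |z' * q - z * (q * y)| ≤ E) (hδ : 0 < δ) (hq : δ ≤ q) (hy : 0 ≤ y) (hC : q * y ≤ C) :
    |x' - x * y| ≤ ε + E / δ + ε * (C / δ) := by
  have q0 := hδ.trans_le hq
  have k1 : y ≤ C / δ := (le_div_iff₀ hδ).2 (by nlinarith)
  have k2 : |z' - z * y| ≤ E / δ := by
    rw [show z' * q - z * (q * y) = (z' - z * y) * q by ring, abs_mul, abs_of_pos q0] at h3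
    exact (le_div_iff₀ hδ).2 ((mul_le_mul_of_nonneg_left hq (abs_nonneg _)).trans h3)
  have k3 : |(z - x) * y| ≤ ε * (C / δ) := by
    rw [abs_mul, abs_of_nonneg hy]
    exact mul_le_mul h1 k1 hy ((abs_nonneg _).trans h1)
  rw [show x' - x * y = -(z' - x') + (z' - z * y) + (z - x) * y by ring]
  refine (abs_add_le _ _).trans (add_le_add ((abs_add_le _ _).trans (add_le_add ?_ k2)) k3)
  rwa [abs_neg]

theorem ex_small {δ : ℝ} (hδ : 0 < δ) : ∃ A0 : ℕ, ∀ A, A0 ≤ A → (1 / 2 : ℝ) ^ A ≤ δ := by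
  obtain ⟨n, hn⟩ := exists_pow_lt_of_lt_one hδ (by norm_num : (1 / 2 : ℝ) < 1)
  exact ⟨n, fun A k => (pow_le_pow_of_le_one (by norm_num) (by norm_num) k).trans hn.le⟩

/-- **the leading terms of a quadratic extension and of its base** -/
theorem cmb0 (HB : BND) (HL : LEAD) (B : Base ι J Ω) [IsGalois M N] (d2 : finrank M N = 2)
    {n n' : ℕ} {b : Basis (Fin n) K M} {b' : Basis (Fin n') K N} (v : Vb ι J b) (v' : Vb ι J b')
    (hd : dv ι J b' = dv ι J b ^ 2) {c' : Ideal (𝓞 N)} (S : Sm c l) (S' : Sm c' l)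
    (hc : relNorm (𝓞 M) c' = c) (E : HC J 0 g η) (pg : Pv ι J g) (η1 : ∀ I, ‖η I‖ ≤ 1)
    (G : ∀ P, P.IsMaximal → Al.Gp N η P) {c₁ : Ideal (𝓞 M)} {l₁ : ℕ} (S₁ : Sm c₁ l₁)
    (e₁ : η c₁ = -1) (g₁ : g ⊔ span {(l₁ : 𝓞 M)} = ⊤) (h r : ℕ) (h0 : 0 < h) {ε : ℝ} (hε : 0 < ε) :
    ∃ m0 : ℕ, ∀ m, m0 ≤ m → ∃ A0 : ℕ, ∀ e A : ℕ, A0 ≤ e → A0 ≤ A →
    ∀ lam : Ideal (𝓞 K) → ℂ, La J h (2 ^ e) lam →
    ∀ (W : Fin (r + 1) → Ideal (𝓞 M)) (Φ : Ideal (𝓞 M) → ZMod (2 ^ A))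
      (φ : Fin (r + 1) → M → ZMod (2 ^ A)) (W' : Fin (r + 1) → Ideal (𝓞 N))
      (Φ' : Ideal (𝓞 N) → ZMod (2 ^ A)) (φ' : Fin (r + 1) → N → ZMod (2 ^ A)),
      Aux (2 * l) A W Φ φ → Aux (2 * l) A W' Φ' φ' → (∀ i, (l₁ : 𝓞 M) ∉ W i) →
      (∀ i, η (W i) = -1) → (∀ i, W' i = (W i).map (algebraMap (𝓞 M) (𝓞 N))) →
      (∀ I, I ≠ ⊥ → (∀ i, I ⊔ W' i = ⊤) → Φ' I = Φ (relNorm (𝓞 M) I)) →
      ∀ γ R γ' R', Gb ι J W m γ → Rp ι J W m (2 * l) R → Gb ι J W' m γ' → Rp ι J W' m (2 * l) R' →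
      |rg ι J b' m l φ' γ' R' - rg ι J b m l φ γ R * ((1 / 2) ^ (r + 1) *
        (sc Ω (dv ι J b) n (2 * h * 2 ^ e) * ‖ι (∑' I, η I * lam (relNorm (𝓞 K) I))‖))| ≤ ε := by
  obtain ⟨C₁, D₁⟩ := HB K ι J Ω B M n b v c l S
  obtain ⟨C₂, D₂⟩ := HB K ι J Ω B N n' b' v' c' l S'
  obtain ⟨C₃, D₃⟩ := HB K ι J Ω B M n b v c₁ l₁ S₁
  obtain ⟨C, C0, k₁, k₂, k₃⟩ : ∃ C, 0 ≤ C ∧ C₁ ≤ C ∧ C₂ ≤ C ∧ C₃ ≤ C :=
    ⟨max (max 0 C₁) (max C₂ C₃), by simp, by simp, by simp, by simp⟩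
  have hn : n' = n * 2 := by
    have := finrank_mul_finrank K M N
    rwa [finrank_eq_card_basis b, finrank_eq_card_basis b', d2, Fintype.card_fin, Fintype.card_fin,
      eq_comm] at this
  set δ := ‖(1 + l₁ : ℂ_[2])‖ with hδ
  have δ0 : 0 < δ := norm_pos_iff.2 (by exact_mod_cast (by omega : 1 + l₁ ≠ 0))
  set ε' := ε / 2 / (1 + (C + 1) / δ + C / δ) with hε'
  have ε0 : 0 < ε' := by positivity
  obtain ⟨m₁, L₁⟩ := HL K ι J Ω B M n b v c l S h r h0 ε' ε0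
  obtain ⟨m₂, L₂⟩ := HL K ι J Ω B N n' b' v' c' l S' h r h0 ε' ε0
  refine ⟨max m₁ m₂, fun m hm => ?_⟩
  obtain ⟨A₁, L₁⟩ := L₁ m (le_of_max_le_left hm)
  obtain ⟨A₂, L₂⟩ := L₂ m (le_of_max_le_right hm)
  obtain ⟨A₃, s₃⟩ := ex_small (δ := min (δ / 2) (ε / 2 * δ / ((C * C + C) * r + 1))) (by positivity)
  refine ⟨max (max A₁ A₂) (max A₃ 1), fun e A he hA lam La W Φ φ W' Φ' φ' X X' hl hW eW eΦ γ R γ' R'
    q1 q2 q3 q4 => ?_⟩
  simp only [max_le_iff] at he hA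
  obtain ⟨z₁, y₁⟩ := L₁ e A he.1.1 hA.1.1 lam La W Φ φ X γ q1 R q2
  obtain ⟨z₂, y₂⟩ := L₂ e A he.1.2 hA.1.2 lam La W' Φ' φ' X' γ' q3 R' q4
  have p2 : 2 ≤ 2 ^ e := le_self_pow₀ one_le_two (by omega)
  have hk : 3 ≤ 2 * h * 2 ^ e := by nlinarith
  have hs : (2 : ℝ) ≤ h * (2 ^ e : ℕ) := by exact_mod_cast (by nlinarith : 2 ≤ h * 2 ^ e)
  set k := 2 * h * 2 ^ e
  set a : Ideal (𝓞 M) → ℂ := fun I => lam (relNorm (𝓞 K) I) with ha
  set a' : Ideal (𝓞 N) → ℂ := fun I => lam (relNorm (𝓞 K) I) with ha'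
  have H : HC J k ⊤ a := la_hc B La
  have H' : HC J k ⊤ a' := la_hc B La
  have Hη := hc_mul H E
  have n₁ : ∀ I, ‖rs W a I‖ ≤ _ := fun I => (rs_le I).trans (la_le B La hs I)
  have n₀ : ∀ I, ‖η I * a I‖ ≤ (absNorm I : ℝ) ^ (-2 : ℝ) := fun I => by
    rw [norm_mul]
    exact (mul_le_of_le_one_left (norm_nonneg _) (η1 I)).trans (la_le B La hs I)
  have u₁ := sum_of one_lt_two n₁
  have u₂ : Summable (rs W' a') := sum_of one_lt_two fun I => (rs_le I).trans (la_le B La hs I)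
  have u₀ := sum_of one_lt_two n₀
  have u₃ : Summable (rs W fun I => η I * a I) :=
    sum_of one_lt_two fun I => (rs_le I).trans (n₀ I)
  have w₁ := fun i => cop_of (X.max i) (sm_mem S).2 (aux_two X i).2
  have w₂ := fun i => cop_of (X'.max i) (sm_mem S').2 (aux_two X' i).2
  have w₃ := fun i => cop_of (X.max i) (sm_mem S₁).2 (hl i)
  have dp := dv_pos (ι := ι) (J := J) b
  have sp := sc_pos B dp n k
  simp only [zz_eq u₁ w₁] at z₁ y₁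
  simp only [zz_eq u₂ w₂] at z₂ y₂
  have b₁ := fun x => (mu_bd (s := fun k => sc Ω (dv ι J b) n k) D₁ S X
    (fun i => (aux_two X i).2) hk H pv_top (by simp) u₁ x).trans k₁
  have b₂ := fun x => (mu_bd (s := fun k => sc Ω (dv ι J b') n' k) D₂ S' X'
    (fun i => (aux_two X' i).2) hk H' pv_top (by simp) u₂ x).trans k₂
  have b₃ := fun x => (mu_bd (s := fun k => sc Ω (dv ι J b) n k) D₃ S₁ X hl hk Hη
    (pv_mul pv_top pg) (by rwa [top_mul, sup_comm]) u₃ x).trans k₃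
  have es : sc Ω (dv ι J b') n' k = sc Ω (dv ι J b) n k * sc Ω (dv ι J b) n k := by
    rw [hd, hn, sc_sq dp]
  simp only [es] at z₂ y₂ b₂
  have rr : ∀ I, rs W' a' I = rs W a (relNorm (𝓞 M) I) := fun I => by
    simp only [rs, ha, ha', rn_rn, eW, cop_rn (X.max _)]
  have tt : rs W (fun I => η I * a I) c₁ = -a c₁ := by simp only [rs, if_pos w₃, e₁, neg_one_mul]
  have hid : ∀ ω : AddChar (ZMod (2 ^ A)) ℂ, (1 - l₁ * -a c₁ * ω (Φ c₁)) *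
      ∑ x, mu (rs W' a') Φ' c' l x * ω x = (∑ x, mu (rs W a) Φ c l x * ω x) *
        ∑ x, mu (rs W fun I => η I * a I) Φ c₁ l₁ x * ω x := fun ω => by
    have k1 := (Al.eul_cyc d2 ⟨E.one, E.mul⟩ η1 (tw_cm X (rs_hc H)
      (fun i => Ideal.mul_le_right.trans (prod_le i)) ω) (by simp [rs, (H.zero ⊥).2 (.inl rfl)])
      one_lt_two (fun I => by rw [norm_mul, ω.norm_apply, mul_one]; exact n₁ I)
      fun P p _ => G P p).2.2
    have k2 : ∑' I, rs W' a' I * ω (Φ' I) =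
        ∑' I : Ideal (𝓞 N), rs W a (relNorm (𝓞 M) I) * ω (Φ (relNorm (𝓞 M) I)) :=
      tsum_congr fun I => by
        by_cases k : rs W' a' I = 0
        · rw [← rr, k, zero_mul, zero_mul]
        · rw [(rs_hc H').zero, not_or, not_not, top_mul, cop_prod] at k
          rw [rr, eΦ I k.1 k.2]
    have k3 : ∑' I, rs W (fun I => η I * a I) I * ω (Φ I) = ∑' I, rs W a I * ω (Φ I) * η I :=
      tsum_congr fun I => by simp only [rs]; split_ifs <;> ring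
    rw [mu_ch u₁, mu_ch u₂, mu_ch u₃, k2, k3, k1, tt, rr, eΦ c' (sm_mem S').1 w₂, hc]
    simp only [Finset.prod_range_succ, Finset.prod_range_zero, pow_zero, pow_one, mul_one, one_mul]
    ring
  have o₁ : ‖ι (a c₁) - 1‖ ≤ (1 / 2) ^ (e + 2) := la_one B La (sm_pv S₁)
  have sm₁ : (1 / 2 : ℝ) ^ (e + 2) ≤ δ / 2 := (s₃ _ (by omega)).trans (min_le_left _ _)
  have sm₂ : (1 / 2 : ℝ) ^ (e + 2) < 1 / 2 := by
    rw [pow_add]; nlinarith [pow_le_one₀ (n := e) (by norm_num : (0 : ℝ) ≤ 1 / 2) (by norm_num)]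
  have o₂ : ‖ι (l₁ * -a c₁)‖ ≤ 1 := by
    rw [map_mul, map_natCast, map_neg, norm_mul, norm_neg, ← add_sub_cancel 1 (ι (a c₁))]
    exact mul_le_one₀ (nat_le _) (norm_nonneg _) (add_le norm_one.le (by linarith))
  have o₃ : ‖1 - ι (l₁ * -a c₁)‖ = δ := by
    rw [map_mul, map_natCast, map_neg, show 1 - l₁ * -ι (a c₁) = 1 + l₁ + l₁ * (ι (a c₁) - 1) by ring]
    refine add_eq ?_
    rw [norm_mul]
    exact (mul_le_of_le_one_left (norm_nonneg _) (nat_le _)).trans_lt (by linarith)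
  have o₄ : ‖ι (∑ x, mu (rs W fun I => η I * a I) Φ c₁ l₁ x)‖ =
      δ * ((1 / 2) ^ (r + 1) * ‖ι (∑' I, η I * a I)‖) := by
    have k1 := mu_ch (Φ := Φ) u₃ c₁ l₁ 1
    simp only [AddChar.one_apply, mul_one, tt] at k1
    rw [k1, rs_sum X.max (fun i => pv_ne (aux_pv (ι := ι) (J := J) X i)) X.inj
      ⟨Hη.one, Hη.mul⟩ u₀, map_mul, map_mul, norm_mul, norm_mul, map_sub, map_one, o₃, map_prod,
      norm_prod, mul_comm ‖_‖ (∏ _, _), Finset.prod_congr rfl (g := fun _ => (1 / 2 : ℝ)),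
      Finset.prod_const, Finset.card_univ, Fintype.card_fin]
    intro i _
    rw [hW, neg_one_mul, sub_neg_eq_add, map_add, map_one,
      show 1 + ι (a (W i)) = 2 + (ι (a (W i)) - 1) by ring, add_eq, nm_two]
    rw [nm_two]
    exact (la_one B La (aux_pv X i)).trans_lt sm₂
  have k1 := core ι hid o₂ sp sp ε0.le b₁ b₂ b₃ z₁ z₂
  have k2 : sc Ω (dv ι J b) n k * ‖ι (∑ x, mu (rs W fun I => η I * a I) Φ c₁ l₁ x)‖ ≤ C := by
    rw [map_sum, ← le_div_iff₀' sp]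
    exact sum_le _ _ (by positivity) fun x _ => (le_div_iff₀' sp).2 (b₃ x)
  rw [o₄, mul_left_comm, mul_left_comm (sc _ _ _ _)] at k2
  rw [o₃, o₄, mul_left_comm (sc _ _ _ _) δ, mul_left_comm (sc _ _ _ _) (_ ^ _)] at k1
  refine (fin_est y₁ y₂ k1 δ0 le_rfl (by positivity) k2).trans ?_
  have k3 := (s₃ A hA.2.1).trans (min_le_right _ _)
  rw [le_div_iff₀ (by positivity)] at k3
  have k4 : (C * C + C) * (r * (1 / 2) ^ A) / δ ≤ ε / 2 := by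
    rw [div_le_iff₀ δ0]
    nlinarith [pow_pos (by norm_num : (0 : ℝ) < 1 / 2) A]
  have k5 : ε' * (1 + (C + 1) / δ + C / δ) = ε / 2 := by rw [hε']; field_simp
  rw [add_div, mul_div_assoc ε']
  linarith

end Vale.Agent.P004C.Cm
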