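import Vale.Agent.P004C.Al.Nm
import Vale.Agent.P004C.Al.Eul
import Vale.Agent.P004R.Gl
import Vale.Agent.P022K.PB.Pw

/-!
# P004 C: ramification index and residue degree read off a Galois character
-/

set_option autoImplicit false
set_option linter.all false

open NumberField IsDedekindDomain
open scoped Classical

noncomputable section

namespace Vale.Agent.P004C.Al.Rc

open Vale.Agent.P022 Vale.Agent.P022.C Vale.Agent.P022.H916 Vale.Agent.P022K

variable {M M' : Type} [Field M] [NumberField M] [Field M'] [NumberField M'] [Algebra M M']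
  {j : M →+* Qb} {j' : M' →+* Qb} {A : Type} [Group A] {θ : GK j →* A}
  {v : HeightOneSpectrum (𝓞 M)} {P : Ideal (𝓞 Qb)}

theorem ex_dict (e : ∀ x, j' (algebraMap M M' x) = j x) (hk : ∀ g, θ g = 1 ↔ g.1 ∈ GK j') :
    IsGalois M M' ∧ ∃ ρ : GK j →* (M' ≃ₐ[M] M'), Dict j j' ρ :=
  P004R.Gl.ex_dict e fun g hg u hu => by
    have k : θ ⟨u, gk_le e hu⟩ = 1 := (hk _).2 hu
    have := (hk (⟨g, hg⟩ * ⟨u, gk_le e hu⟩ * ⟨g, hg⟩⁻¹)).1 (by
      rw [map_mul, map_mul, k, mul_one, ← map_mul, mul_inv_cancel, map_one])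
    simpa only [Subgroup.coe_mul, Subgroup.coe_inv] using this

section

variable {ρ : GK j →* (M' ≃ₐ[M] M')} (D : Dict j j' ρ) (hP : P.IsPrime)
  (hb : below j P = v.asIdeal)

include D hP hb

theorem over_mem : below j' P ∈ v.asIdeal.primesOver (𝓞 M') :=
  ⟨P004R.Gl.below_pr j' hP, hb ▸ P004R.Gl.lies D P⟩

theorem ram_card [IsGalois M M'] : (below j' P).ramificationIdx (𝓞 M) =
    Nat.card ((below j' P).inertia (M' ≃ₐ[M] M')) := by
  obtain ⟨_, _⟩ := over_mem D hP hb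
  have := v.isPrime
  have := v.isMaximal
  have : Finite (𝓞 M ⧸ v.asIdeal) := Ideal.finiteQuotientOfFreeOfNeBot _ v.ne_bot
  rw [Ideal.card_inertia_eq_ramificationIdxIn v.asIdeal,
    Ideal.ramificationIdxIn_eq_ramificationIdx v.asIdeal (below j' P) (M' ≃ₐ[M] M')]

end

variable (e : ∀ x, j' (algebraMap M M' x) = j x) (hk : ∀ g, θ g = 1 ↔ g.1 ∈ GK j')

include e hk

/-- unramified primes -/
theorem unr_deg (hv : ∀ g, InI j P g → θ g = 1) {g : GK j} (h : FrI j v P g) :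
    below j' P ∈ v.asIdeal.primesOver (𝓞 M') ∧ (below j' P).ramificationIdx (𝓞 M) = 1 ∧
      (below j' P).inertiaDeg (𝓞 M) = orderOf (θ g) := by
  obtain ⟨_, ρ, D⟩ := ex_dict e hk
  obtain ⟨l, hl, m⟩ := H565.exists_prime_mem v
  refine ⟨over_mem D h.1 h.2.1, ?_, ?_⟩
  · rw [ram_card D h.1 h.2.1, Subgroup.card_eq_one, eq_bot_iff]
    exact fun τ hτ => D.inertia_eq_bot h.1 (fun g hg => (D.ker g).2 ((hk g).1 (hv g hg))) hτ
  · rw [← P004R.Gl.ord D h.1 hl.ne_zero ((H651.natCast_mem_below j).1 (h.2.1 ▸ m))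
      (fun g a b => (hk ⟨g, a⟩).1 (hv _ b)) (h.2.1 ▸ h.2.2), orderOf_eq_orderOf_iff]
    intro n
    rw [← map_pow, ← map_pow, D.ker, hk]

/-- totally ramified primes -/
theorem ram_deg (hP : P.IsPrime) (hb : below j P = v.asIdeal)
    (hv : ∀ g, ∃ h, InI j P h ∧ θ h = θ g) : below j' P ∈ v.asIdeal.primesOver (𝓞 M') ∧
      (below j' P).ramificationIdx (𝓞 M) = Module.finrank M M' := by
  obtain ⟨_, ρ, D⟩ := ex_dict e hk
  refine ⟨over_mem D hP hb, ?_⟩
  rw [ram_card D hP hb, ← IsGalois.card_aut_eq_finrank, Subgroup.card_eq_iff_eq_top, eq_top_iff]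
  intro τ _
  obtain ⟨g, rfl⟩ := D.surj τ
  obtain ⟨h, a, b⟩ := hv g
  have : ρ g = ρ h := by
    rw [← inv_mul_eq_one, ← map_inv, ← map_mul, D.ker, ← hk, map_mul, map_inv, b, inv_mul_cancel]
  exact this ▸ D.inertia_push a

end Vale.Agent.P004C.Al.Rc
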