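import Vale.Agent.P004C.Al.St2
import Vale.Agent.P004C.Al.Gpd
import Vale.Agent.P004C.Al.Cmb3

/-!
# P004 C, block AL: the series in a cyclic step
-/

set_option linter.all false

open NumberField Module IsDedekindDomain Ideal
open scoped Classical

noncomputable section

namespace Vale.Agent.P004C.Al

open Vale.Agent.P022 Vale.Agent.P022.C Vale.Agent.P022.H916
open Vale.Agent.P027M.S (Pr Inert)
open Vale.Agent.P027M.M (ze)
open Vale.Agent.P022E.GW (Ov)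

namespace L3

variable {K M N : Type} [Field K] [NumberField K] [Field M] [NumberField M] [Field N]
  [NumberField N] [Algebra M N] {j : M →+* Qb} {j' : N →+* Qb} {θ : GQ → ℂ}
  {χ ψ : Ideal (𝓞 M) → ℂ} {χ' : Ideal (𝓞 N) → ℂ} {P : Ideal (𝓞 Qb)}

theorem ov {v : Pr M} {g : GK j} (h : FrI j v P g) : ∃ l, Ov l P :=
  let ⟨l, hl, m⟩ := H565.exists_prime_mem v
  ⟨l, hl, h.1, (H651.natCast_mem_below j).1 (h.2.1 ▸ m)⟩

theorem ic_fr (c : Ic j θ χ) {v : Pr M} {g : GK j} (h : FrI j v P g) :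
    χ v.asIdeal = if Rm j θ P then 0 else θ g := by
  obtain ⟨l, o⟩ := ov h
  rw [← h.2.1]
  split_ifs with r
  · exact c.ram l P o r
  · exact c.unr l P o r g g.2 (h.2.1 ▸ h.2.2)

theorem ic_le (h : ∀ g ∈ GK j, ‖θ g‖ ≤ 1) (c : Ic j θ χ) (I : Ideal (𝓞 M)) : ‖χ I‖ ≤ 1 := by
  induction I using UniqueFactorizationMonoid.induction_on_prime with
  | h₁ => rw [zero_eq_bot, c.bot, norm_zero]; exact zero_le_one
  | h₂ I u => rw [isUnit_iff_eq_one.1 u, c.cm.one, norm_one]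
  | h₃ I Q _ q k =>
    obtain ⟨P, g, a⟩ := H565.fre_exists j ⟨Q, isPrime_of_prime q, q.ne_zero⟩
    rw [c.cm.mul, norm_mul]
    refine mul_le_one₀ ((congrArg norm (ic_fr c a)).trans_le ?_) (norm_nonneg _) k
    split_ifs
    · simp
    · exact h _ g.2

theorem inr_pow {g : GQ} (h : Inert P g) (n : ℕ) : Inert P (g ^ n) :=
  (P.inertia GQ).pow_mem (x := g) h n

theorem pw (hm : ∀ g ∈ GK j, ∀ h ∈ GK j, θ (g * h) = θ g * θ h) {g : GQ} (hg : g ∈ GK j) (n : ℕ) :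
    θ (g ^ (n + 1)) = θ g ^ (n + 1) := by
  induction n with
  | zero => simp
  | succ n k => rw [pow_succ, hm _ (pow_mem hg _) _ hg, k, ← pow_succ]

variable (e : ∀ x, j' (algebraMap M N x) = j x)

include e

/-- restriction is composition with the norm -/
theorem ic_norm (hm : ∀ g ∈ GK j, ∀ h ∈ GK j, θ (g * h) = θ g * θ h)
    (hr : ∀ l P, Ov l P → Rm j θ P → Rm j' θ P) (c : Ic j θ χ) (c' : Ic j' θ χ') (I : Ideal (𝓞 N)) :
    χ (relNorm (𝓞 M) I) = χ' I := by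
  induction I using UniqueFactorizationMonoid.induction_on_prime with
  | h₁ => rw [zero_eq_bot, relNorm_bot, c.bot, c'.bot]
  | h₂ I u => rw [isUnit_iff_eq_one.1 u, map_one, c.cm.one, c'.cm.one]
  | h₃ I Q _ q k =>
    let w : Pr N := ⟨Q, isPrime_of_prime q, q.ne_zero⟩
    obtain ⟨P, g', a'⟩ := H565.fre_exists j' w
    obtain ⟨g, a⟩ := Rc.ex_fri (v := Rc.dw M w) a'.1 (by rw [Rc.below_dw e, a'.2.1, Rc.dw_eq])
    obtain ⟨l, o⟩ := ov a
    have := w.isMaximal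
    obtain ⟨f, hf⟩ := Nat.exists_eq_succ_of_ne_zero (inertiaDeg_pos w.asIdeal (𝓞 M)).ne'
    rw [map_mul, c.cm.mul, c'.cm.mul, k]
    congr 1
    refine (congrArg χ (Rc.rel_pr w)).trans ((ic_fr c' a').trans ?_).symm
    rw [c.cm.pow, ic_fr c a, hf]
    by_cases r : Rm j θ P
    · rw [if_pos r, if_pos (hr l P o r), zero_pow f.succ_ne_zero]
    have m := Rc.gk_le e g'.2
    have m' := pow_mem g.2 (f + 1)
    rw [if_neg r, if_neg fun ⟨x, x1, x2⟩ => r ⟨x, Rc.gk_le e x1, x2⟩, ← pw hm g.2,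
      ← inv_mul_cancel_right g'.1 (g.1 ^ (f + 1)), hm _ (mul_mem m (inv_mem m')) _ m',
      not_not.1 fun n => r ⟨_, mul_mem m (inv_mem m'), fun x => ?_, n⟩, one_mul]
    obtain ⟨y, rfl⟩ : ∃ y : 𝓞 Qb, x = (g.1 ^ (f + 1)) • y := ⟨_, (smul_inv_smul _ x).symm⟩
    have u := a'.2.2 y
    rw [Rc.abs_pr (M := M), hf] at u
    have := P.sub_mem u (P004R.Gl.frob_pow a.1
      (absNorm_eq_zero_iff.not.2 (Rc.dw M w).ne_bot) a.2.2 (f + 1) y)
    rwa [sub_sub_sub_cancel_right, ← inv_smul_smul (g.1 ^ (f + 1)) y, ← mul_smul g'.1,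
      inv_smul_smul] at this

variable {A : Type} [CommGroup A] {E : GK j →* A} (hk : ∀ g, E g = 1 ↔ g.1 ∈ GK j')

include hk

theorem rk (hs : Function.Surjective E) : finrank M N = Nat.card A := by
  obtain ⟨_, ρ, D⟩ := Rc.ex_dict e hk
  have : ρ.ker = E.ker := Subgroup.ext fun g => (D.ker g).trans (hk g).symm
  rw [← IsGalois.card_aut_eq_finrank, ← Subgroup.card_top, ← MonoidHom.range_eq_top_of_surjective ρ D.surj,
    ← Subgroup.index_ker, this, Subgroup.index_ker, MonoidHom.range_eq_top_of_surjective E hs,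
    Subgroup.card_top]

theorem gp (z : A →* ℂ) (i : Function.Injective z) (hθ : ∀ g : GK j, θ g = z (E g))
    (c : Ic j θ ψ) (hr : ∀ P, Rm j θ P → ∀ g, ∃ h, InI j P h ∧ E h = E g) (p : Ideal (𝓞 M))
    (hp : p.IsMaximal) : Gp N ψ p := by
  have q := Eu.prime_iff.2 hp
  obtain ⟨P, g, a⟩ := H565.fre_exists j ⟨p, hp.isPrime, q.ne_zero⟩
  have k := ic_fr c a
  by_cases r : Rm j θ P
  · obtain ⟨x, y⟩ := Rc.ram_deg e hk a.1 a.2.1 (hr P r)
    exact ⟨_, x, .inr ⟨k.trans (if_pos r), y⟩⟩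
  · obtain ⟨x, y, u⟩ := Rc.unr_deg e hk (fun h hh => i (by_contra fun n =>
      r ⟨h, h.2, hh, by rwa [hθ, ← map_one z]⟩)) a
    refine ⟨_, x, .inl ⟨y, ?_⟩⟩
    rw [u, k.trans (if_neg r), hθ]
    exact (IsPrimitiveRoot.orderOf _).map_of_injective i

omit e hk

theorem cop (w : Ideal (𝓞 M)) (I : Ideal (𝓞 N)) :
    relNorm (𝓞 M) I ⊔ w = ⊤ ↔ I ⊔ w.map (algebraMap (𝓞 M) (𝓞 N)) = ⊤ := by
  refine ⟨fun k => ?_, fun k => by_contra fun n => ?_⟩
  · have := congrArg (map (algebraMap (𝓞 M) (𝓞 N))) k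
    rw [Ideal.map_sup, Ideal.map_top] at this
    exact eq_top_iff.2 (this ▸ sup_le_sup_right (map_le_iff_le_comap.2 (relNorm_le_comap _ I)) _)
  · obtain ⟨m, a, b⟩ := exists_le_maximal _ n
    exact a.ne_top (top_unique (((Cm.cop_rn a I).2 (top_unique (k.ge.trans (sup_le_sup_left
      (map_mono (le_sup_right.trans b)) _)))).ge.trans (sup_le (le_sup_left.trans b) le_rfl)))

variable [Algebra K M] [Algebra K N] [IsScalarTower K M N] {ι : ℂ →+* ℂ_[2]} {J : K →+* ℂ} {Ω : ℝ}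

/-- **cyclic steps** -/
theorem ls_cyc [IsGalois M N] (B : Base ι J Ω) {d h a : ℕ} {lam : Ideal (𝓞 K) → ℂ}
    (hd : finrank M N = d) (h0 : 0 < h) (ha : 1 ≤ a) (L : La J h (2 ^ a) lam) (c : Cm χ)
    (c1 : ∀ I, ‖χ I‖ ≤ 1) (hn : ∀ I, χ (relNorm (𝓞 M) I) = χ' I) (p : Cm ψ) (p1 : ∀ I, ‖ψ I‖ ≤ 1)
    (g : ∀ P, P.IsMaximal → χ P ≠ 0 → Gp N ψ P) (s : 𝓞 K) :
    Ls s lam χ' = ∏ i ∈ Finset.range d, Ls s lam fun I => χ I * ψ I ^ i := by
  have l := Cm.la_cm B L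
  have k := (eul_cyc (M' := N) (a := fun I => if I ⊔ span {algebraMap (𝓞 K) (𝓞 M) s} = ⊤ then
      χ I * lam (relNorm (𝓞 K) I) else 0) hd p p1 ⟨by simp [← one_eq_top, c.one, l.one], fun I I' => by
      simp only [Cm.mul_cop, map_mul, c.mul, l.mul, ite_and]
      split_ifs <;> ring⟩ (by simp [L.1]) one_lt_two (fun I => ?_) fun P m n => g P m fun z =>
      n (by simp [z])).2.2
  · refine Eq.trans (tsum_congr fun I => ?_) (k.trans (Finset.prod_congr rfl fun i _ =>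
      tsum_congr fun I => by split_ifs <;> ring))
    rw [hn, Cm.rn_rn]
    refine if_congr ?_ rfl rfl
    rw [cop, map_span, Set.image_singleton, ← IsScalarTower.algebraMap_apply]
  · split_ifs
    · rw [norm_mul]
      refine (mul_le_of_le_one_left (norm_nonneg _) (c1 I)).trans (Cm.la_le B L ?_ I)
      exact_mod_cast Nat.mul_le_mul h0 (Nat.pow_le_pow_right two_pos ha)
    · rw [norm_zero]; positivity

theorem ze_eq {n : ℕ} [NeZero n] (x : ZMod n) : ze n x.val = ZMod.stdAddChar x := by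
  rw [ZMod.stdAddChar_apply, ZMod.toCircle_apply, ze]
  simp

end L3

open L3

theorem lf3 : LF3 := by
  intro K M N _ _ _ _ _ _ _ _ _ _ ι J Ω B j j' θ k e c G ad hk ⟨t, t1, t2⟩ χ χ' ψ x x' y s h a i lam
    h0 ha L
  let E : GK j →* Multiplicative (ZMod 3) :=
    .mk' (fun g => .ofAdd (e g)) fun g h => congrArg Multiplicative.ofAdd (ad _ g.2 _ h.2)
  have hE : ∀ g, E g = 1 ↔ g.1 ∈ GK j' := fun g => by
    rw [hk, and_iff_right g.2]; rfl
  have z : ∀ u v : Multiplicative (ZMod 3), u ≠ 1 → ∃ n < 3, u ^ n = v := by decide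
  have := (Rc.ex_dict c hE).1
  have r : finrank M N = 3 := (rk c hE fun v => let ⟨n, _, w⟩ := z (E ⟨t, t1⟩) v t2
    ⟨_ ^ n, (map_pow _ _ _).trans w⟩).trans (by simp)
  have n1 : ∀ g ∈ GK j, ‖θ g‖ ≤ 1 := fun g hg =>
    (Complex.norm_eq_one_of_pow_eq_one (G.pow g hg) G.pos.ne').le
  have z3 : ∀ u : Multiplicative (ZMod 3), u ^ 3 = 1 := by decide
  have := ls_cyc (χ' := fun I => χ' I ^ (i + 1)) B r h0 ha L (x.cm.npow (i + 1)) (fun I =>
    (norm_pow _ _).trans_le (pow_le_one₀ (norm_nonneg _) (ic_le n1 x I))) (fun I => by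
      rw [ic_norm c G.mul (fun l P _ ⟨g, g1, g2, g3⟩ => ⟨g ^ 3, (hE (⟨g, g1⟩ ^ 3)).1
        ((map_pow _ _ _).trans (z3 _)), inr_pow g2 3, fun w => g3 ((pow_eq_one_iff_of_coprime
          (Nat.Coprime.pow_right k (by norm_num : Nat.Coprime 3 2))).1
          ⟨(pw G.mul g1 2).symm.trans w, G.pow g g1⟩)⟩) x x']) y.cm (ic_le (fun g _ => by rw [ze_eq]; simp) y) (fun P m _ => gp c hE
        ZMod.stdAddChar.toMonoidHom ZMod.injective_stdAddChar (fun g => ze_eq _) y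
        (fun P ⟨g, g1, g2, g3⟩ u => ?_) P m) s
  · simpa [Finset.prod_range_succ] using this
  · obtain ⟨n, -, w⟩ := z (E ⟨g, g1⟩) (E u) fun w => g3 ((ze_eq _).trans (by
      rw [show e g = 0 from w, AddChar.map_zero_eq_one]))
    exact ⟨(⟨g, g1⟩ : GK j) ^ n, (inr_pow g2 n :), (map_pow _ _ _).trans w⟩

end Vale.Agent.P004C.Al
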