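import Vale.Agent.P004C.Al.St
import Vale.Agent.P004C.Al.Gbx
import Mathlib.GroupTheory.IndexNSmul

/-!
# P004 C, block AL, row PAI: quadratic pairs
-/

set_option linter.unusedSectionVars false

open NumberField Module IsDedekindDomain
open scoped Classical

noncomputable section

namespace Vale.Agent.P004C.Al

open Vale.Agent.P027M.S (Pr)
open Vale.Agent.P022K.Exi (od od_one od_int)

namespace Pi2

section

variable {G X : Type} [AddCommGroup G] [CommGroup X]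

theorem rk_eq {P Q : Submodule ℤ G} [Module.Finite ℤ Q] (h : P ≤ Q) {N : ℕ} (N0 : N ≠ 0)
    (k : ∀ x ∈ Q, N • x ∈ P) : finrank ℤ P = finrank ℤ Q := by
  have h1 := Submodule.finrank_quotient_add_finrank (P.comap Q.subtype)
  rw [(Submodule.comapSubtypeEquivOfLe h).finrank_eq, Module.finrank_eq_zero_iff.2, zero_add] at h1
  · exact h1
  · intro x
    obtain ⟨x, rfl⟩ := Submodule.Quotient.mk_surjective _ x
    refine ⟨N, by exact_mod_cast N0, ?_⟩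
    rw [← Submodule.Quotient.mk_smul, Submodule.Quotient.mk_eq_zero]
    simpa using k x x.2

theorem rk_ker (Q : Submodule ℤ G) [Module.Finite ℤ Q] (f : G →ₗ[ℤ] G) :
    finrank ℤ (Q.map f) + finrank ℤ (Q ⊓ LinearMap.ker f : Submodule ℤ G) = finrank ℤ Q := by
  have h1 := Submodule.finrank_quotient_add_finrank (LinearMap.ker (f.domRestrict Q))
  rw [(f.domRestrict Q).quotKerEquivRange.finrank_eq, LinearMap.range_domRestrict,
    LinearMap.ker_domRestrict] at h1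
  rw [← h1, ← Submodule.map_comap_subtype, Submodule.finrank_map_subtype_eq]

/-- a subgroup as a module -/
def ad (P : Subgroup X) : Submodule ℤ (Additive X) := P.toAddSubgroup.toIntSubmodule

theorem i2_eq (P : Subgroup X) [Module.Finite ℤ (ad P)] (tf : ∀ x ∈ P, ∀ k : ℕ, k ≠ 0 →
    x ^ k = 1 → x = 1) : i2 P = 2 ^ finrank ℤ (ad P) := by
  have : IsAddTorsionFree (ad P) := ⟨fun k k0 x y e => by
    have := tf (x - y).1.toMul (x - y).2 k k0 (congrArg Subtype.val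
      (show k • (x - y) = 0 by rw [smul_sub]; exact sub_eq_zero.2 e))
    exact sub_eq_zero.1 (Subtype.ext this)⟩
  have : Module.Finite ℤ P.toAddSubgroup.toIntSubmodule := ‹Module.Finite ℤ (ad P)›
  have : Module.Free ℤ P.toAddSubgroup.toIntSubmodule := (inferInstance : Module.Free ℤ (ad P))
  exact AddSubgroup.relIndex_map_nsmul 2 P.toAddSubgroup

theorem i2_ker {P Q : Subgroup X} [Module.Finite ℤ (ad P)] [Module.Finite ℤ (ad Q)] (s : X →* X)
    (le : P ≤ Q) (fx : ∀ x ∈ P, s x = x) (st : ∀ x ∈ Q, x * s x ∈ P)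
    (tf : ∀ x ∈ Q, ∀ k : ℕ, k ≠ 0 → x ^ k = 1 → x = 1) {r : ℕ}
    (h : finrank ℤ (ad P) + r = finrank ℤ (ad Q)) : i2 (Q ⊓ (nm s).ker) = 2 ^ r := by
  have k := rk_ker (ad Q) (nm s).toAdditive.toIntLinearMap
  rw [rk_eq (G := Additive X) (Q := ad P) (N := 2)
    (P := (ad Q).map (nm s).toAdditive.toIntLinearMap) (fun _ ⟨x, hx, e⟩ => e ▸ st _ hx)
    two_ne_zero fun x hx => ⟨x, le hx, (congrArg (x.toMul * ·) (fx _ hx)).trans (pow_two _).symm⟩,
    ← h] at k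
  have : Module.Finite ℤ (ad (Q ⊓ (nm s).ker)) := Module.Finite.of_injective
    (Submodule.inclusion (show _ ≤ ad Q from fun _ h => h.1)) (Submodule.inclusion_injective _)
  rw [i2_eq (Q ⊓ (nm s).ker) fun x hx => tf x hx.1, ← Nat.add_left_cancel k]
  rfl

end

variable {K : Type} [Field K] [NumberField K] {ι : ℂ →+* ℂ_[2]} {J : K →+* ℂ}
  {A : Type} [Field A] [NumberField A] [Algebra K A]

theorem pj_em (p : Dv A) : pj ∅ p = p := funext fun P => by simp [pj]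

theorem dd_eq (S : Set (Pr A)) (x : Aˣ) : dd S x = pj S (dd ∅ x) := by
  rw [dd, dd, MonoidHom.comp_apply, MonoidHom.comp_apply, pj_em]

theorem il_eq (L : Type) [Field L] [Algebra L A] (S : Set (Pr A)) :
    IL L S = (IL L ∅).map (pj S) := by
  rw [IL, IL, Subgroup.map_map]
  exact congrArg (Subgroup.map · _) (MonoidHom.ext fun p => congrArg _ (pj_em p).symm)

theorem dd_one {S : Set (Pr A)} {x : Aˣ} : dd S x = 1 ↔ ∀ P ∉ S, od P x = 1 := by
  rw [funext_iff]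
  refine forall_congr' fun P => ?_
  by_cases h : P ∈ S <;> simp [dd, pj, h]

theorem int_of {x : Aˣ} (h : dd ∅ x = 1) : IsIntegral ℤ (x : A) := by
  obtain ⟨z, e⟩ := HeightOneSpectrum.mem_integers_of_valuation_le_one A (x : A) fun v =>
    (od_one.1 (dd_one.1 h v fun k => k)).le
  exact e ▸ z.isIntegral_coe

theorem rk_unit {Ω : ℝ} (B : Base ι J Ω) (U : UMF) (L : Type) [Field L] [NumberField L]
    [Algebra K L] [Algebra L A] [IsScalarTower K L A] {m : ℕ} (hm : 1 ≤ m) :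
    Module.Finite ℤ (ad (UL ι J L m ⊓ (dd ∅).ker : Subgroup Aˣ)) ∧
    finrank ℤ (ad (UL ι J L m ⊓ (dd ∅).ker : Subgroup Aˣ)) + 1 = finrank K L := by
  obtain ⟨-, u1, -, u2⟩ := U K ι J Ω B A
  let f : (𝓞 L)ˣ →* Aˣ := Units.map ((algebraMap L A).comp (algebraMap (𝓞 L) L) : 𝓞 L →* A)
  have fi : Function.Injective f :=
    Units.map_injective ((algebraMap L A).injective.comp RingOfIntegers.coe_injective)
  let F : Additive (𝓞 L)ˣ →ₗ[ℤ] Additive Aˣ := f.toAdditive.toIntLinearMap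
  have le : ad (UL ι J L m ⊓ (dd ∅).ker : Subgroup Aˣ) ≤ LinearMap.range F := by
    rintro x ⟨⟨-, y, rfl⟩, h⟩
    have k : ∀ y : Lˣ, dd ∅ (Units.map (algebraMap L A : L →* A) y) = 1 → IsIntegral ℤ (y : L) :=
      fun y h => (isIntegral_algebraMap_iff (algebraMap L A).injective).1 (int_of h)
    exact ⟨(⟨⟨y, k y h⟩, ⟨(y⁻¹ : Lˣ), k y⁻¹ (by rw [map_inv, map_inv, inv_eq_one]; exact h)⟩,
      RingOfIntegers.ext y.mul_inv, RingOfIntegers.ext y.inv_mul⟩ : (𝓞 L)ˣ), Units.ext rfl⟩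
  obtain ⟨N, N0, hN⟩ := Gx.pow_v1 (ι := ι) (J := J) (M := A) m
  refine ⟨Module.Finite.of_injective (Submodule.inclusion le) (Submodule.inclusion_injective _), ?_⟩
  rw [rk_eq le N0, LinearMap.finrank_range_of_inj fi, Units.finrank_eq, Gx.rank_eq B rfl]
  rintro _ ⟨u, rfl⟩
  have hu := (Units.isUnit u.toMul).map (algebraMap (𝓞 L) (𝓞 A))
  show f u.toMul ^ N ∈ (UL ι J L m ⊓ (dd ∅).ker : Subgroup Aˣ)
  refine Subgroup.mem_inf.2 ⟨Subgroup.mem_inf.2 ⟨(u1 m _ hm).2 ?_,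
    pow_mem (MonoidHom.mem_range.2 ⟨Units.map (algebraMap (𝓞 L) L : 𝓞 L →* L) u.toMul, rfl⟩) N⟩,
    pow_mem ?_ N⟩
  · rw [Units.val_pow_eq_pow_val]
    exact hN (algebraMap (𝓞 L) (𝓞 A) u.toMul)
      (by rw [Ideal.span_singleton_eq_top.2 hu, top_sup_eq])
  exact dd_one.2 fun P _ => (od_int (a := algebraMap (𝓞 L) (𝓞 A) u.toMul) rfl).2
    (P.asIdeal.notMem_of_isUnit hu)

theorem val_le {P : Pr A} (h : Av ι J P.asIdeal) {y : A} (hy : y ∈ Gx.Ov ι J A) :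
    P.valuation A y ≤ 1 := by
  obtain ⟨s, h1, h2⟩ := hy
  have h3 : P.valuation A (algebraMap (𝓞 A) A (algebraMap (𝓞 K) (𝓞 A) s) * y) ≤ 1 :=
    P.valuation_le_one (K := A) ⟨_, h2⟩
  have h4 := (P.valuation_eq_one_iff_notMem (K := A)).2 fun k => h.2 ⟨s, h1, k⟩
  rwa [map_mul, h4, one_mul] at h3

theorem val_one {L L₂ : Type} [Field L] [NumberField L] [Field L₂] [NumberField L₂] [Algebra L L₂]
    [Algebra L A] [Algebra L₂ A] [IsScalarTower L L₂ A] (σ : L₂ ≃ₐ[L] L₂) (σσ : ∀ y, σ (σ y) = y)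
    (P : Pr A) (h : Ine L₂ (P.asIdeal.comap (algebraMap (𝓞 L) (𝓞 A)))) {y : L₂}
    (e : y * σ y = 1) : P.valuation A (algebraMap L₂ A y) = 1 := by
  set q := (P.asIdeal.comap (algebraMap (𝓞 L) (𝓞 A))).map (algebraMap (𝓞 L) (𝓞 L₂)) with hq
  have h1 : q = P.asIdeal.comap (algebraMap (𝓞 L₂) (𝓞 A)) :=
    h.eq_of_le (Ideal.comap_ne_top _ P.isPrime.ne_top) (Ideal.map_le_iff_le_comap.2 fun x hx => by
      rwa [Ideal.mem_comap, Ideal.mem_comap, ← IsScalarTower.algebraMap_apply])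
  let t := RingOfIntegers.mapRingHom (σ : L₂ →+* L₂)
  have h2 : q.map t = q := by
    rw [hq, Ideal.map_map]
    exact congrArg (Ideal.map · _) (RingHom.ext fun x => RingOfIntegers.ext (σ.commutes x))
  have h3 : ∀ b, b ∉ q → P.valuation A (algebraMap L₂ A (b : 𝓞 L₂)) = 1 := fun b hb =>
    (P.valuation_eq_one_iff_notMem (K := A) (r := algebraMap (𝓞 L₂) (𝓞 A) b)).2 (h1 ▸ hb :)
  have key : ∀ y : L₂, y * σ y = 1 → ∀ a b : 𝓞 L₂, b ∉ q → y = a * (b : L₂)⁻¹ →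
      P.valuation A (algebraMap L₂ A y) = 1 := fun y e a b hb k => by
    have b0 : (b : L₂) ≠ 0 := fun z => hb (RingOfIntegers.coe_eq_zero_iff.1 z ▸ q.zero_mem)
    have e1 : a * t a = b * t b := RingOfIntegers.ext (by
      show (a : L₂) * σ a = b * σ b
      rw [k, map_mul, map_inv₀] at e
      have := (map_ne_zero σ).2 b0
      field_simp at e
      exact e)
    have ha : a ∉ q := fun z => (h.isPrime.mem_or_mem (e1 ▸ q.mul_mem_right _ z)).elim hb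
      fun z => hb ((RingOfIntegers.ext (σσ b) : t (t b) = b) ▸ h2 ▸ Ideal.mem_map_of_mem t z)
    rw [k, map_mul, map_mul, map_inv₀, map_inv₀, h3 a ha, h3 b hb, inv_one, mul_one]
  let w : HeightOneSpectrum (𝓞 L₂) := ⟨q, h.isPrime,
    Ring.ne_bot_of_isMaximal_of_not_isField h (RingOfIntegers.not_isField L₂)⟩
  rcases (w.valuationSubringAtPrime L₂).mem_or_inv_mem y with ⟨a, b, hb, k⟩ | ⟨a, b, hb, k⟩
  · exact key y e a b hb k
  · have := key y⁻¹ (by rw [map_inv₀, ← mul_inv, e, inv_one]) a b hb k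
    rwa [map_inv₀, map_inv₀, inv_eq_one] at this

end Pi2

open Pi2 in
theorem pai (U : UMF) (V : DVF) : PAI := by
  intro K _ _ ι J Ω B A L L₂ _ _ _ _ _ _ _ _ _ _ _ _ _ _ _ _ τ ⟨two, σ, σ1, hσ, θ, hθ, tr⟩
  obtain ⟨-, u1, u2, u3⟩ := U K ι J Ω B A
  obtain ⟨d1, -, d2⟩ := V K ι J Ω B A
  obtain ⟨e1, e2, -, -, e3⟩ := d2 L
  obtain ⟨f1, -, f2, -⟩ := d2 L₂
  obtain ⟨g1, g2, -⟩ := e3 L₂
  have : Algebra.IsQuadraticExtension L L₂ := ⟨two⟩
  have hc : Nat.card Gal(L₂/L) = 2 := by rw [IsGalois.card_aut_eq_finrank, two]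
  have ho : orderOf σ = 2 := orderOf_eq_prime (hc ▸ pow_card_eq_one') σ1
  have σσ : ∀ y, σ (σ y) = y := fun y => by
    rw [← AlgEquiv.mul_apply, ← pow_two, ← ho, pow_orderOf_eq_one, AlgEquiv.one_apply]
  have fix : ∀ y, σ y = y → ∃ z, algebraMap L L₂ z = y := fun y h =>
    (IsGalois.mem_range_algebraMap_iff_fixed y).2 fun g => by
      obtain ⟨b, hb, k⟩ := (Nat.card_eq_two_iff' 1).1 hc
      by_cases g1 : g = 1
      · rw [g1, AlgEquiv.one_apply]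
      · rw [k g g1, ← k σ σ1, h]
  have tw : ∀ y, algebraMap L A y = algebraMap L₂ A (algebraMap L L₂ y) :=
    IsScalarTower.algebraMap_apply L L₂ A
  have τL : ∀ y, τ (algebraMap L A y) = algebraMap L A y := fun y => by
    rw [tw, ← hσ, σ.commutes]
  have rg : ∀ (M : Type) [Field M] [Algebra M A] (x : Aˣ),
      x ∈ (Units.map (algebraMap M A : M →* A)).range ↔ ∃ y, algebraMap M A y = x :=
    fun M _ _ x => ⟨fun ⟨y, e⟩ => ⟨y, congrArg Units.val e⟩, fun ⟨y, e⟩ =>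
      ⟨Units.mk0 y fun k => x.ne_zero (by rw [← e, k, map_zero]), Units.ext e⟩⟩
  have le : ∀ m, UL ι J L m ≤ (UL ι J L₂ m : Subgroup Aˣ) := fun m x ⟨a, b⟩ =>
    let ⟨y, e⟩ := (rg L x).1 b
    ⟨a, (rg L₂ x).2 ⟨_, (tw y).symm.trans e⟩⟩
  have fx : ∀ m, ∀ x ∈ (UL ι J L m : Subgroup Aˣ), ua τ x = x := fun m x ⟨a, b⟩ =>
    let ⟨y, e⟩ := (rg L x).1 b
    Units.ext (show τ x = x by rw [← e, τL])
  have st : ∀ m, ∀ x ∈ (UL ι J L₂ m : Subgroup Aˣ), ua τ x ∈ UL ι J L₂ m ∧ ua τ (ua τ x) = x ∧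
      x * ua τ x ∈ UL ι J L m := fun m x ⟨a, b⟩ => by
    obtain ⟨y, e⟩ := (rg L₂ x).1 b
    have a' := u2 m τ ⟨x, a, rfl⟩
    obtain ⟨z, hz⟩ := fix (y * σ y) (by rw [map_mul, σσ, mul_comm])
    refine ⟨⟨a', (rg L₂ _).2 ⟨σ y, ?_⟩⟩, Units.ext ?_, mul_mem a a', (rg L _).2 ⟨z, ?_⟩⟩
    · rw [hσ, e]
      rfl
    · show τ (τ x) = x
      rw [← e, ← hσ, ← hσ, σσ]
    · rw [tw, hz, map_mul, hσ, e]
      rfl
  have on : ∀ m, 1 ≤ m →
      UL ι J L m ≤ (UL ι J L₂ m).map (nm (ua τ)) ⊔ UL ι J L (m + 1) := fun m hm x ⟨a, b⟩ => by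
    obtain ⟨y, e⟩ := (rg L x).1 b
    obtain ⟨c, hc, ec⟩ := Gx.v1_iff.1 ((u1 m x hm).1 a)
    have ht : algebraMap L₂ A θ ∈ Gx.Ov ι J A := ((u3 L₂).1 θ).2 hθ
    have t1 : τ (algebraMap L₂ A θ) = 1 - algebraMap L₂ A θ := by
      rw [← hσ, ← map_one (algebraMap L₂ A), ← tr, map_add, add_sub_cancel_left]
    have v : V1 ι J m (1 + (x - 1) * algebraMap L₂ A θ) :=
      Gx.v1_iff.2 ⟨_, mul_mem hc ht, by rw [ec]; ring⟩
    have hw : Units.mk0 _ (Gx.v1_unit hm v).1 ∈ UL ι J L₂ m := ⟨(u1 m _ hm).2 v,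
      (rg L₂ _).2 ⟨1 + (algebraMap L L₂ y - 1) * θ, by simp [← tw, e]⟩⟩
    set w := Units.mk0 _ (Gx.v1_unit hm v).1
    rw [← mul_inv_cancel_left (w * ua τ w) x, ← inv_inv x, ← mul_inv]
    refine mul_mem (Subgroup.mem_sup_left ⟨w, hw, rfl⟩) (Subgroup.mem_sup_right (inv_mem
      ⟨(u1 _ _ (by omega)).2 (Gx.v1_mono (m' := 2 * m) (by omega) (Gx.v1_iff.2
        ⟨_, mul_mem (mul_mem (mul_mem hc hc) (mul_mem ht (sub_mem (one_mem _) ht)))
          (Gx.v1_unit hm ((u1 m x hm).1 a)).2, ?_⟩)), Subgroup.mul_mem _ (st m w hw).2.2.2 (Subgroup.inv_mem _ b)⟩))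
    have τx : τ x = x := congrArg Units.val (fx m x ⟨a, b⟩)
    show (1 + (x - 1) * algebraMap L₂ A θ) * τ (1 + (x - 1) * algebraMap L₂ A θ) *
      ((x⁻¹ : Aˣ) : A) = _
    rw [map_add, map_mul, map_sub, map_one, τx, t1, Units.val_inv_eq_inv_val]
    have x0 := x.ne_zero
    field_simp
    rw [ec]
    ring
  have dm : finrank K L₂ = 2 * finrank K L := by rw [← finrank_mul_finrank K L L₂, two, mul_comm]
  intro m hm
  have m1 : 1 ≤ m := by omega
  refine ⟨fun S hS => ⟨fun x => ?_, le m, fx m, st m, ?_, ?_, ?_, ?_, ?_, fun p _ h => ?_⟩,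
    fun i => ?_, on m m1, ?_, fun s hs => le_antisymm ?_ ?_⟩
  · rw [dd_eq, d1, hS, ← dd_eq]
  · rw [il_eq L, il_eq L₂]
    exact Subgroup.map_mono g1
  · rw [il_eq L]
    rintro _ ⟨p, hp, rfl⟩
    rw [← hS, (e2 τ τL).1 p hp]
  · rw [il_eq L, il_eq L₂]
    rintro _ ⟨p, hp, rfl⟩
    have k := g2 2 τ σ two ho hσ p hp
    have k0 : ta (1 : A ≃ₐ[K] A) p = p := ((d2 L₂).2.1 1 fun _ => rfl).1 p hp
    rw [Finset.prod_range_succ, Finset.prod_range_one, pow_zero, pow_one, k0] at k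
    have k1 := (e2 τ τL).1 _ k
    rw [map_mul, mul_comm p] at k1
    rw [← hS, ← hS, mul_left_cancel k1, ← map_mul]
    exact ⟨⟨_, f2 τ (fun y => ⟨σ y, (hσ y).symm⟩) ⟨p, hp, rfl⟩, rfl⟩, rfl, _, k, rfl⟩
  · rw [il_eq L]
    rintro _ ⟨_, ⟨-, y, rfl⟩, rfl⟩
    exact ⟨_, e1 y, (dd_eq S _).symm⟩
  · rw [il_eq L₂]
    rintro _ ⟨_, ⟨-, y, rfl⟩, rfl⟩
    exact ⟨_, f1 y, (dd_eq S _).symm⟩
  · exact funext fun P => (pow_eq_one_iff_left two_ne_zero).1 (congrFun h P)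
  · have mo : ∀ (M : Type) [Field M] [Algebra M A] (i : ℕ),
        UL ι J M (m + i) ≤ (UL ι J M m : Subgroup Aˣ) := fun M _ _ i x ⟨a, b⟩ =>
      ⟨(u1 _ x m1).2 (Gx.v1_mono (Nat.le_add_right m i) ((u1 _ x (by omega)).1 a)), b⟩
    have su : ∀ i, (UL ι J L₂ m).map (nm (ua τ)) ⊔ UL ι J L (m + i) = UL ι J L m := fun i => by
      refine le_antisymm (sup_le ?_ (mo L i)) ?_
      · rintro _ ⟨x, hx, rfl⟩
        exact (st m x hx).2.2
      · induction i with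
        | zero => exact le_sup_right
        | succ i ih => exact ih.trans (sup_le le_sup_left ((on _ (by omega)).trans
            (sup_le_sup_right (Subgroup.map_mono (mo L₂ i)) _)))
    have k := Subgroup.relIndex_mul_relIndex (UL ι J L₂ (m + i))
      (UL ι J L₂ m ⊓ (UL ι J L (m + i)).comap (nm (ua τ))) (UL ι J L₂ m)
      (le_inf (mo L₂ i) fun x hx => (st _ x hx).2.2) inf_le_left
    rw [Subgroup.inf_relIndex_left, Subgroup.relIndex_comap, ← Subgroup.relIndex_sup_right (K := UL ι J L (m + i)), su,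
      (u3 L).2 m i m1, (u3 L₂).2 m i m1, dm, mul_assoc, two_mul, pow_add] at k
    exact mul_right_cancel₀ (by positivity) k
  · obtain ⟨a1, a2⟩ := rk_unit (A := A) B U L m1
    obtain ⟨b1, b2⟩ := rk_unit (A := A) B U L₂ m1
    unfold Em
    refine i2_ker (X := Aˣ) (P := UL ι J L m ⊓ (dd (A := A) ∅).ker)
      (Q := UL ι J L₂ m ⊓ (dd (A := A) ∅).ker) (ua τ)
      (inf_le_inf_right _ (le m)) (fun x hx => fx m x hx.1) (fun x hx => ⟨(st m _ hx.1).2.2, ?_⟩)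
      (fun x hx k k0 e => Units.ext (Gx.v1_tf hm k0 ((u1 m x m1).1 hx.1.1)
        (by simpa using congrArg Units.val e))) (by omega)
    have : dd ∅ x = 1 := hx.2
    show dd ∅ (x * ua τ x) = 1
    rw [map_mul, d1, this, map_one, mul_one]
  · rintro x ⟨⟨hx, h1⟩, h2⟩
    refine ⟨⟨hx, dd_one.2 fun P _ => ?_⟩, h2⟩
    by_cases hP : P ∈ Ss ι J A s
    swap
    · exact dd_one.1 h1 P hP
    rw [od_one]
    rcases hP with hP | hP
    · have v := (u1 m x m1).1 hx.1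
      refine (val_le hP (Gx.v1_mem v)).antisymm ?_
      have := val_le hP (Gx.v1_unit m1 v).2
      rwa [map_inv₀, inv_le_one₀ ((Valuation.pos_iff _).2 x.ne_zero)] at this
    · obtain ⟨y, e⟩ := (rg L₂ x).1 hx.2
      rw [← e]
      refine val_one σ σσ P (hs _ ⟨?_, ?_⟩) ((algebraMap L₂ A).injective ?_)
      · exact Ideal.isMaximal_comap_of_isIntegral_of_isMaximal P.asIdeal
      · rwa [Ideal.mem_comap, ← IsScalarTower.algebraMap_apply]
      · rw [map_mul, hσ, e, map_one]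
        exact congrArg Units.val h2
  · rintro x ⟨⟨hx, h1⟩, h2⟩
    exact ⟨⟨hx, dd_one.2 fun P _ => dd_one.1 h1 P fun k => k⟩, h2⟩

end Vale.Agent.P004C.Al
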