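import Vale.Agent.P004C.Al.St2
import Vale.Agent.P004C.Al.Dis0
import Vale.Agent.P004R.Gl

/-!
# P004 C, block AL: row DIS
-/

open NumberField Module
open scoped Pointwise

noncomputable section

namespace Vale.Agent.P004C.Al

open Vale.Agent.P022 Vale.Agent.P022.H916 Vale.Agent.P004R.Gl
open Vale.Agent.P027M.S (Inert)

namespace Di

variable {M N : Type} [Field M] [NumberField M] [Field N] [NumberField N] [Algebra M N]

theorem card_in [IsGalois M N] (Q : Ideal (𝓞 N)) [Q.IsPrime] (h0 : Q ≠ ⊥) :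
    Algebra.IsUnramifiedAt (𝓞 M) Q ↔ Q.inertia (N ≃ₐ[M] N) = ⊥ := by
  have n0 : Q.under (𝓞 M) ≠ ⊥ := mt Ideal.eq_bot_of_comap_eq_bot h0
  have : (Q.under (𝓞 M)).IsMaximal := Ideal.IsPrime.isMaximal inferInstance n0
  have : Finite (𝓞 M ⧸ Q.under (𝓞 M)) := Ideal.finiteQuotientOfFreeOfNeBot _ n0
  rw [← Ideal.ramificationIdx_eq_one_iff, ← Ideal.ramificationIdxIn_eq_ramificationIdx
    (Q.under (𝓞 M)) Q (N ≃ₐ[M] N), ← Ideal.card_inertia_eq_ramificationIdxIn (G := N ≃ₐ[M] N) _ Q,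
    Subgroup.card_eq_one]

/-- the relative core -/
def core (A B : Subgroup GQ) : Subgroup GQ where
  carrier := {u | u ∈ A ∧ ∀ g ∈ A, g * u * g⁻¹ ∈ B}
  mul_mem' {u w} a b := ⟨mul_mem a.1 b.1, fun g hg => by
    rw [show g * (u * w) * g⁻¹ = g * u * g⁻¹ * (g * w * g⁻¹) by group]
    exact mul_mem (a.2 g hg) (b.2 g hg)⟩
  one_mem' := ⟨one_mem _, fun g _ => by simp⟩
  inv_mem' {u} a := ⟨inv_mem a.1, fun g hg => by
    rw [show g * u⁻¹ * g⁻¹ = (g * u * g⁻¹)⁻¹ by group]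
    exact inv_mem (a.2 g hg)⟩

/-- no inertia, no ramification; the extension need not be normal -/
theorem unr (j' : N →+* Qb) {P : Ideal (𝓞 Qb)} (hP : P.IsPrime) (h0 : below j' P ≠ ⊥)
    (h : ∀ g ∈ GK (j'.comp (algebraMap M N)), ∀ u ∈ GK (j'.comp (algebraMap M N)),
      Inert (g • P) u → u ∈ GK j') :
    @Algebra.IsUnramifiedAt (𝓞 M) (𝓞 N) _ _ _ (below j' P) (below_pr j' hP) := by
  set j := j'.comp (algebraMap M N)
  have le : GK j' ≤ GK j := fun g hg x => hg _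
  have : Finite (GQ ⧸ GK j') := (GK j').quotient_finite_of_isOpen (isOpen_GK j')
  have : (GK j').FiniteIndex := Subgroup.finiteIndex_of_finite_quotient
  have op : IsOpen (core (GK j) (GK j') : Set GQ) := Subgroup.isOpen_mono
    (H₁ := (GK j').normalCore) (fun u hu => ⟨le ((GK j').normalCore_le hu), fun g _ => hu g⟩)
    (Subgroup.isOpen_of_isClosed_of_finiteIndex _ (Subgroup.normalCore_isClosed _ (isClosed_GK j')))
  obtain ⟨L, _, _, _, _, jL, ρ, D, e, k⟩ := exists_fld j _ op (fun u hu => hu.1)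
    fun g hg u hu => ⟨mul_mem (mul_mem hg hu.1) (inv_mem hg), fun x hx => by
      rw [show x * (g * u * g⁻¹) * x⁻¹ = x * g * u * (x * g)⁻¹ by group]
      exact hu.2 _ (mul_mem hx hg)⟩
  obtain ⟨a, ha⟩ := ex_hom (j := j') (jL := jL) fun u hu => by
    simpa using (e ▸ hu : u ∈ core (GK j) (GK j')).2 1 (one_mem _)
  let _ := a.toAlgebra
  have : IsScalarTower M N L := IsScalarTower.of_algebraMap_eq fun x =>
    jL.injective ((D.comp x).trans (ha _).symm)
  have := below_pr jL hP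
  have := below_pr j' hP
  have lo : (below jL P).LiesOver (below j' P) := ⟨Ideal.ext fun x => by
    show RingOfIntegers.mapRingHom j' x ∈ P ↔
      RingOfIntegers.mapRingHom jL (algebraMap (𝓞 N) (𝓞 L) x) ∈ P
    rw [show RingOfIntegers.mapRingHom jL (algebraMap (𝓞 N) (𝓞 L) x) =
      RingOfIntegers.mapRingHom j' x from RingOfIntegers.ext (ha x)]⟩
  have : Algebra.IsUnramifiedAt (𝓞 M) (below jL P) := by
    refine (card_in _ (Ideal.ne_bot_of_liesOver_of_ne_bot h0 _)).2 (eq_bot_iff.2 fun s hs =>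
      D.inertia_eq_bot hP (fun u hu => (k u).2 ⟨u.2, fun g hg => h g hg _
        (mul_mem (mul_mem hg u.2) (inv_mem hg)) fun x => ?_⟩) hs)
    rw [Ideal.mem_pointwise_smul_iff_inv_smul_mem, smul_sub, ← mul_smul,
      show g⁻¹ * (g * u * g⁻¹) = u * g⁻¹ by group, mul_smul]
    exact hu _
  exact Algebra.IsUnramifiedAt.of_liesOver (𝓞 M) (below j' P) (below jL P)

end Di

open Gx Ds in
theorem dis : DIS := fun K M N _ _ _ _ _ _ _ _ _ _ ι J Ω _ j' h => by
  have un : ∀ (Q : Ideal (𝓞 N)) [Q.IsPrime], Q.comap (algebraMap (𝓞 K) (𝓞 N)) = vv ι J →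
      (2 : 𝓞 N) ∈ Q ∧ Algebra.IsUnramifiedAt (𝓞 M) Q := fun Q hQ e => by
    have t : (2 : 𝓞 N) ∈ Q := map_ofNat (algebraMap (𝓞 K) (𝓞 N)) 2 ▸ e.ge two_vv
    obtain ⟨P, hP, rfl⟩ := exists_above j' Q hQ
    refine ⟨t, Di.unr j' hP (fun k => by simp [k] at t) fun g hg => h _ ⟨⟨Nat.prime_two,
      inferInstance, ?_⟩, fun x => ?_⟩⟩
    · rw [Ideal.mem_pointwise_smul_iff_inv_smul_mem, show g⁻¹ • ((2 : ℕ) : 𝓞 Qb) = (2 : ℕ) from
        map_natCast (MulSemiringAction.toRingHom _ _ g⁻¹) 2]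
      exact (mem_below 2).1 t
    · rw [← mem_vv, ← e]
      show RingOfIntegers.mapRingHom _ x ∈ g • P ↔
        RingOfIntegers.mapRingHom j' (algebraMap (𝓞 K) (𝓞 N) x) ∈ P
      rw [Ideal.mem_pointwise_smul_iff_inv_smul_mem]
      refine iff_of_eq (congrArg (· ∈ P) (RingOfIntegers.ext ?_))
      have := inv_mem hg (algebraMap K M x)
      rw [RingHom.comp_apply, ← IsScalarTower.algebraMap_apply] at this
      exact this
  refine ⟨fun n b n' b' hb hb' => ?_, fun τ h2 hτ => ?_⟩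
  · obtain ⟨s, a, c⟩ : Pv ι J (differentIdeal (𝓞 M) (𝓞 N)) := pv_of fun Q hQ le e =>
      dvd_differentIdeal_iff.1 (Ideal.dvd_iff_le.2 le) (un Q e).2
    have g : Gn ι J (differentIdeal (𝓞 M) (𝓞 N)) (algebraMap (𝓞 K) (𝓞 N) s) :=
      ⟨c, s, a, fun x _ => Ideal.mem_span_singleton.2 (dvd_mul_right _ _)⟩
    rw [dv_tower hb hb' (dg_of (RingOfIntegers.coe_ne_zero_iff.1 (ne_of (M := N) a)) g), coe_s,
      Algebra.norm_algebraMap]
    simp [a]
  have : Algebra.IsQuadraticExtension M N := { finrank_eq_two' := h2 }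
  have tr : ∀ x : 𝓞 N, algebraMap M N (Algebra.intTrace (𝓞 M) (𝓞 N) x) = x + τ x := fun x => by
    rw [RingOfIntegers.coe_eq_algebraMap, Algebra.algebraMap_intTrace (L := N),
      trace_eq_sum_automorphisms, Fintype.sum_eq_add 1 τ hτ.symm fun c hc => absurd
        (((Nat.card_eq_two_iff' 1).1 ((IsGalois.card_aut_eq_finrank M N).trans h2)).unique hc.1 hτ)
        hc.2]
    rfl
  obtain ⟨s, a, x, c⟩ : Pv ι J (LinearMap.range (Algebra.intTrace (𝓞 M) (𝓞 N))) := by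
    refine pv_of fun p hp le e => ?_
    obtain ⟨Q, hQ, rfl⟩ := Ideal.exists_ideal_over_prime_of_isIntegral_of_isDomain (S := 𝓞 N) p
      (((RingHom.injective_iff_ker_eq_bot _).1
        (FaithfulSMul.algebraMap_injective (𝓞 M) (𝓞 N))).trans_le bot_le)
    obtain ⟨t, u⟩ := un Q (by rw [← e, Ideal.comap_comap, ← IsScalarTower.algebraMap_eq])
    refine hτ ((Subgroup.eq_bot_iff_forall _).1 ((Di.card_in Q fun k => by simp [k] at t).1 u) τ
      fun y => ?_)
    have k : algebraMap (𝓞 M) (𝓞 N) (Algebra.intTrace (𝓞 M) (𝓞 N) y) = y + τ • y :=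
      RingOfIntegers.ext (tr y)
    have := Q.sub_mem (le ⟨y, rfl⟩) (Q.mul_mem_right y t)
    rw [k, show y + τ • y - 2 * y = τ • y - y by ring] at this
    exact this
  have k := tr x
  rw [c, coe_s, ← IsScalarTower.algebraMap_apply] at k
  have s0 := ne_of (M := N) a
  refine ⟨x / algebraMap K N s, ⟨s, a, by rw [mul_div_cancel₀ _ s0]; exact x.isIntegral_coe⟩, ?_⟩
  rw [map_div₀, IsScalarTower.algebraMap_apply K M N, τ.commutes,
    ← IsScalarTower.algebraMap_apply, ← add_div, ← k, div_self s0]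

end Vale.Agent.P004C.Al
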