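import Vale.Agent.P004C.Al.St3
import Vale.Agent.P004C.Al.Dis

/-!
# P004 C, block AL: row PAR
-/

open NumberField Module

noncomputable section

namespace Vale.Agent.P004C.Al

open Vale.Agent.P022 Vale.Agent.P022.H916 Vale.Agent.P004R.Gl
open Vale.Agent.P027M.S (Inert)
open Vale.Agent.P027M.M (ze)
open Vale.Agent.P022E.GW (Ov)

namespace Pq

theorem ze_nat (n a : ℕ) : ze n a = Complex.exp (2 * Real.pi * Complex.I / n) ^ a := by
  rw [ze, ← Complex.exp_nat_mul]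
  congr 1
  push_cast
  ring

theorem ze_add {n : ℕ} [NeZero n] (a b : ZMod n) :
    ze n (a + b).val = ze n a.val * ze n b.val := by
  have h := Complex.isPrimitiveRoot_exp n (NeZero.ne n)
  rw [ze_nat, ze_nat, ze_nat, ← pow_add, ZMod.val_add, ← pow_eq_pow_mod _ h.pow_eq_one]

theorem ze_one {n : ℕ} [NeZero n] (a : ZMod n) : ze n a.val = 1 ↔ a = 0 := by
  rw [ze_nat, (Complex.isPrimitiveRoot_exp n (NeZero.ne n)).pow_eq_one_iff_dvd, ← ZMod.val_eq_zero]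
  exact ⟨fun h => Nat.eq_zero_of_dvd_of_lt h a.val_lt, fun h => h ▸ dvd_zero _⟩

theorem half {k : ℕ} : (2 ^ k : ZMod (2 * 2 ^ k)) ≠ 0 ∧ 2 * (2 ^ k : ZMod (2 * 2 ^ k)) = 0 ∧
    ∀ a : ZMod (2 * 2 ^ k), 2 * a = 0 → a = 0 ∨ a = 2 ^ k := by
  have p : 0 < 2 ^ k := by positivity
  refine ⟨fun h => ?_, by exact_mod_cast ZMod.natCast_self (2 * 2 ^ k), fun a h => ?_⟩
  · have := Nat.le_of_dvd p ((ZMod.natCast_eq_zero_iff (2 ^ k) _).1 (by exact_mod_cast h))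
    omega
  · obtain ⟨u, hu⟩ : 2 ^ k ∣ a.val := Nat.dvd_of_mul_dvd_mul_left two_pos
      ((ZMod.natCast_eq_zero_iff (2 * a.val) _).1 (by simpa using h))
    have l := a.val_lt
    rw [hu, mul_comm 2] at l
    have := Nat.lt_of_mul_lt_mul_left l
    rw [← a.natCast_zmod_val, hu]
    interval_cases u <;> simp

theorem ex_ov {l : ℕ} (hl : l.Prime) : ∃ P, Ov l P :=
  let ⟨P, h⟩ := exists_prime hl
  ⟨P, hl, h⟩

theorem in_pow {P : Ideal (𝓞 Qb)} {t : GQ} (h : Inert P t) (n : ℕ) : Inert P (t ^ n) := by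
  induction n with
  | zero => simp [Inert]
  | succ n ih =>
    intro x
    rw [pow_succ, mul_smul]
    simpa using P.add_mem (ih (t • x)) (h x)

end Pq

open Pq in
theorem par (hA : AUX) (hI : ICX) (hE : ETA) : PAR := by
  intro K _ _ ι J Ω B A L L₂ _ _ _ _ _ _ _ _ _ _ _ _ j jL j₂ jA ρ c k e S s R t τ c1 c2 c3 w ts r1
    gL g2 tj tρ te tτ
  obtain ⟨h0, h1, h3⟩ := half (k := k)
  have e1 : e 1 = 0 := by simpa using w.add 1 (one_mem _) 1 (one_mem _)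
  have epw : ∀ g ∈ GK j, ∀ n : ℕ, e (g ^ n) = n * e g := fun g hg n => by
    induction n with
    | zero => simp [e1]
    | succ n ih => rw [pow_succ, w.add _ (pow_mem hg n) _ hg, ih, Nat.cast_succ, add_mul, one_mul]
  have rpw : ∀ g, ρ g = 1 → ∀ n : ℕ, ρ (g ^ n) = 1 := fun g hg n => by
    induction n with
    | zero => simp [ts.one]
    | succ n ih => rw [pow_succ, ts.mul, ih, hg, one_mul]
  have le : ∀ {g}, g ∈ GK jL → g ∈ GK j := fun h => ((gL _).1 h).1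
  have mL : ∀ {g}, g ∈ GK j → ρ g = 1 → e g = 2 ^ k → g ∈ GK jL := fun a b d =>
    (gL _).2 ⟨a, b ▸ r1, d ▸ h1⟩
  have m2 : ∀ {g}, g ∈ GK j₂ ↔ g ∈ GK jL ∧ e g = 0 := fun {g} => by
    rw [gL, g2]
    exact ⟨fun ⟨a, b, d⟩ => ⟨⟨a, b, by rw [d, mul_zero]⟩, d⟩, fun ⟨⟨a, b, _⟩, d⟩ => ⟨a, b, d⟩⟩
  have ein : ∀ {g}, g ∈ GK j → e g⁻¹ = -e g := fun {g} h =>
    eq_neg_of_add_eq_zero_left (by rw [← w.add _ (inv_mem h) _ h, inv_mul_cancel, e1])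
  obtain ⟨_, π, D⟩ := ex_dict c2 fun g hg u hu => m2.2 ⟨mul_mem (mul_mem hg (m2.1 hu).1)
    (inv_mem hg), by
      rw [w.add _ (mul_mem (le hg) (le (m2.1 hu).1)) _ (inv_mem (le hg)),
        w.add _ (le hg) _ (le (m2.1 hu).1), (m2.1 hu).2, ein (le hg), add_zero, add_neg_cancel]⟩
  have tL := mL tj tρ te
  have t1 : π ⟨t, tL⟩ ≠ 1 := fun h => h0 (te ▸ (m2.1 ((D.ker _).1 h)).2)
  have h2 : finrank L L₂ = 2 := by
    rw [← IsGalois.card_aut_eq_finrank, Nat.card_eq_two_iff' 1]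
    refine ⟨_, t1, fun σ hσ => ?_⟩
    obtain ⟨g, rfl⟩ := D.surj σ
    have a := (h3 _ ((gL _).1 g.2).2.2).resolve_left fun h => hσ ((D.ker g).2 (m2.2 ⟨g.2, h⟩))
    rw [← inv_mul_eq_one, ← map_inv, ← map_mul, D.ker]
    exact m2.2 ⟨mul_mem (inv_mem g.2) tL, by
      show e ((g : GQ)⁻¹ * t) = 0
      rw [w.add _ (le (inv_mem g.2)) _ tj, ein (le g.2), a, te, neg_add_cancel]⟩
  have ej : j₂.comp (algebraMap L L₂) = jL := RingHom.ext c2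
  have rm : ∀ l P, Ov l P → l ∣ c → ∃ g ∈ GK jL, Inert P g ∧ e g = 2 ^ k := fun l P o d => by
    obtain ⟨u, a, b, f⟩ := w.ram l P o d
    have f' : e (u ^ 2 ^ k) = 2 ^ k := by rw [epw u a, f, mul_one, Nat.cast_pow, Nat.cast_ofNat]
    exact ⟨u ^ 2 ^ k, mL (pow_mem a _) (rpw u (ts.unr u ⟨l, fun h => ts.cop l h d, P, o, b⟩) _) f',
      in_pow b _, f'⟩
  have G : Gc jL (fun g => ze (2 * 2 ^ k) (e g).val) 2 := by
    refine ⟨fun g a h b => by rw [w.add _ (le a) _ (le b), ze_add], two_pos, fun g a => ?_, ?_⟩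
    · rw [_root_.sq, ← ze_add, ← two_mul, ze_one]
      exact ((gL _).1 a).2.2
    · obtain ⟨W, a, b⟩ := w.opn
      exact ⟨W, a, fun g x y => (ze_one _).2 (b g (le x) y)⟩
  obtain ⟨E1, E2, E3⟩ := hE L L₂ jL j₂ _ c ⟨fun σ => B.im.false (σ.comp (algebraMap K L))⟩ c2 h2 G
    (fun g => by rw [ze_one]; exact m2) w.odd fun l P o => ⟨fun ⟨g, a, b, d⟩ => by_contra fun n =>
      d ((ze_one _).2 (w.unr l P o n g (le a) b)), fun d =>
        let ⟨g, a, b, f⟩ := rm l P o d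
        ⟨g, a, b, fun h => h0 (f ▸ (ze_one _).1 h)⟩⟩
  refine ⟨⟨h2, π ⟨t, tL⟩, t1, fun x => jA.injective ?_, (dis K L L₂ ι J Ω B j₂
    fun P a g hg b => ?_).2 _ h2 t1⟩, ?_, fun p hp => ?_, ?_⟩
  · rw [c3, tτ, c3, ← D.act]
  · rw [ej] at hg
    exact m2.2 ⟨hg, w.unr 2 P a.1 w.odd.not_two_dvd_nat g (le hg) b⟩
  · obtain ⟨l, hl, d⟩ := Nat.exists_prime_and_dvd w.one.ne'
    obtain ⟨P, o⟩ := ex_ov hl
    obtain ⟨g, a, b, f⟩ := rm l P o d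
    exact hA K ι J Ω B L L₂ j₂ h2 ⟨l, P, g, fun h => w.odd.not_two_dvd_nat (h ▸ d), o, b, ej ▸ a,
      fun h => h0 (f ▸ (m2.1 h).2)⟩
  · obtain ⟨l, Q, o, rfl⟩ := E3 p hp.1
    obtain ⟨a, g, b, d, f, u⟩ := ts.ine l Q o (by
      have := hp.2
      show RingOfIntegers.mapRingHom j s ∈ Q
      rwa [← show RingOfIntegers.mapRingHom jL (algebraMap (𝓞 K) (𝓞 L) s) =
        RingOfIntegers.mapRingHom j s from RingOfIntegers.ext (c1 s)])
    exact E2 l Q o (ts.cop l a) ⟨g, b, mL d f u, fun h => h0 (u ▸ (ze_one _).1 h)⟩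
  · obtain ⟨η, hη⟩ := (hI L jL _ 2 G).1
    exact ⟨η, hη, E1 η hη⟩

end Vale.Agent.P004C.Al
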