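import Vale.Agent.P004C.Al.Cmb

/-!
# P004 C, block AL: row REL
-/

open NumberField Module Ideal IsDedekindDomain
open scoped Classical

set_option linter.all false

noncomputable section

namespace Vale.Agent.P004C.Al.Re

open P004C.Cm
open Vale.Agent.P027M.S (Pr)

theorem v2_mul {a b : ℕ} (ha : a ≠ 0) (hb : b ≠ 0) : v2 (a * b) = v2 a + v2 b :=
  padicValNat.mul ha hb

theorem v2_dvd {a b : ℕ} (h : a ∣ b) (hb : b ≠ 0) : v2 a ≤ v2 b := by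
  obtain ⟨c, rfl⟩ := h
  rw [v2_mul (left_ne_zero_of_mul hb) (right_ne_zero_of_mul hb)]
  omega

theorem v2_pow (n : ℕ) : v2 (2 ^ n) = n := padicValNat.prime_pow n

theorem half_inj {a b : ℕ} (h : (1 / 2 : ℝ) ^ a = (1 / 2) ^ b) : a = b :=
  pow_right_injective₀ (by norm_num) (by norm_num) h

/-- reduction -/
def rd (r : ℕ) {a b : ℕ} (h : a ≤ b) :
    Multiplicative (Fin r → ZMod (2 ^ b)) →* Multiplicative (Fin r → ZMod (2 ^ a)) :=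
  AddMonoidHom.toMultiplicative
    ((ZMod.castHom (pow_dvd_pow 2 h) (ZMod (2 ^ a))).toAddMonoidHom.compLeft (Fin r))

theorem rd_ap {r a b : ℕ} (h : a ≤ b) (y) (i : Fin r) : (rd r h y).toAdd i = (y.toAdd i).cast := rfl

theorem rd_onto {r a b : ℕ} (h : a ≤ b) : Function.Surjective (rd r h) := fun y => by
  choose x hx using fun i => ZMod.castHom_surjective (pow_dvd_pow 2 h) (y.toAdd i)
  exact ⟨.ofAdd x, funext hx⟩

theorem rd_rd {r a b c : ℕ} (h : a ≤ b) (k : b ≤ c) (y) : rd r h (rd r k y) = rd r (h.trans k) y :=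
  funext fun i => DFunLike.congr_fun (ZMod.castHom_comp (pow_dvd_pow 2 h) (pow_dvd_pow 2 k)) _

theorem rd_card (r a : ℕ) : Nat.card (rd r (Nat.le_succ a)).ker = 2 ^ r := by
  have h := (rd r (Nat.le_succ a)).ker.card_mul_index
  rw [Subgroup.index_ker, MonoidHom.range_eq_top.2 (rd_onto _), Subgroup.card_top] at h
  have k : ∀ b, Nat.card (Multiplicative (Fin r → ZMod (2 ^ b))) = (2 ^ b) ^ r := fun b => by
    rw [Nat.card_congr Multiplicative.toAdd, Nat.card_fun, Nat.card_zmod, Nat.card_fin]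
  rw [k, k] at h
  generalize Nat.card _ = x at *
  rw [Nat.pow_succ, mul_pow, mul_comm] at h
  exact mul_left_cancel₀ (by positivity) h

theorem rd_sq {r a : ℕ} (y) (h : y ∈ (rd r (Nat.le_succ a)).ker) : y ^ 2 = 1 := by
  funext i
  have k : ((y.toAdd i).cast : ZMod (2 ^ a)) = 0 := congrFun h i
  rw [ZMod.cast_eq_val, ZMod.natCast_eq_zero_iff] at k
  obtain ⟨c, hc⟩ := k
  change 2 • y.toAdd i = 0
  rw [← ZMod.natCast_zmod_val (y.toAdd i), hc, nsmul_eq_mul, ← Nat.cast_mul,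
    ZMod.natCast_eq_zero_iff]
  exact ⟨c, by rw [Nat.succ_eq_add_one, pow_succ]; ring⟩

theorem idx_dvd {r a c : ℕ} {H : Subgroup (Multiplicative (Fin r → ZMod (2 ^ a)))}
    (h : ∀ y, y ^ 2 ^ c ∈ H) : H.index ∣ 2 ^ (c * r) := by
  let g : (Fin r → ℤ) →+ (Fin r → ZMod (2 ^ a)) := (Int.castAddHom _).compLeft (Fin r)
  have hg : Function.Surjective g := fun y => by
    choose x hx using fun i => ZMod.intCast_surjective (y i)
    exact ⟨x, funext hx⟩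
  have h1 := AddSubgroup.index_comap_of_surjective (H := Subgroup.toAddSubgroup' H) hg
  have h2 : AddSubgroup.pi Set.univ (fun _ : Fin r => AddSubgroup.zmultiples (2 ^ c : ℤ)) ≤
      (Subgroup.toAddSubgroup' H).comap g := fun x hx => by
    choose k hk using fun i => AddSubgroup.mem_zmultiples_iff.1 (hx i trivial)
    have : x = 2 ^ c • k := funext fun i => by simp [← hk i, mul_comm]
    rw [AddSubgroup.mem_comap, this, map_nsmul]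
    exact h (.ofAdd (g k))
  have h3 := AddSubgroup.index_dvd_of_le h2
  rw [h1, AddSubgroup.index_pi] at h3
  simp only [Int.index_zmultiples, Int.natAbs_pow, Finset.prod_const, Finset.card_univ,
    Fintype.card_fin, Set.toFinset_univ, ← pow_mul] at h3
  exact h3

variable {K : Type} [Field K] [NumberField K] {ι : ℂ →+* ℂ_[2]} {J : K →+* ℂ} {Ω : ℝ}
  {A L L₂ : Type} [Field A] [NumberField A] [Field L]
  [NumberField L] [Field L₂] [NumberField L₂] [Algebra K A] [Algebra K L] [Algebra K L₂]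
  [Algebra L L₂] [Algebra L A] [Algebra L₂ A] [IsScalarTower K L L₂] [IsScalarTower K L₂ A]
  [IsScalarTower L L₂ A] [IsScalarTower K L A] {τ : A ≃ₐ[K] A}

theorem un_max (P : Pr A) : (P.asIdeal.under (𝓞 L)).IsMaximal :=
  have := P.isMaximal
  inferInstance

theorem ss_eq (s : 𝓞 K) :
    Ss ι J A s = {P | Av ι J P.asIdeal ∨ P.asIdeal.under (𝓞 L) ∈ Ps L s} :=
  Set.ext fun P => or_congr_right (by
    rw [IsScalarTower.algebraMap_apply (𝓞 K) (𝓞 L) (𝓞 A)]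
    exact (and_iff_right (un_max P)).symm)

theorem sw_eq {κ : Type} {W : κ → Ideal (𝓞 L)} (h : ∀ i, (W i).IsMaximal) :
    Sw ι J A W = {P | Av ι J P.asIdeal ∨ P.asIdeal.under (𝓞 L) ∈ Set.range W} :=
  Set.ext fun P => or_congr_right (exists_congr fun i => map_le_iff_le_comap.trans
    ⟨(h i).eq_of_le (un_max P).ne_top, le_of_eq⟩)

theorem sw_up {κ : Type} (W : κ → Ideal (𝓞 L)) :
    Sw ι J A (fun i => (W i).map (algebraMap (𝓞 L) (𝓞 L₂))) = Sw ι J A W := by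
  simp only [Sw, Ideal.map_map, ← IsScalarTower.algebraMap_eq]

theorem pj_pj {S S' : Set (Pr A)} (h : S ⊆ S') : (pj S').comp (pj S) = pj S' := by
  ext p P
  by_cases k : P ∈ S'
  · simp [pj, k]
  · simp [pj, k, mt (@h P) k]

theorem ss_one {T : Set (Ideal (𝓞 L))} :
    Ss ι J A 1 ⊆ {P | Av ι J P.asIdeal ∨ P.asIdeal.under (𝓞 L) ∈ T} := fun P k =>
  .inl (k.resolve_right fun k => P.isPrime.ne_top ((eq_top_iff_one _).2 (by simpa using k)))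

/-- removing inert primes -/
theorem two (a0 : A0) (a2 : A2) (dvf : DVF) (pai : PAI) (B : Base ι J Ω) (q : Qp ι J L L₂ τ)
    {m : ℕ} (hm : 2 ≤ m) {T : Set (Ideal (𝓞 L))} (f : T.Finite)
    (hT : ∀ P ∈ T, P.IsMaximal ∧ Ine L₂ P ∧ Pv ι J P) {S : Set (Pr A)}
    (e : S = {P | Av ι J P.asIdeal ∨ P.asIdeal.under (𝓞 L) ∈ T})
    (c : ∀ p, pj S (ta τ p) = ta τ (pj S p)) :
    hS ι J L L₂ τ S m ≠ 0 ∧ cS ι J L L₂ τ S m ≠ 0 ∧
    v2 (hS ι J L L₂ τ S m) + v2 (cS ι J L L₂ τ (Ss ι J A 1) m) =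
      T.ncard + v2 (hS ι J L L₂ τ (Ss ι J A 1) m) + v2 (cS ι J L L₂ τ S m) ∧
    v2 (hS ι J L L₂ τ (Ss ι J A 1) m) ≤ v2 (hS ι J L L₂ τ S m) ∧
    v2 (cS ι J L L₂ τ S m) ≤ v2 (cS ι J L L₂ τ (Ss ι J A 1) m) := by
  obtain ⟨-, d2, d3⟩ := dvf K ι J Ω B A
  obtain ⟨-, -, -, d4, d5⟩ := d3 L
  obtain ⟨-, -, -, d6, -⟩ := d3 L₂
  obtain ⟨-, -, d7⟩ := d5 L₂
  obtain ⟨d8, d9⟩ := d7 T f hT S e
  have p := (pai K ι J Ω B A L L₂ τ q m hm).1 _ (d2 τ 1)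
  have h0 : hS ι J L L₂ τ (Ss ι J A 1) m ≠ 0 :=
    a0 _ _ _ _ _ _ _ _ _ p (d6 1 m one_ne_zero hm).1 (d4 1 m one_ne_zero hm).2
  have c0 : cS ι J L L₂ τ (Ss ι J A 1) m ≠ 0 := fun k => (d4 1 m one_ne_zero hm).1
    (Subgroup.relIndex_eq_zero_of_le_left le_sup_right k)
  obtain ⟨k1, k2, k3⟩ := a2 _ _ _ _ _ _ _ _ _ (pj S) p c d8 c0 (by rw [d9]; positivity)
  have e0 : (pj S).comp (pj (Ss ι J A 1)) = pj S := pj_pj (e ▸ ss_one)
  have e1 : (pj S).comp (dd (Ss ι J A 1)) = dd S := by rw [dd, ← MonoidHom.comp_assoc, e0, dd]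
  have e2 : (IL L (Ss ι J A 1)).map (pj S) = IL L S := by rw [IL, Subgroup.map_map, e0, IL]
  have e3 : (IL L₂ (Ss ι J A 1)).map (pj S) = IL L₂ S := by rw [IL, Subgroup.map_map, e0, IL]
  rw [d9] at k1
  rw [e1, e3] at k1 k2 k3
  rw [e2] at k1 k3
  change hS ι J L L₂ τ S m * cS ι J L L₂ τ _ m = _ * hS ι J L L₂ τ _ m * cS ι J L L₂ τ S m at k1
  have c1 : cS ι J L L₂ τ S m ≠ 0 := ne_zero_of_dvd_ne_zero c0 k3
  have h1 : hS ι J L L₂ τ S m ≠ 0 := left_ne_zero_of_mul (k1.trans_ne (by positivity))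
  refine ⟨h1, c1, ?_, v2_dvd k2 h1, v2_dvd k3 c0⟩
  rw [← v2_mul h1 c0, k1, v2_mul (by positivity) c1, v2_mul (by positivity) h0, v2_pow]

variable {r B : ℕ} {t : 𝓞 L} {W : Fin (r + 1) → Ideal (𝓞 L)}
  {Φ : Ideal (𝓞 L) → ZMod (2 ^ B)} {φ : Fin (r + 1) → L → ZMod (2 ^ B)}

variable (A φ) in
/-- the local characters on the ambient group -/
def ff (x : Aˣ) : Multiplicative (Fin r → ZMod (2 ^ B)) :=
  .ofAdd fun i => φ i.succ (Function.invFun (algebraMap L A) x)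

theorem ff_ap (x : Lˣ) : ff A φ (Units.map (algebraMap L A : L →* A) x) = .ofAdd fun i => φ i.succ x :=
  congrArg Multiplicative.ofAdd (funext fun i => congrArg _
    (Function.leftInverse_invFun (algebraMap L A).injective (x : L)))

theorem ff_mu (X : Aux t B W Φ φ) {Y : Type} [CommGroup Y] (π : _ →* Y) (m : ℕ) :
    Mu (π ∘ ff A φ) (UL ι J L m) := by
  rintro _ ⟨-, x, rfl⟩ _ ⟨-, y, rfl⟩
  simp only [Function.comp, ← map_mul, ff_ap]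
  exact congrArg π (funext fun i => X.loc _ _ _ x.ne_zero y.ne_zero)

theorem nm_ua (q : Qp ι J L L₂ τ) (x : L₂ˣ) : nm (ua τ) (Units.map (algebraMap L₂ A : L₂ →* A) x) =
    Units.map (algebraMap L A : L →* A) (Units.map (Algebra.norm L) x) := by
  obtain ⟨τ₂, h1, h2, -⟩ := q.ind
  have := gal q.two
  have k := Algebra.norm_eq_prod_automorphisms L (x : L₂)
  have u : (Finset.univ : Finset Gal(L₂/L)) = {1, τ₂} := (Finset.eq_univ_of_card _ (by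
    rw [Finset.card_pair h1.symm, ← Nat.card_eq_fintype_card, IsGalois.card_aut_eq_finrank,
      q.two])).symm
  rw [u, Finset.prod_pair h1.symm] at k
  ext
  change algebraMap L₂ A x * τ (algebraMap L₂ A x) = algebraMap L A (Algebra.norm L (x : L₂))
  rw [IsScalarTower.algebraMap_apply L L₂ A, k, map_mul, h2]
  rfl

/-- the first bound -/
theorem j_le (a7 : A7) (umf : UMF) (gbx : GBX) (dj : DJ) (Bs : Base ι J Ω) (X : Aux (2 * t) B W Φ φ)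
    (t0 : t ≠ 0) {M M' c a : ℕ} (hM : 2 ≤ M) (e : M ≤ M') (ha : a ≤ B)
    (p : (UL ι J L M).map (dd (Sw ι J A W)) ≤ IL L (Sw ι J A W))
    (h1 : ∀ t' R, t' ≠ 0 → 2 ∣ t' → Rp ι J W M' t' R → v2 R.card ≤ c)
    (h2 : ∀ y : Fin r → ZMod (2 ^ B), ∃ x : L, Ev ι J W M' 1 1 x ∧ ∀ i, φ i.succ x = 2 ^ c * y i) :
    v2 (Jx (dd (Sw ι J A W)) (rd r ha ∘ ff A φ) (UL ι J L M) (IL L (Sw ι J A W))) ≤ c + c * r := by
  have t1 : (2 * t : 𝓞 L) ≠ 0 := mul_ne_zero two_ne_zero t0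
  have w2 := fun i => (⟨X.max i, fun k => X.cop i (mul_mem_right _ _ k)⟩ : _ ∧ 2 ∉ W i)
  obtain ⟨u1, u2, -⟩ := umf K ι J Ω Bs A
  have le : UL ι J L M' ≤ (UL ι J L M : Subgroup Aˣ) :=
    inf_le_inf_right _ (antitone_nat_of_succ_le u1.le e)
  obtain ⟨R, hR⟩ := ((gbx K ι J Ω Bs L).2 r M' W (hM.trans e) w2 X.inj).2 _ t1 (dvd_mul_right _ _)
  obtain ⟨d1, d2⟩ := dj K ι J Ω Bs A L r B W _ (fun i => ⟨X.max i, X.cop i⟩) t1 (dvd_mul_right _ _)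
    M' (hM.trans e)
  obtain ⟨d3, d4, -⟩ := d2 R hR
  have k1 := Subgroup.relIndex_dvd_of_le_left (IL L (Sw ι J A W))
    (Subgroup.map_mono (f := dd (Sw ι J A W)) le)
  rw [d3] at k1
  have k2 : (Subgroup.closure ((rd r ha ∘ ff A φ) ''
      (UL ι J L M ⊓ (dd (Sw ι J A W)).ker : Subgroup Aˣ))).index ∣ 2 ^ (c * r) := by
    refine idx_dvd fun y => Subgroup.subset_closure ?_
    obtain ⟨y, rfl⟩ := rd_onto ha y
    obtain ⟨x, x1, x2⟩ := h2 y.toAdd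
    have x0 := (Gx.v1_unit (by omega) x1.1).1
    have x3 := (d1 (.mk0 x x0)).1 x1
    refine ⟨_, ⟨le x3.1, x3.2⟩, ?_⟩
    rw [Function.comp, ff_ap, ← map_pow]
    exact congrArg _ (funext fun i => (x2 i).trans (by
      change _ = 2 ^ c • y.toAdd i
      rw [nsmul_eq_mul, Nat.cast_pow, Nat.cast_ofNat]))
  rw [a7 _ _ _ _ _ _ _ (ff_mu X _ M) p, v2_mul (ne_zero_of_dvd_ne_zero d4 k1)
    (ne_zero_of_dvd_ne_zero (by positivity) k2)]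
  exact add_le_add ((v2_dvd k1 d4).trans (h1 _ R t1 (dvd_mul_right _ _) hR))
    ((v2_dvd k2 (by positivity)).trans (v2_pow _).le)

theorem fin_ap {x : ℝ} {j j₂ r p h c hw cw h0 c0 : ℕ}
    (k : Ap ((1 / 2) ^ j₂ * 2 ^ (r + 1)) ((1 / 2) ^ j * x * 2 ^ p)) (e1 : j₂ + cw = j + hw)
    (e2 : hw + c0 = r + 1 + h0 + cw) (e3 : h + c0 = p + h0 + c) : Ap (x * 2 ^ h) (2 ^ c) := by
  have e : c + p + j₂ = r + 1 + h + j := by omega
  have e' : (2 : ℝ) ^ c * 2 ^ p * 2 ^ j₂ = 2 ^ (r + 1) * 2 ^ h * 2 ^ j := by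
    simp only [← pow_add, e]
  have q : (0 : ℝ) < (1 / 2) ^ j * 2 ^ p / 2 ^ h := by positivity
  rw [show (1 / 2 : ℝ) ^ j₂ * 2 ^ (r + 1) = (1 / 2) ^ j * 2 ^ p / 2 ^ h * 2 ^ c by
    simp only [one_div, inv_pow]; field_simp; linarith,
    show (1 / 2 : ℝ) ^ j * x * 2 ^ p = (1 / 2) ^ j * 2 ^ p / 2 ^ h * (x * 2 ^ h) by field_simp] at k
  obtain ⟨k1, k2⟩ := k
  constructor <;> nlinarith

end Vale.Agent.P004C.Al.Re

namespace Vale.Agent.P004C.Al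

open P004C.Cm Re

theorem rel (a0 : A0) (a1 : A1) (a2 : A2) (a6 : A6) (a7 : A7) (gbx : GBX) (umf : UMF) (dvf : DVF)
    (pai : PAI) (dj : DJ) (ds2 : DS2) (cmb : CMB) : REL := by
  intro K _ _ ι J Ω Bs A L L₂ _ _ _ _ _ _ _ _ _ _ _ _ _ _ _ _ τ q ⟨r, c, ax⟩ η c0 E s hs hi ⟨C, hC⟩
    n b v h h0
  obtain rfl : n = finrank K L := by rw [finrank_eq_card_basis b, Fintype.card_fin]
  obtain ⟨⟨b₂, v₂⟩, g₂⟩ := gbx K ι J Ω Bs L₂
  obtain ⟨τ₂, t1, t2, θ, θ1, θ2⟩ := q.ind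
  obtain ⟨t, l, t0, tl, H⟩ := cmb K ι J Ω Bs L L₂ _ b _ b₂ q.two v v₂
    (ds2 K ι J Ω Bs L L₂ _ b _ b₂ τ₂ θ q.two t1 θ1 θ2 v v₂) η c0 E s hs hi h h0
  obtain ⟨c', hc⟩ : ∃ c', c' = C + (r + 1) + (c + c * r) := ⟨_, rfl⟩
  obtain ⟨m0, H⟩ := H r ((1 / 2) ^ c') (by positivity)
  refine ⟨m0 + 2 * (c' + 1) + 3, fun M hM => ?_⟩
  obtain ⟨m, rfl⟩ : ∃ m, M = m + (c' + 1) := ⟨M - (c' + 1), by omega⟩
  obtain ⟨B0, H⟩ := H m (by omega)
  refine ⟨B0, fun e he lam La => ?_⟩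
  obtain ⟨B, hB, hB'⟩ : ∃ B, B0 ≤ B ∧ m + (c' + 2) ≤ B := ⟨B0 + (m + (c' + 2)), by omega, by omega⟩
  have s0 : algebraMap (𝓞 K) (𝓞 L) s ≠ 0 := fun k =>
    Gx.ne_of (M := L) hs (by rw [← Gx.coe_s, k]; rfl)
  obtain ⟨W, Φ, φ, X, i, x1, x2⟩ := ax _ (mul_ne_zero (Nat.cast_ne_zero.2 t0) s0) (m + (c' + 2)) B
    (by omega) hB'
  have l0 : l ≠ 0 := by rintro rfl; simp [t0] at tl
  have X₁ : Aux (2 * l) B W Φ φ := aux_dvd X ((by exact_mod_cast Nat.cast_dvd_cast tl :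
    (2 * l : 𝓞 L) ∣ t).mul_right _)
  have X₂ := aux_up q.two X₁ i
  rw [map_mul, map_natCast, map_ofNat] at X₂
  have m2 : 2 ≤ m := by omega
  have n₁ : (2 * l : 𝓞 L) ≠ 0 := by exact_mod_cast (by omega : 2 * l ≠ 0)
  have n₂ : (2 * l : 𝓞 L₂) ≠ 0 := by exact_mod_cast (by omega : 2 * l ≠ 0)
  obtain ⟨⟨γ, g⟩, R⟩ := (gbx K ι J Ω Bs L).2 r m W m2 (fun j => ⟨X.max j, (aux_two X₁ j).1⟩) X.inj
  obtain ⟨R, hR⟩ := R _ n₁ (dvd_mul_right _ _)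
  obtain ⟨⟨γ₂, g₂⟩, R₂⟩ := g₂ r m _ m2 (fun j => ⟨X₂.max j, (aux_two X₂ j).1⟩) X₂.inj
  obtain ⟨R₂, hR₂⟩ := R₂ _ n₂ (dvd_mul_right _ _)
  have d₁ := ((dj K ι J Ω Bs A L r B W _ (fun j => ⟨X.max j, X₁.cop j⟩) n₁ (dvd_mul_right _ _)
    m m2).2 R hR).2.2 _ b φ γ
  have d₂ := ((dj K ι J Ω Bs A L₂ r B _ _ (fun j => ⟨X₂.max j, X₂.cop j⟩) n₂ (dvd_mul_right _ _)
    m m2).2 R₂ hR₂).2.2 _ b₂ (fun j x => φ j (Algebra.norm L x)) γ₂
  rw [sw_up] at d₂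
  have cw := (((dvf K ι J Ω Bs A).2.2 L).2.1 τ fun x => by
    rw [IsScalarTower.algebraMap_apply L L₂ A, ← t2, AlgEquiv.commutes]).2 _ W
  have pa := fun M hM => (pai K ι J Ω Bs A L L₂ τ q M hM).1 _ cw
  have tw := fun M (hM : 2 ≤ M) => two a0 a2 dvf pai Bs q hM (Set.finite_range W)
    (by rintro _ ⟨j, rfl⟩; exact ⟨X.max j, i j, aux_pv X₁ j⟩) (sw_eq X.max) cw
  have ts := fun M (hM : 2 ≤ M) => two a0 a2 dvf pai Bs q hM (ps_fin hs)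
    (fun P p => ⟨p.1, hi P p, s, hs, p.2⟩) (ss_eq s) ((dvf K ι J Ω Bs A).2.1 τ s)
  rw [Set.ncard_range_of_injective X.inj, Nat.card_fin] at tw
  set d := dd (Sw ι J A W)
  set I' := IL L (Sw ι J A W)
  set I := IL L₂ (Sw ι J A W)
  have lev : ∀ a (ha : a ≤ B), c' < a → a ≤ c' + 2 → ∀ f, f = rd r ha ∘ ff A φ →
      Jx d f (UL ι J L (m + a)) I' ≠ 0 ∧ Jx d (f ∘ nm (ua τ)) (UL ι J L₂ (m + a)) I ≠ 0 ∧
      i2 (Kf d f (UL ι J L (m + a))) = 2 ^ (finrank K L + r) ∧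
      v2 (Jx d f (UL ι J L (m + a)) I') ≤ c' ∧
      v2 (Jx d (f ∘ nm (ua τ)) (UL ι J L₂ (m + a)) I) ≤ c' ∧
      Dt ι J b m φ γ R = (1 / 2) ^ v2 (Jx d f (UL ι J L (m + a)) I') ∧
      Dt ι J b₂ m (fun j x => φ j (Algebra.norm L x)) γ₂ R₂ =
        (1 / 2) ^ v2 (Jx d (f ∘ nm (ua τ)) (UL ι J L₂ (m + a)) I) := by
    rintro a ha a1' a2' _ rfl
    obtain ⟨k1, k2, k3⟩ := d₁ a (rd r ha ∘ ff A φ) v X.loc g (by omega) ha fun x j => by
      rw [Function.comp, ff_ap]; rfl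
    obtain ⟨-, k4, k5⟩ := d₂ a ((rd r ha ∘ ff A φ) ∘ nm (ua τ)) v₂ X₂.loc g₂ (by omega) ha
      fun x j => by rw [Function.comp, Function.comp, nm_ua q, ff_ap]; rfl
    have k6 := j_le a7 umf gbx dj Bs X₁ (Nat.cast_ne_zero.2 l0) (M := m + a) (by omega) (by omega)
      ha (pa _ (by omega)).dv' x1 x2
    obtain ⟨w1, -, w2, -, w3⟩ := tw (m + a) (by omega)
    have k7 := a1 _ _ _ _ _ _ _ _ _ _ _ (pa (m + a) (by omega)) (ff_mu X (rd r ha) _) k2 w1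
    have k8 := v2_dvd (k7 ▸ (dvd_mul_right _ _).mul_right _) (mul_ne_zero k2 w1)
    rw [v2_mul k2 w1] at k8
    have k9 := (ts (m + a) (by omega)).2.2.2.1.trans (hC (m + a) (by omega))
    have k10 : v2 (Jx d ((rd r ha ∘ ff A φ) ∘ nm (ua τ)) (UL ι J L₂ (m + a)) I) ≤ c' :=
      k8.trans ((add_le_add k6 le_rfl).trans (by omega))
    exact ⟨k2, k4, k1, k6.trans (by omega), k10, k3 (k6.trans_lt (by omega)), k5 (by omega)⟩
  have ha : c' + 2 ≤ B := by omega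
  have ef : rd r (Nat.le_succ (c' + 1)) ∘ rd r ha ∘ ff A φ =
      rd r ((Nat.le_succ _).trans ha) ∘ ff A φ := funext fun x => rd_rd _ _ _
  obtain ⟨p1, p2, p3, p4, p5, p6, p7⟩ := lev (c' + 1) _ (by omega) (by omega) _ ef
  obtain ⟨q1, q2, -, -, -, q6, q7⟩ := lev (c' + 2) ha (by omega) le_rfl _ rfl
  obtain ⟨u1, -, -, u2⟩ := umf K ι J Ω Bs A
  have sq : ∀ (L : Type) [Field L] [Algebra L A] M, 2 ≤ M →
      sq (UL ι J L M : Subgroup Aˣ) ≤ UL ι J L (M + 1) := fun L _ _ M hM => by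
    rintro _ ⟨x, hx, rfl⟩
    exact ⟨u1.sq M hM ⟨x, hx.1, rfl⟩, pow_mem hx.2 2⟩
  have k := a6 _ _ _ _ d _ _ (rd r ha ∘ ff A φ) (rd r (Nat.le_succ (c' + 1))) _ _ _ _ I' I
    (pa (m + (c' + 1)) (by omega)) (pa (m + (c' + 2)) (by omega)) (inf_le_inf_right _ (u1.le _))
    (inf_le_inf_right _ (u1.le _)) (sq L₂ _ (by omega)) (sq L _ (by omega))
    (pai K ι J Ω Bs A L L₂ τ q _ (by omega)).2.2.1 (ff_mu X _ _) (rd_onto _) rd_sq q1 q2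
    (half_inj (q6.symm.trans p6)) (half_inj (q7.symm.trans p7)) (by rw [p3]; positivity) (by
      rw [p3, rd_card, pow_add]
      exact Nat.mul_le_mul_right _ (((u2 L).2 (m + (c' + 1)) 1 (by omega)).trans (by simp)).ge)
  obtain ⟨w1, w2, w3, -⟩ := tw (m + (c' + 1)) (by omega)
  have k7 := a1 _ _ _ _ _ _ _ _ _ _ _ (pa (m + (c' + 1)) (by omega)) (ef ▸ ff_mu X _ _) p1 w1
  rw [Subgroup.relIndex_eq_one.2 k, mul_one] at k7
  have k8 := (v2_mul p2 w2).symm.trans ((congrArg v2 k7).trans (v2_mul p1 w1))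
  have hf : ∀ j, j ≤ c' → (1 / 2 : ℝ) ^ c' ≤ (1 / 2) ^ j := fun j k =>
    pow_le_pow_of_le_one (by norm_num) (by norm_num) k
  have k9 := H e B he hB lam La W Φ φ X i γ R γ₂ R₂ g hR g₂ hR₂ (p6 ▸ hf _ p4) (p7 ▸ hf _ p5)
  rw [p6, p7] at k9
  exact fin_ap k9 k8 w3 (ts _ (by omega)).2.2.1

end Vale.Agent.P004C.Al
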