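import Vale.Agent.P004C.Al.St
import Vale.Agent.P004R.Gl
import Vale.Agent.P022K.Cheb.Main

/-!
# P004 C, block AL: row SMX
-/

open NumberField Module

noncomputable section

namespace Vale.Agent.P004C.Al

open Vale.Agent.P022 Vale.Agent.P022.H916 Vale.Agent.P004R.Gl

namespace Sx

variable {M : Type} [Field M] [NumberField M] {j : M →+* Qb} {P : Ideal (𝓞 Qb)} {l : ℕ} {φ : GQ}

theorem dvd_norm (j : M →+* Qb) (hP : P.IsPrime) (hl : l.Prime) (h : (l : 𝓞 Qb) ∈ P) :
    l ∣ Ideal.absNorm (below j P) := by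
  have a := Ideal.absNorm_dvd_absNorm_of_le
    ((Ideal.span_singleton_le_iff_mem _).2 ((mem_below (j := j) l).2 h))
  rw [Ideal.absNorm_span_natCast] at a
  obtain ⟨i, -, e⟩ := (Nat.dvd_prime_pow hl).1 a
  have := two_le j hP hl.ne_zero h
  rcases i with _ | i
  · exact absurd (e.trans (pow_zero l)) this.ne'
  · exact e ▸ dvd_pow_self l i.succ_ne_zero

/-- a Frobenius element which fixes the field gives a prime of degree one -/
theorem deg_one (hP : P.IsPrime) (hl : l.Prime) (h : (l : 𝓞 Qb) ∈ P)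
    (hφ : ∀ x : 𝓞 Qb, φ • x - x ^ l ∈ P) (m : φ ∈ GK j) : Ideal.absNorm (below j P) = l := by
  have h0 := below_ne j hl.ne_zero h
  have := (below_pr j hP).isMaximal h0
  let _ : Field (𝓞 M ⧸ below j P) := Ideal.Quotient.field _
  have : Finite (𝓞 M ⧸ below j P) := Ideal.finiteQuotientOfFreeOfNeBot _ h0
  let _ : Fintype (𝓞 M ⧸ below j P) := Fintype.ofFinite _
  have e : Ideal.absNorm (below j P) = Fintype.card (𝓞 M ⧸ below j P) := by
    rw [Ideal.absNorm_apply, Submodule.cardQuot_apply, Nat.card_eq_fintype_card]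
  have k : ∀ x : (𝓞 M ⧸ below j P)ˣ, x ^ (l - 1) = 1 := fun x => by
    obtain ⟨y, hy⟩ := Ideal.Quotient.mk_surjective (x : 𝓞 M ⧸ below j P)
    have k1 : y - y ^ l ∈ below j P := by
      have := hφ (RingOfIntegers.mapRingHom j y)
      rw [show φ • RingOfIntegers.mapRingHom j y = RingOfIntegers.mapRingHom j y from
        RingOfIntegers.ext (m y), ← map_pow, ← map_sub] at this
      exact this
    rw [← Ideal.Quotient.eq, map_pow, hy, ← Units.val_pow_eq_pow_val, Units.val_inj] at k1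
    refine mul_left_cancel (a := x) ?_
    rw [← pow_succ', Nat.sub_add_cancel hl.pos, mul_one, ← k1]
  have k2 := Nat.le_of_dvd (by have := hl.two_le; omega) ((FiniteField.forall_pow_eq_one_iff _ _).1 k)
  have k3 := Nat.le_of_dvd (by have := two_le j hP hl.ne_zero h; omega) (dvd_norm j hP hl h)
  have := hl.two_le
  omega

theorem sm_of {c : Ideal (𝓞 M)} (hl : l.Prime) (l2 : l ≠ 2) (hc : Ideal.absNorm c = l)
    (hd : ¬ l ∣ (discr M).natAbs) : Sm c l := by
  refine ⟨hl, l2, hc, fun h => hd ?_⟩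
  have : (Ideal.span {(l : ℤ)}).IsMaximal :=
    PrincipalIdealRing.isMaximal_of_irreducible (Nat.prime_iff_prime_int.1 hl).irreducible
  have k := pow_sub_one_dvd_differentIdeal ℤ (p := Ideal.span {(l : ℤ)}) c 2
    (by simpa using hl.ne_zero) (by simpa [Ideal.map_span] using h)
  rw [← absNorm_differentIdeal M (𝓞 M), ← hc]
  exact map_dvd _ (by simpa using k)

theorem ex_fr (j : M →+* Qb) (g : GQ) {n : ℕ} (hn : n ≠ 0) : ∃ (l : ℕ) (P : Ideal (𝓞 Qb)) (φ : GQ),
    l.Prime ∧ ¬ l ∣ n ∧ P.IsPrime ∧ (l : 𝓞 Qb) ∈ P ∧ (∀ x : 𝓞 Qb, φ • x - x ^ l ∈ P) ∧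
      g⁻¹ * φ ∈ GK j := by
  obtain ⟨l, φ, a, b, ⟨P, c, d, e⟩, f⟩ := P022K.Cheb.exists_fr (O := {φ | g⁻¹ * φ ∈ GK j}) (g := g)
    ((isOpen_GK j).preimage (continuous_const.mul continuous_id)) (by simp) n.primeFactors
  exact ⟨l, P, φ, a, fun k => b (Nat.mem_primeFactors.2 ⟨a, k, hn⟩), c, d, e, f⟩

end Sx

open Sx in
theorem smx : SMX := fun L L₂ _ _ _ _ _ h2 N hN => by
  let j₂ : L₂ →+* Qb := (IsAlgClosed.lift (R := ℚ) (S := L₂) (M := Qb)).toRingHom
  let j := j₂.comp (algebraMap L L₂)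
  have sp : ∀ {l a b : ℕ}, l.Prime → ¬ l ∣ 2 * N * a * b → l ≠ 2 ∧ ¬ l ∣ N ∧ ¬ l ∣ a ∧ ¬ l ∣ b :=
    fun hl h => ⟨fun e => h (e ▸ ((dvd_mul_right _ _).mul_right _).mul_right _),
      fun e => h (((e.mul_left _).mul_right _).mul_right _), fun e => h ((e.mul_left _).mul_right _),
      fun e => h (e.mul_left _)⟩
  constructor
  · obtain ⟨l, P, φ, a, b, c, d, e, f⟩ := ex_fr j₂ 1 (n := 2 * N * (discr L₂).natAbs * 1)
      (by simp [hN, discr_ne_zero])
    obtain ⟨b1, b2, b3, -⟩ := sp a b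
    exact ⟨l, _, b2, sm_of a b1 (deg_one c a d e (by simpa using f)) b3⟩
  obtain ⟨α, hα⟩ : ∃ α : 𝓞 L₂, ∀ y : L, algebraMap L L₂ y ≠ α := by
    by_contra! k
    have s : Function.Surjective (algebraMap L L₂) := fun x => by
      obtain ⟨a, b, -, rfl⟩ := IsFractionRing.div_surjective (A := 𝓞 L₂) x
      obtain ⟨a', ha⟩ := k a
      obtain ⟨b', hb⟩ := k b
      exact ⟨a' / b', by rw [map_div₀, ha, hb]⟩
    have := (LinearEquiv.ofBijective (Algebra.linearMap L L₂)
      ⟨(algebraMap L L₂).injective, s⟩).finrank_eq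
    rw [finrank_self, h2] at this
    omega
  obtain ⟨g, hg⟩ : ∃ g : GK j, (g : GQ) (j₂ α) ≠ j₂ α := by
    by_contra! k
    obtain ⟨y, hy⟩ := fixed j k
    exact hα y (j₂.injective hy)
  set β := RingOfIntegers.mapRingHom j₂ α with hβ
  have d0 : (g : GQ) • β - β ≠ 0 := fun e => hg (congrArg Subtype.val (sub_eq_zero.1 e))
  obtain ⟨n, n0, hn⟩ := (Algebra.IsIntegral.isIntegral (R := ℤ)
    ((g : GQ) • β - β)).isAlgebraic.exists_nonzero_dvd (mem_nonZeroDivisors_of_ne_zero d0)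
  obtain ⟨l, P, φ, a, b, c, d, e, f⟩ := ex_fr j₂ g (n := 2 * N * (discr L).natAbs * n.natAbs)
    (by simp [hN, discr_ne_zero, n0])
  obtain ⟨b1, b2, b3, b4⟩ := sp a b
  have m : φ ∈ GK j := by
    rw [show φ = g * ((g : GQ)⁻¹ * φ) by group]
    exact mul_mem g.2 fun x => f _
  have nc := deg_one c a d e m
  refine ⟨l, below j P, b2, sm_of a b1 nc b3, ?_⟩
  have le : (below j P).map (algebraMap (𝓞 L) (𝓞 L₂)) ≤ below j₂ P :=
    Ideal.map_le_iff_le_comap.2 fun x hx => hx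
  have q0 := below_ne j₂ a.ne_zero d
  have n2 : Ideal.absNorm ((below j P).map (algebraMap (𝓞 L) (𝓞 L₂))) = l ^ 2 := by
    rw [Ideal.absNorm_algebraMap, nc, ← IsFractionRing.finrank_eq (𝓞 L) L (𝓞 L₂) L₂, h2]
  have n3 := Ideal.absNorm_dvd_absNorm_of_le le
  rw [n2] at n3
  obtain ⟨i, hi, n4⟩ := (Nat.dvd_prime_pow a).1 n3
  have n5 : i = 2 := by
    have := two_le j₂ c a.ne_zero d
    by_contra k
    obtain rfl : i = 1 := by
      rcases i with _ | i
      · exact absurd (n4.trans (pow_zero l)) this.ne'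
      · omega
    have k1 := pow_norm _ (below_pr j₂ c) q0 α
    rw [n4, pow_one] at k1
    have k2 : β ^ l - β ∈ P := by
      rw [hβ, ← map_pow, ← map_sub]
      exact k1
    have k3 : φ • β = (g : GQ) • β := by
      rw [show φ = g * ((g : GQ)⁻¹ * φ) by group, mul_smul]
      congr 1
      exact RingOfIntegers.ext (f α)
    have k4 := P.add_mem (e β) k2
    rw [sub_add_sub_cancel, k3] at k4
    obtain ⟨u, v, huv⟩ := Nat.isCoprime_iff_coprime.2 ((Nat.Prime.coprime_iff_not_dvd a).2 b4)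
    have k5 : ((n.natAbs : ℤ) : 𝓞 Qb) ∈ P := by
      obtain ⟨w, hw⟩ := hn
      have : (n : 𝓞 Qb) ∈ P := by
        rw [← eq_intCast (algebraMap ℤ (𝓞 Qb)), hw]
        exact P.mul_mem_right _ k4
      rcases Int.natAbs_eq_iff.1 (rfl : n.natAbs = n.natAbs) with z | z
      · rwa [← z]
      · rw [z, Int.cast_neg, neg_mem_iff] at this
        exact this
    refine c.ne_top ((Ideal.eq_top_iff_one _).2 ?_)
    rw [← Int.cast_one, ← huv, Int.cast_add, Int.cast_mul, Int.cast_mul]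
    exact P.add_mem (P.mul_mem_left _ (by simpa using d)) (P.mul_mem_left _ k5)
  unfold Ine
  rw [eq_of_norm le (by rw [n2, n4, n5]) q0]
  exact (below_pr j₂ c).isMaximal q0

end Vale.Agent.P004C.Al
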