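import Vale.Agent.P004C.Al.St
import Vale.Agent.P004C.Al.Gbx
import Vale.Agent.P004C.As.Val
import Vale.Agent.P004C.As.Vaq

/-!
# P004 C, block AL: the completion at `v` and the filtration (rows KV, GBX, UMF)
-/

set_option linter.unusedSectionVars false

open NumberField Module
open scoped Classical

noncomputable section

namespace Vale.Agent.P004C.Al

namespace Uf

open Gx As

variable {K : Type} [Field K] [NumberField K] {ι : ℂ →+* ℂ_[2]} {J : K →+* ℂ} {Ω : ℝ}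
  {A : Type} [Field A] [NumberField A] [Algebra K A] {m : ℕ}

theorem nm_div (z : ℂ_[2]) (m : ℕ) : ‖z / 2 ^ m‖ ≤ 1 ↔ ‖z‖ ≤ (1 / 2) ^ m := by
  rw [norm_div, norm_pow, nm_two, div_le_one (by positivity)]

/-- the residue field at `v` has two elements -/
theorem res (B : Base ι J Ω) {z : K} (h : ‖ι (J z)‖ ≤ 1) :
    ∃ n : ℤ, ‖ι (J ((z - n) / 2))‖ ≤ 1 := by
  obtain ⟨x, -, k⟩ := Va.apx (⊤ : Ideal (𝓞 K)) z 1 ⟨1, by simp, trivial⟩ (Va.ov_iff.2 h)
  have c : Nat.card (𝓞 K ⧸ Qm ι J K 1) = 2 :=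
    (vaq0 K ι J Ω B K).2.2.2.1.trans (by simp)
  have : ∃ n : ℤ, x - n ∈ Qm ι J K 1 := by
    obtain ⟨y, hy, un⟩ := (Nat.card_eq_two_iff' (0 : 𝓞 K ⧸ Qm ι J K 1)).1 c
    by_cases e : Ideal.Quotient.mk (Qm ι J K 1) x = 0
    · exact ⟨0, by simpa using Ideal.Quotient.eq_zero_iff_mem.1 e⟩
    · exact ⟨1, by simpa using Ideal.Quotient.eq.1 ((un _ e).trans (un (Ideal.Quotient.mk _ 1)
        fun e1 => e (by rw [← mul_one x, map_mul, e1, mul_zero])).symm)⟩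
  obtain ⟨n, hn⟩ := this
  refine ⟨n, Va.ov_iff.1 ?_⟩
  convert (Ov ι J K).sub_mem hn k using 1
  simp
  ring

theorem apz (B : Base ι J Ω) (m : ℕ) {z : K} (h : ‖ι (J z)‖ ≤ 1) :
    ∃ n : ℤ, ‖ι (J ((z - n) / 2 ^ m))‖ ≤ 1 := by
  induction m with
  | zero => exact ⟨0, by simpa using h⟩
  | succ m k =>
    obtain ⟨n, k⟩ := k
    obtain ⟨n', k'⟩ := res B k
    refine ⟨n + 2 ^ m * n', ?_⟩
    convert k' using 4
    push_cast
    field_simp
    ring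

theorem um_iff (hm : 1 ≤ m) {x : Aˣ} : x ∈ Um ι J A m ↔ V1 ι J m (x : A) :=
  ⟨fun h => Subgroup.closure_induction (p := fun (x : Aˣ) _ => V1 ι J m (x : A)) (fun _ => id) v1_one
    (fun _ _ _ _ => v1_mul) (fun x _ k => by simpa using v1_inv hm k) h,
    fun h => Subgroup.subset_closure h⟩

theorem v1_sq (hm : 1 ≤ m) {x : A} (h : V1 ι J m x) : V1 ι J (m + 1) (x ^ 2) := by
  obtain ⟨a, ha, rfl⟩ := v1_iff.1 h
  obtain ⟨k, rfl⟩ := Nat.exists_eq_add_of_le' hm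
  exact v1_iff.2 ⟨a + 2 ^ k * a ^ 2, add_mem ha (mul_mem (pow_mem (ofNat_mem _ 2) k)
    (pow_mem ha 2)), by ring⟩

theorem v1_rt {x : A} (h : V1 ι J 2 x) (k : V1 ι J (m + 1) (x ^ 2)) : V1 ι J m x := by
  obtain ⟨a, ha, rfl⟩ := v1_iff.1 h
  obtain ⟨n, u⟩ := v1_unit le_rfl (v1_iff.2 ⟨a, ha, rfl⟩ : V1 ι J 1 (1 + 2 ^ 1 * a))
  refine mem_Ov.1 ?_
  convert (Ov ι J A).mul_mem k u using 1
  rw [eq_mul_inv_iff_mul_eq₀ n]
  ring

theorem v1_sep {x : A} (h : ∀ m, 1 ≤ m → V1 ι J m x) : x = 1 := by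
  obtain ⟨σ, hσ⟩ := ex_sg J (rfl : finrank K A = _)
  have := fd K A
  let i : Fin (finrank K A) := ⟨0, finrank_pos⟩
  refine sub_eq_zero.1 ((map_eq_zero (σ i)).1 ((map_eq_zero ι).1 (norm_le_zero_iff.1
    (ge_of_tendsto (tendsto_pow_atTop_nhds_zero_of_lt_one (r := 1 / 2) (by norm_num) (by norm_num))
      (Filter.eventually_atTop.2 ⟨1, fun m hm => (nm_div _ m).1 ?_⟩)))))
  simpa only [map_div₀, map_pow, map_ofNat] using Va.emb_le (hσ.ext i) (h m hm)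

theorem vi_act (σ : A ≃ₐ[K] A) {x : A} (h : Vi ι J x) : Vi ι J (σ x) :=
  let ⟨s, a, b⟩ := h
  ⟨s, a, by simpa using map_isIntegral_int σ b⟩

theorem v1_act (σ : A ≃ₐ[K] A) {x : A} (h : V1 ι J m x) : V1 ι J m (σ x) := by
  simpa only [V1, map_div₀, map_sub, map_one, map_pow, map_ofNat] using vi_act σ h

theorem v1_quo {x y : A} (h : x ≠ 0 ∧ x⁻¹ ∈ Ov ι J A) (k : x ∈ Ov ι J A) :
    V1 ι J m (x⁻¹ * y) ↔ Vi ι J ((y - x) / 2 ^ m) := by
  have := h.1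
  refine ⟨fun e => mem_Ov.1 ?_, fun e => mem_Ov.1 ?_⟩
  · convert (Ov ι J A).mul_mem k e using 1
    field_simp
  · convert (Ov ι J A).mul_mem h.2 e using 1
    field_simp

theorem idx (B : Base ι J Ω) (hm : 1 ≤ m) (i : ℕ) :
    (Um ι J A (m + i)).relIndex (Um ι J A m) = 2 ^ (finrank K A * i) := by
  have k : ∀ a : 𝓞 A, V1 ι J m (1 + 2 ^ m * (a : A)) := fun a => v1_iff.2 ⟨_, int_Ov a, rfl⟩
  let g : 𝓞 A → Um ι J A m ⧸ (Um ι J A (m + i)).subgroupOf (Um ι J A m) := fun a =>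
    QuotientGroup.mk ⟨Units.mk0 _ (v1_unit hm (k a)).1, (um_iff hm).2 (k a)⟩
  have e : ∀ a (y : Um ι J A m), g a = y ↔
      Vi ι J (((((y : Aˣ) : A) - 1) / 2 ^ m - a) / 2 ^ i) := fun a y => by
    rw [QuotientGroup.eq, Subgroup.mem_subgroupOf, um_iff (hm.trans (Nat.le_add_right _ _))]
    refine (show _ ↔ V1 ι J (m + i) ((1 + 2 ^ m * (a : A))⁻¹ * (y : Aˣ)) by simp).trans
      ((v1_quo (v1_unit hm (k a)) (v1_mem (k a))).trans (iff_of_eq (congrArg _ ?_)))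
    field_simp
    ring
  have s : Function.Surjective g := fun q => by
    obtain ⟨y, rfl⟩ := QuotientGroup.mk_surjective q
    obtain ⟨a, -, h⟩ := Va.apx (⊤ : Ideal (𝓞 A)) _ i ⟨1, by simp, trivial⟩ ((um_iff hm).1 y.2)
    exact ⟨a, (e a y).2 (by simpa only [← neg_div, neg_sub, mem_Ov] using (Ov ι J A).neg_mem h)⟩
  have c : Setoid.ker g = (Qm ι J A i).quotientRel := Setoid.ext fun a b => by
    rw [Setoid.ker_def, eq_comm, Submodule.quotientRel_def]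
    refine (e b _).trans (iff_of_eq (congrArg _ ?_))
    simp
  obtain ⟨-, -, v1, v2, -⟩ := vaq0 K ι J Ω B A
  rw [pow_mul, ← v2, ← map_pow, ← v1]
  exact (Nat.card_congr (Setoid.quotientKerEquivOfSurjective g s)).symm.trans
    (by rw [c]; rfl)

variable {L : Type} [Field L] [NumberField L] [Algebra K L] [Algebra L A] [IsScalarTower K L A]

theorem v1_map {x : L} : V1 ι J m (algebraMap L A x) ↔ V1 ι J m x := by
  simpa only [V1, mem_Ov, map_div₀, map_sub, map_one, map_pow, map_ofNat] using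
    Ds.ov_map (ι := ι) (J := J) (N := A) (x := (x - 1) / 2 ^ m)

theorem ul_eq (hm : 1 ≤ m) : (UL ι J L m : Subgroup Aˣ) =
    (Um ι J L m).map (Units.map (algebraMap L A : L →* A)) :=
  Subgroup.ext fun _ => ⟨fun ⟨a, x, e⟩ => ⟨x, (um_iff hm).2 (v1_map.1 ((um_iff hm).1 (e ▸ a :
    Units.map (algebraMap L A : L →* A) x ∈ Um ι J A m))), e⟩,
    fun ⟨x, a, e⟩ => ⟨e ▸ (um_iff hm).2 (v1_map.2 ((um_iff hm).1 a)), x, e⟩⟩

end Uf

open Uf Gx

theorem kv : KV := fun K _ _ ι J Ω B => by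
  have c := (algebraMap_isometry ℚ_[2] ℂ_[2]).isClosedEmbedding.isClosed_range
  have k : ∀ z : K, ‖ι (J z)‖ ≤ 1 → ι (J z) ∈ (algebraMap ℚ_[2] ℂ_[2]).fieldRange := fun z h => by
    refine c.closure_subset (Metric.mem_closure_iff.2 fun ε e => ?_)
    obtain ⟨m, hm⟩ := exists_pow_lt_of_lt_one e (show (1 / 2 : ℝ) < 1 by norm_num)
    obtain ⟨n, hn⟩ := apz B m h
    refine ⟨n, ⟨n, by simp⟩, (dist_eq_norm _ _).trans_lt (((nm_div _ m).1 ?_).trans_lt hm)⟩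
    simpa only [map_div₀, map_sub, map_pow, map_ofNat, map_intCast] using hn
  have k' : ∀ z : K, (ι.comp J) z ∈ (algebraMap ℚ_[2] ℂ_[2]).fieldRange := fun z =>
    (le_total ‖ι (J z)‖ 1).elim (k z) fun h => by
      simpa using inv_mem (k z⁻¹ (by simpa using inv_le_one_of_one_le₀ h))
  exact ⟨(algebraMap ℚ_[2] ℂ_[2]).rangeRestrictFieldEquiv.symm.toRingHom.comp
    ((ι.comp J).codRestrict _ k'), fun x => (congrArg Subtype.val
      ((algebraMap ℚ_[2] ℂ_[2]).rangeRestrictFieldEquiv.apply_symm_apply ⟨_, k' x⟩)).symm⟩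

theorem gbx : GBX := fun _ _ _ _ _ _ B _ _ _ _ => ⟨vb_ex rfl, fun _ _ _ hm h i =>
  ⟨gb_ex B rfl (fun j => (h j).1) i (fun j => (h j).2) hm, fun _ _ => rp_ex (by omega)⟩⟩

theorem umf : UMF := fun K _ _ ι J Ω B A _ _ _ =>
  ⟨⟨fun m => Subgroup.closure_mono fun _ => v1_mono m.le_succ,
    fun m hm _ ⟨x, a, e⟩ => e ▸ Subgroup.subset_closure
      (v1_sq (by omega) ((um_iff (by omega)).1 a)),
    fun m x a b => Subgroup.subset_closure
      (v1_rt ((um_iff one_le_two).1 a) ((um_iff m.succ_pos).1 b)),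
    fun x h => Units.ext (v1_sep fun m hm => (um_iff hm).1 (h m))⟩,
  fun _ _ h => um_iff h, fun m σ => (MonoidHom.map_closure _ _).trans_le
    (Subgroup.closure_mono fun _ ⟨x, a, e⟩ => e ▸ v1_act σ a),
  fun L _ _ _ _ _ => ⟨fun _ => Ds.ov_map, fun m i hm => by
    rw [ul_eq hm, ul_eq (hm.trans (Nat.le_add_right _ _))]
    exact (Subgroup.relIndex_map_map_of_injective _ _
      (Units.map_injective (algebraMap L A).injective)).trans (idx B hm i)⟩⟩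

end Vale.Agent.P004C.Al
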