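import Vale.Agent.P004C.Al.A0
import Vale.Agent.P004C.Al.A2
import Vale.Agent.P004C.Al.A3
import Vale.Agent.P004C.Al.Aux4
import Vale.Agent.P004C.Al.Bd1
import Vale.Agent.P004C.Al.Cmb
import Vale.Agent.P004C.Al.Cub
import Vale.Agent.P004C.Al.Dic
import Vale.Agent.P004C.Al.Dj
import Vale.Agent.P004C.Al.Ds2
import Vale.Agent.P004C.Al.Dvf
import Vale.Agent.P004C.Al.Icx
import Vale.Agent.P004C.Al.Lf2
import Vale.Agent.P004C.Al.Lf3
import Vale.Agent.P004C.Al.Lin
import Vale.Agent.P004C.Al.Log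
import Vale.Agent.P004C.Al.Pai
import Vale.Agent.P004C.Al.Par
import Vale.Agent.P004C.Al.Rel
import Vale.Agent.P004C.Al.Smx
import Vale.Agent.P004C.Al.Umf
import Vale.Agent.P004C.Al.Alx

/-!
# P004 C, block AL: all rows
-/

namespace Vale.Agent.P004C.Al

theorem pai0 : PAI := pai umf dvf

theorem aux0 : AUX := aux (log_row kv) lin

theorem rel0 (b : BND) (l : LEAD) : REL :=
  rel a0 a1 a2 a6 a7 gbx umf dvf pai0 (dj kv a7) ds2 (cmb b l smx)

/-- **the export** -/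
theorem alx0 (b : BND) (l : LEAD) : ALX :=
  alx gbx pai0 (rel0 b l) icx lf2 lf3 dis (dic umf) (bd1 a0 a5 a8 a9 umf dvf pai0)
    (cub a0 a3 umf dvf pai0) (par aux0 icx eta)

end Vale.Agent.P004C.Al
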