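import Vale.Agent.P004C.Al.St3
import Vale.Agent.P004R.Gl
import Vale.Agent.P022E.GW.Hyp

/-!
# P004 C, block AL: fields inside the algebraic closure
-/

set_option linter.all false

open NumberField Module
open scoped Classical

noncomputable section

namespace Vale.Agent.P004C.Al.Fx

open Vale.Agent.P022 Vale.Agent.P022.H916 P004R.Gl
open Vale.Agent.P027M.S (Inert)
open Vale.Agent.P027M.M (ze)
open Vale.Agent.P022E.GW (Ov)

abbrev M2 : Type := Matrix (Fin 2) (Fin 2) (ZMod 2)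

theorem m_a : ∀ a b : M2, a * b = 1 → a ^ 3 = 1 ∨ a ^ 2 = 1 := by decide +kernel

theorem m_b : ∀ a b : M2, a ^ 2 = 1 → b ^ 2 = 1 → a ^ 3 = 1 ∨ b ^ 3 = 1 ∨ (a * b) ^ 3 = 1 := by
  decide +kernel

theorem m_c : ∀ a b : M2, a ^ 3 = 1 → b ^ 3 = 1 → b ≠ 1 → a = 1 ∨ a * b = 1 ∨ a * b ^ 2 = 1 := by
  decide +kernel

variable {K L L' A : Type} [Field K] [NumberField K] [Field L] [NumberField L] [Field L']
  [NumberField L'] [Field A] [NumberField A] {j : K →+* Qb} {jL : L →+* Qb} {j' : L' →+* Qb}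
  {jA : A →+* Qb} {g t : GQ}

/-- compatible embeddings -/
abbrev Co [Algebra K L] (j : K →+* Qb) (jL : L →+* Qb) : Prop := ∀ x, jL (algebraMap K L x) = j x

/-- normal in the group of `K` -/
abbrev No (j : K →+* Qb) (jL : L →+* Qb) : Prop := ∀ g ∈ GK j, ∀ u ∈ GK jL, g * u * g⁻¹ ∈ GK jL

theorem ex_alg (h : GK jL ≤ GK j) : ∃ _ : Algebra K L, Co j jL := by
  choose f hf using fun x : K => fixed jL (x := j x) fun g => h g.2 x
  let F : K →+* L := ⟨⟨⟨f, jL.injective (by simp [hf])⟩, fun x y => jL.injective (by simp [hf])⟩,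
    jL.injective (by simp [hf]), fun x y => jL.injective (by simp [hf])⟩
  exact ⟨F.toAlgebra, hf⟩

theorem tw [Algebra K L] [Algebra L L'] [Algebra K L'] (a : Co j jL) (b : Co jL j') (c : Co j j') :
    IsScalarTower K L L' := .of_algebraMap_eq fun x => j'.injective (by rw [c, b, a])

theorem Co.le [Algebra K L] (a : Co j jL) : GK jL ≤ GK j := fun g h x => by
  rw [← a]; exact h _

theorem cyc [Algebra K L] (c : Co j jL) (hn : No j jL) (m : t ∈ GK j) {n : ℕ}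
    (h : ∀ i, t ^ i ∈ GK jL ↔ n ∣ i) (k : ∀ g ∈ GK j, ∃ i : ℕ, g⁻¹ * t ^ i ∈ GK jL) :
    finrank K L = n ∧ ∃ σ : L ≃ₐ[K] L, orderOf σ = n ∧ ∀ x, jL (σ x) = t (jL x) := by
  obtain ⟨_, r, D⟩ := ex_dict c hn
  obtain ⟨a, b⟩ := card_eq D m h k
  exact ⟨by rw [← IsGalois.card_aut_eq_finrank, b], r ⟨t, m⟩,
    by rw [orderOf_eq_card_of_forall_mem_powers a, b], fun x => (D.act ⟨t, m⟩ x).symm⟩

theorem pres [Algebra K A] [Algebra L A] (c : Co jL jA) (hn : No j jL) (m : g ∈ GK j)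
    {σ : A ≃ₐ[K] A} (h : ∀ x, jA (σ x) = g (jA x)) : Pres L σ := fun x => by
  obtain ⟨y, hy⟩ := fixed jL (x := g (jL x)) fun u => by
    have := hn g⁻¹ (inv_mem m) u u.2 x
    rw [inv_inv, AlgEquiv.mul_apply, AlgEquiv.mul_apply] at this
    conv_rhs => rw [← this]
    rw [← AlgEquiv.mul_apply g, mul_inv_cancel, AlgEquiv.one_apply]
  exact ⟨y, jA.injective (by rw [h, c, c, hy])⟩

variable {c k : ℕ} {e : GQ → ZMod (2 * 2 ^ k)}

theorem e_one (h : Lw j c k e) : e 1 = 0 := by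
  simpa using h.add 1 (one_mem _) 1 (one_mem _)

theorem e_inv (h : Lw j c k e) (m : g ∈ GK j) : e g⁻¹ = -e g := by
  have := h.add _ (inv_mem m) _ m
  rw [inv_mul_cancel, e_one h] at this
  exact eq_neg_of_add_eq_zero_left this.symm

theorem e_pow (h : Lw j c k e) (m : g ∈ GK j) (i : ℕ) : e (g ^ i) = i * e g := by
  induction i with
  | zero => rw [pow_zero, e_one h, Nat.cast_zero, zero_mul]
  | succ i ih => rw [pow_succ, h.add _ (pow_mem m i) _ m, ih, Nat.cast_succ, add_mul, one_mul]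

theorem e_cj (h : Lw j c k e) (m : g ∈ GK j) (m' : t ∈ GK j) : e (g * t * g⁻¹) = e t := by
  rw [h.add _ (mul_mem m m') _ (inv_mem m), h.add _ m _ m', e_inv h m]
  ring

theorem e_gen (h : Lw j c k e) (m : t ∈ GK j) (u : e t = 1) (m' : g ∈ GK j) :
    e (g * t ^ (-e g).val) = 0 := by
  rw [h.add _ m' _ (pow_mem m _), e_pow h m, u, mul_one, ZMod.natCast_zmod_val, add_neg_cancel]

/-- the fields of the layer over `L` -/
theorem ex_F (h : Lw j c k e) (le : GK jL ≤ GK j) (a : ZMod (2 * 2 ^ k)) :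
    ∃ (F : Type) (_ : Field F) (_ : NumberField F) (jF : F →+* Qb),
      ∀ g, g ∈ GK jF ↔ g ∈ GK jL ∧ a * e g = 0 := by
  let U : Subgroup GQ :=
    { carrier := {g | g ∈ GK jL ∧ a * e g = 0}
      mul_mem' := fun {x y} p q => ⟨mul_mem p.1 q.1, by
        rw [h.add _ (le p.1) _ (le q.1), mul_add, p.2, q.2, add_zero]⟩
      one_mem' := ⟨one_mem _, by rw [e_one h, mul_zero]⟩
      inv_mem' := fun {x} p => ⟨inv_mem p.1, by rw [e_inv h (le p.1), mul_neg, p.2, neg_zero]⟩ }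
  obtain ⟨W, o, hW⟩ := h.opn
  obtain ⟨F, i1, i2, jF, hF⟩ := P022E.GW.Hy.ex_fld (U := U) (Subgroup.isOpen_mono (H₁ := GK jL ⊓ W)
    (fun g p => ⟨p.1, by rw [hW g (le p.1) p.2, mul_zero]⟩) ((isOpen_GK jL).inter o))
  exact ⟨F, i1, i2, jF, fun g => by rw [hF]; rfl⟩

theorem no_F (h : Lw j c k e) (le : GK jL ≤ GK j) (n : No j jL) {a : ZMod (2 * 2 ^ k)}
    (hF : ∀ g, g ∈ GK j' ↔ g ∈ GK jL ∧ a * e g = 0) : No j j' := fun g m u p => by
  obtain ⟨p1, p2⟩ := (hF u).1 p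
  exact (hF _).2 ⟨n g m u p1, by rw [e_cj h m (le p1), p2]⟩

theorem dg_F (h : Lw jL c k e) [Algebra L L'] (co : Co jL j')
    (hF : ∀ g, g ∈ GK j' ↔ g ∈ GK jL ∧ 2 * e g = 0) (m : t ∈ GK jL) (u : e t = 1) :
    finrank L L' = 2 ^ k := by
  refine (cyc co (no_F h le_rfl (fun g a u b => mul_mem (mul_mem a b) (inv_mem a)) hF) m
    (fun i => ?_) fun g a => ⟨_, (hF _).2 ⟨mul_mem (inv_mem a) (pow_mem m _), by
      rw [e_gen h m u (inv_mem a), mul_zero]⟩⟩).1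
  rw [hF, e_pow h m, u, mul_one, and_iff_right (pow_mem m i),
    show (2 : ZMod (2 * 2 ^ k)) * i = (2 * i : ℕ) by push_cast; rfl, ZMod.natCast_eq_zero_iff]
  exact Nat.mul_dvd_mul_iff_left two_pos

theorem gc (h : Lw j c k e) : Gc j (fun g => ze (2 * 2 ^ k) (e g).val) (2 ^ (k + 1)) := by
  have n0 : ((2 * 2 ^ k : ℕ) : ℂ) ≠ 0 := Nat.cast_ne_zero.2 (by positivity)
  have z : ∀ a : ℕ, ze (2 * 2 ^ k) a = ze (2 * 2 ^ k) 1 ^ a := fun a => by
    rw [ze, ze, ← Complex.exp_nat_mul]; congr 1; push_cast; ring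
  have o : ze (2 * 2 ^ k) 1 ^ (2 * 2 ^ k) = 1 := by
    rw [← z, ze, Int.cast_natCast, mul_div_cancel_right₀ _ n0, Complex.exp_two_pi_mul_I]
  obtain ⟨W, w, hW⟩ := h.opn
  refine ⟨fun g a t b => ?_, by positivity, fun g _ => ?_, W, w, fun g a b => ?_⟩
  · rw [z, z, z, h.add g a t b, ZMod.val_add, ← pow_add, ← pow_eq_pow_mod _ o]
  · rw [z, pow_right_comm, pow_succ' 2 k, o, one_pow]
  · rw [z, hW g a b, ZMod.val_zero, pow_zero]

theorem sc_pow {Ω d : ℝ} (h : 0 ≤ d) (n q κ : ℕ) : sc Ω (d ^ q) (n * q) κ = sc Ω d n κ ^ q := by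
  have : √(d ^ q) = √d ^ q := by
    rw [Real.sqrt_eq_iff_mul_self_eq (by positivity) (by positivity), ← mul_pow,
      Real.mul_self_sqrt h]
  rw [sc, sc, mul_pow, pow_mul, this, div_pow (d ^ κ), pow_right_comm d q κ]

end Vale.Agent.P004C.Al.Fx
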