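import Vale.Agent.P004C.Al.Kin
import Vale.Agent.P004C.Al.Gb0
import Vale.Agent.P022K.Cheb.Main
import Vale.Agent.P022D.Sel.Inj
import Vale.Agent.P022.H567.Gch

/-!
# P004 C, block AL: the auxiliary prime
-/

set_option linter.all false

noncomputable section

namespace Vale.Agent.P004C.Al.Kn

open NumberField IsDedekindDomain Module Ideal
open Vale.Agent.P022 Vale.Agent.P022.C Vale.Agent.P022.H916
open Vale.Agent.P027M.S (Pr Inert)
open Vale.Agent.P022E.GW (Ov)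
open Vale.Agent.P004C.Al.Gx (vv not_vv two_vv vv_prime)
open Vale.Agent.P022K.Exi (ex_root pow_self)

section base

variable {K : Type} [Field K] [NumberField K] {ι : ℂ →+* ℂ_[2]} {J : K →+* ℂ} {Ω : ℝ}

theorem emb (hB : Base ι J Ω) (x : 𝓞 K) :
    ((Algebra.norm ℤ x : ℤ) : ℂ) = J x * starRingEnd ℂ (J x) ∧
      ((Algebra.trace ℤ (𝓞 K) x : ℤ) : ℂ) = J x + starRingEnd ℂ (J x) := by
  classical
  obtain ⟨π, h1, h2⟩ := hB.spl
  have ne : J.toRatAlgHom ≠ ((starRingEnd ℂ).comp J).toRatAlgHom := fun e =>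
    h1.ne ((congrArg (fun σ : K →ₐ[ℚ] ℂ => ‖ι (σ π)‖) e).trans h2)
  have u : ({J.toRatAlgHom, ((starRingEnd ℂ).comp J).toRatAlgHom} : Finset (K →ₐ[ℚ] ℂ)) =
      Finset.univ := (Finset.card_eq_iff_eq_univ _).1
    ((Finset.card_pair ne).trans ((AlgHom.card ℚ K ℂ).trans hB.two).symm)
  have a := Algebra.norm_eq_prod_embeddings ℚ ℂ (x : K)
  have b := trace_eq_sum_embeddings ℂ (K := ℚ) (x := (x : K))
  rw [← u, Finset.prod_pair ne, ← Algebra.coe_norm_int, map_intCast] at a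
  rw [← u, Finset.sum_pair ne, ← Algebra.coe_trace_int, map_intCast] at b
  exact ⟨a, b⟩

theorem int_vv {z : ℤ} : (z : 𝓞 K) ∈ vv ι J ↔ 2 ∣ z := by
  refine ⟨fun h => by_contra fun k => (vv_prime (ι := ι) (J := J)).one_notMem ?_, ?_⟩
  · obtain ⟨a, rfl⟩ : ∃ a, z = 2 * a + 1 := ⟨z / 2, by omega⟩
    push_cast at h
    exact ((vv ι J).add_mem_iff_right ((vv ι J).mul_mem_right _ two_vv)).1 h
  · rintro ⟨a, rfl⟩
    push_cast
    exact (vv ι J).mul_mem_right _ two_vv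

/-- approximate idempotents -/
theorem eps (hB : Base ι J Ω) {D : ℤ} (hD : ¬ 2 ∣ D) (k : ℕ) : ∃ (ε ε' : 𝓞 K) (S n : ℤ),
    ε + ε' = S ∧ ε * ε' = n ∧ 2 ^ (k + 1) ∣ S - 1 ∧ 2 ^ (k + 1) ∣ n ∧
      J ε' = starRingEnd ℂ (J ε) ∧ ε' ∉ vv ι J ∧ (D : 𝓞 K) ∣ ε := by
  induction k with
  | zero =>
    obtain ⟨π, h1, h2⟩ := hB.spl
    obtain ⟨a, b⟩ := emb hB π
    have e : J ((Algebra.trace ℤ (𝓞 K) π : ℤ) - π : 𝓞 K) = starRingEnd ℂ (J π) := by
      simp only [map_sub, map_intCast, b, add_sub_cancel_left]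
    generalize Algebra.trace ℤ (𝓞 K) π = T at e
    have k1 : (T - π : 𝓞 K) ∉ vv ι J := not_vv.2 (e ▸ h2)
    have k2 : π * (T - π) = (Algebra.norm ℤ π : ℤ) := RingOfIntegers.ext (J.injective (by
      simp only [map_mul, e, map_intCast, a]))
    have k3 : ¬ 2 ∣ T := fun d => k1 ((vv ι J).sub_mem (int_vv.2 d) h1)
    have k4 := int_vv.1 (k2 ▸ (vv ι J).mul_mem_right _ h1)
    refine ⟨D * π, D * (T - π), D * T, D * D * Algebra.norm ℤ π, by push_cast; ring,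
      by push_cast; rw [← k2]; ring, ?_, k4.mul_left _, ?_,
      fun m => (vv_prime.mem_or_mem m).elim (fun m => hD (int_vv.1 m)) k1, dvd_mul_right _ _⟩
    · have := (Int.prime_two.dvd_mul (a := D) (b := T)).not.2 (not_or.2 ⟨hD, k3⟩)
      omega
    · simp only [map_mul, e, map_intCast]
  | succ k h =>
    obtain ⟨ε, ε', S, n, a, b, ⟨c, hc⟩, ⟨d, hd⟩, e, f, g⟩ := h
    refine ⟨ε * ε, ε' * ε', S * S - 2 * n, n * n, by push_cast; rw [← a, ← b]; ring,
      by push_cast; rw [← b]; ring, ⟨c + 2 ^ k * c * c - d, ?_⟩, ⟨2 ^ k * d * d, ?_⟩,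
      by simp only [map_mul, e], fun m => f ((vv_prime.mem_or_mem m).elim id id), g.mul_right _⟩
    · rw [eq_add_of_sub_eq hc, hd]; ring
    · rw [hd]; ring

/-- an element which is one at `v` and `D`, with a given norm -/
theorem ex_x (hB : Base ι J Ω) {D : ℕ} (hD : D ≠ 0) (k : ℕ) {e : ℕ} (he : ¬ 2 ∣ e) : ∃ x : 𝓞 K,
    (∀ p : ℕ, p.Prime → p ∣ D → (p : 𝓞 K) ∣ x - 1) ∧ absNorm (span {x}) ≡ e [MOD 2 ^ k] ∧
      ∃ s r : 𝓞 K, s ∉ vv ι J ∧ s * (x - 1) = 2 ^ k * r := by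
  obtain ⟨a, D, h1, rfl⟩ := Nat.exists_eq_two_pow_mul_odd hD
  obtain ⟨ε, ε', S, n, h2, h3, ⟨c, hc⟩, ⟨d, hd⟩, h4, h5, h6⟩ := eps hB (D := D)
    (by have := Nat.odd_iff.1 h1; omega) k
  obtain ⟨b, rfl⟩ : ∃ b, e = 2 * b + 1 := ⟨e / 2, by omega⟩
  refine ⟨1 + 2 * b * ε, fun p hp h => ?_, ?_, ε', 4 * b * d, h5, ?_⟩
  · rw [add_sub_cancel_left]
    rcases hp.dvd_mul.1 h with h | h
    · rw [(Nat.prime_dvd_prime_iff_eq hp Nat.prime_two).1 (hp.dvd_of_dvd_pow h), mul_assoc]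
      exact dvd_mul_right _ _
    · exact ((Nat.cast_dvd_cast h).trans (by exact_mod_cast h6)).mul_left _
  · have a := (emb hB (1 + 2 * b * ε)).1
    have n0 : 0 ≤ Algebra.norm ℤ (1 + 2 * b * ε) := by
      rw [Complex.mul_conj] at a
      have := congrArg Complex.re a
      rw [Complex.intCast_re, Complex.ofReal_re] at this
      exact Int.cast_nonneg_iff.1 (this.ge.trans' (Complex.normSq_nonneg _))
    have k2 := congrArg (fun y : 𝓞 K => J y) h2
    have k3 := congrArg (fun y : 𝓞 K => J y) h3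
    simp only [map_add, map_mul, map_intCast, map_one, map_ofNat, map_natCast, ← h4] at a k2 k3
    have e : Algebra.norm ℤ (1 + 2 * b * ε) = 1 + 2 * b * S + 4 * b * b * n :=
      Int.cast_injective (α := ℂ) (by push_cast; rw [a, ← k2, ← k3]; ring)
    rw [absNorm_span_singleton, Nat.modEq_iff_dvd, Int.natAbs_of_nonneg n0, e,
      eq_add_of_sub_eq hc, hd]
    exact ⟨-(4 * b * c + 8 * b * b * d), by push_cast; ring⟩
  · rw [hd] at h3
    push_cast at h3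
    linear_combination 2 * b * h3

end base

variable {M : Type} [Field M] [NumberField M] {j : M →+* Qb}

theorem cop_of {I : Ideal (𝓞 M)} {T : ℕ}
    (h : ∀ Q : Ideal (𝓞 M), Q.IsPrime → I ≤ Q → ∀ p : ℕ, p.Prime → p ∣ T → (p : 𝓞 M) ∉ Q)
    (T0 : T ≠ 0) : I ⊔ span {(T : 𝓞 M)} = ⊤ := by
  by_contra k
  obtain ⟨Q, a, b⟩ := exists_le_maximal _ k
  have m : (T : 𝓞 M) ∈ Q := (span_singleton_le_iff_mem _).1 (le_sup_right.trans b)
  rw [← Nat.prod_primeFactorsList T0, Nat.cast_list_prod] at m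
  obtain ⟨_, h1, h2⟩ := (a.isPrime.multiset_prod_mem_iff_exists_mem
    (T.primeFactorsList.map Nat.cast : List (𝓞 M))).1 m
  obtain ⟨p, hp, rfl⟩ := List.mem_map.1 (Multiset.mem_coe.1 h1)
  exact h Q a.isPrime (le_sup_left.trans b) p (Nat.prime_of_mem_primeFactorsList hp)
    (Nat.dvd_of_mem_primeFactorsList hp) h2

section art

variable {κ : Type} {A T : ℕ} {θ : κ → GK j →* Multiplicative (ZMod (2 ^ A))}
  {ψ : κ → Ideal (𝓞 M) → ZMod (2 ^ A)} {ζ : Qb}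

/-- Artin symbols -/
theorem art (h2 : 2 ∣ T) (add : ∀ i I I', I ≠ ⊥ → I' ≠ ⊥ → I ⊔ span {(T : 𝓞 M)} = ⊤ →
      I' ⊔ span {(T : 𝓞 M)} = ⊤ → ψ i (I * I') = ψ i I + ψ i I')
    (fr : ∀ i (v : Pr M), (T : 𝓞 M) ∉ v.asIdeal → ∀ P g, FrI j v P g →
      (θ i g).toAdd = ψ i v.asIdeal) (hζ : ζ ^ 2 ^ A = 1) (I : Ideal (𝓞 M)) :
    I ≠ ⊥ → I ⊔ span {(T : 𝓞 M)} = ⊤ →
      ∃ g : GK j, (∀ i, (θ i g).toAdd = ψ i I) ∧ g.1 ζ = ζ ^ absNorm I := by
  refine UniqueFactorizationMonoid.induction_on_prime I (fun h => absurd rfl h)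
    (fun I h a b => ⟨1, fun i => ?_, ?_⟩) fun I p I0 hp ih _ b => ?_
  · obtain rfl := Ideal.isUnit_iff.1 h
    have := add i ⊤ ⊤ a a b b
    rw [top_mul, left_eq_add] at this
    rw [this, map_one, toAdd_one]
  · rw [Ideal.isUnit_iff.1 h, absNorm_top, pow_one]
    rfl
  · have b1 : I ⊔ span {(T : 𝓞 M)} = ⊤ := top_unique (b ▸ sup_le_sup_right mul_le_right _)
    have b2 : p ⊔ span {(T : 𝓞 M)} = ⊤ := top_unique (b ▸ sup_le_sup_right mul_le_left _)
    obtain ⟨g, g1, g2⟩ := ih I0 b1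
    let v : Pr M := ⟨p, isPrime_of_prime hp, hp.ne_zero⟩
    have tv : (T : 𝓞 M) ∉ p := fun m => v.isPrime.ne_top
      (top_unique (b2 ▸ sup_le le_rfl ((span_singleton_le_iff_mem _).2 m)))
    obtain ⟨l, P, hP, e⟩ := P022K.GW.Pl.dn_onto j v
    obtain ⟨φ, hφ⟩ := P022K.GW.Pl.ex_fri j hP (congrArg HeightOneSpectrum.asIdeal e)
    refine ⟨φ * g, fun i => ?_, ?_⟩
    · rw [map_mul, toAdd_mul, g1, fr i v tv P φ hφ, add i p I hp.ne_zero I0 b2 b1]
    · have := fr_root hP.2.1 (fun m => tv (p.mem_of_dvd (Nat.cast_dvd_cast h2)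
        ((P022E.GW.Kc.nat_mem j hφ.2.1 2).2 (hP.2.1.mem_of_pow_mem A (by exact_mod_cast m)))))
        hζ hφ.2.2
      rw [Subgroup.coe_mul, AlgEquiv.mul_apply, g2, map_pow, this, map_mul, pow_mul]

end art

section quad

variable {M2 : Type} [Field M2] [NumberField M2] [Algebra M M2] {j2 : M2 →+* Qb}
  (h2 : finrank M M2 = 2) (hj : ∀ x, j2 (algebraMap M M2 x) = j x)

include h2 hj

theorem sq_mem (h : GK j) : h.1 ^ 2 ∈ GK j2 := by
  classical
  letI := j.toAlgebra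
  let f : GK j → M2 →ₐ[M] Qb := fun g =>
    ⟨(g.1 : Qb →+* Qb).comp j2, fun x => (congrArg g.1 (hj x)).trans (g.2 x)⟩
  have e : ∀ g x, f g x = g.1 (j2 x) := fun g x => rfl
  by_contra k
  have n1 : f h ≠ f 1 := fun c => k ((GK j2).pow_mem (fun x => DFunLike.congr_fun c x) 2)
  have := Finset.card_le_univ {f 1, f h, f (h ^ 2)}
  rw [AlgHom.card, h2, Finset.card_eq_three.2 ⟨_, _, _, n1.symm,
    fun c => k fun x => (DFunLike.congr_fun c x).symm, fun c => n1 (AlgHom.ext fun x =>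
      h.1.injective (by rw [e, e, ← AlgEquiv.mul_apply, ← sq]; exact (DFunLike.congr_fun c x).symm)),
    rfl⟩] at this
  omega

/-- inert primes -/
theorem inert {P : Ideal (𝓞 Qb)} (hP : P.IsPrime) {l : ℕ} (hl : l.Prime)
    (hW : absNorm (below j P) = l) {φ : GQ} (hφ : ∀ x : 𝓞 Qb, φ • x - x ^ l ∈ P) {y : 𝓞 M2}
    (hy : φ • RingOfIntegers.mapRingHom j2 y - RingOfIntegers.mapRingHom j2 y ∉ P) :
    ((below j P).map (algebraMap (𝓞 M) (𝓞 M2))).IsMaximal := by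
  have p2 := H20.below_prime j2 hP
  have le : (below j P).map (algebraMap (𝓞 M) (𝓞 M2)) ≤ below j2 P :=
    map_le_iff_le_comap.2 fun x hx => by
      show RingOfIntegers.mapRingHom j2 (algebraMap (𝓞 M) (𝓞 M2) x) ∈ P
      rwa [show RingOfIntegers.mapRingHom j2 (algebraMap (𝓞 M) (𝓞 M2) x) =
        RingOfIntegers.mapRingHom j x from RingOfIntegers.ext (hj x)]
  have n := absNorm_algebraMap (S := 𝓞 M2) (𝓞 M) (below j P)
  rw [← IsFractionRing.finrank_eq (𝓞 M) M (𝓞 M2) M2, h2, hW] at n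
  obtain ⟨C, hC⟩ := dvd_iff_le.2 le
  have n2 : absNorm (below j2 P) * absNorm C = l ^ 2 := by rw [← map_mul, ← hC, n]
  have n0 : below j2 P ≠ ⊥ := fun e => by
    rw [e, absNorm_bot, zero_mul] at n2
    exact pow_ne_zero 2 hl.ne_zero n2.symm
  have mx := p2.isMaximal n0
  obtain ⟨i, hi, e⟩ := (Nat.dvd_prime_pow hl).1 ⟨_, n2.symm⟩
  interval_cases i
  · exact absurd (absNorm_eq_one_iff.1 e) p2.ne_top
  · refine absurd ?_ hy
    letI := Quotient.field (below j2 P)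
    haveI : Finite (𝓞 M2 ⧸ below j2 P) := finiteQuotientOfFreeOfNeBot _ n0
    letI := Fintype.ofFinite (𝓞 M2 ⧸ below j2 P)
    rw [absNorm_apply, Submodule.cardQuot_apply, Nat.card_eq_fintype_card, pow_one] at e
    have m : y ^ l - y ∈ below j2 P :=
      Ideal.Quotient.eq.1 (by rw [map_pow, ← e, FiniteField.pow_card])
    have := P.add_mem (hφ (RingOfIntegers.mapRingHom j2 y)) m
    rwa [map_sub, map_pow, sub_add_sub_cancel] at this
  · rw [e, mul_eq_left₀ (pow_ne_zero 2 hl.ne_zero), absNorm_eq_one_iff] at n2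
    rwa [hC, n2, mul_top]

end quad

theorem odd_kill {A n c : ℕ} (o : Odd n) {z : Multiplicative (ZMod (2 ^ A))}
    (h : z ^ (2 ^ c * n) = 1) : z ^ 2 ^ c = 1 := by
  rw [pow_mul] at h
  have := pow_gcd_eq_one.2 ⟨h, pow_self _⟩
  rwa [((Nat.coprime_two_right.2 o).pow_right A).gcd_eq_one, pow_one] at this

/-- the prime, from the characters -/
theorem core {K : Type} [Field K] [NumberField K] {ι : ℂ →+* ℂ_[2]} {J : K →+* ℂ} {Ω : ℝ}
    (hB : Base ι J Ω) [Algebra K M] (j : M →+* Qb) : ∃ c : ℕ, ∀ (A m T : ℕ) (κ : Type) [Finite κ]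
    (θ : κ → GK j →* Multiplicative (ZMod (2 ^ A))) (ψ : κ → Ideal (𝓞 M) → ZMod (2 ^ A)),
    T ≠ 0 → 2 ∣ T → (∀ i, IsOpen {g | θ i g = 1}) →
    (∀ i I I', I ≠ ⊥ → I' ≠ ⊥ → I ⊔ span {(T : 𝓞 M)} = ⊤ →
      I' ⊔ span {(T : 𝓞 M)} = ⊤ → ψ i (I * I') = ψ i I + ψ i I') →
    (∀ i (v : Pr M), (T : 𝓞 M) ∉ v.asIdeal → ∀ P g, FrI j v P g →
      (θ i g).toAdd = ψ i v.asIdeal) →
    (∀ i (x : 𝓞 M), x ≠ 0 → V1 ι J m (x : M) → span {x} ⊔ span {(T : 𝓞 M)} = ⊤ →
      ψ i (span {x}) = 0) →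
    ∀ I : Ideal (𝓞 M), I ≠ ⊥ → I ⊔ span {(T : 𝓞 M)} = ⊤ →
    ∀ (lam : (𝓞 M)ˣ →* Multiplicative (ZMod (2 ^ A))) (q : ℕ) (Q : Ideal (𝓞 Qb)) (g : GK j),
    Ov q Q → q ≠ 2 → Inert Q g → (∀ i, θ i g = 1) → ∀ U : Subgroup GQ, IsOpen (U : Set GQ) →
    ∀ S : Finset ℕ, ∃ (l : ℕ) (P : Ideal (𝓞 Qb)) (φ : GQ) (h : GK j)
      (δ : Mˣ →* Multiplicative (ZMod (2 ^ A))), Ov l P ∧ l ∉ S ∧ absNorm (below j P) = l ∧
      (∀ x : 𝓞 Qb, φ • x - x ^ l ∈ P) ∧ (g.1 * h.1 ^ 2)⁻¹ * φ ∈ U ∧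
      (∀ i, ψ i (below j P) = 2 ^ c • ψ i I) ∧
      (∀ (b : Mˣ) (x : 𝓞 M), (b : M) = x → x - 1 ∈ below j P → δ b = 1) ∧
      ∀ u : (𝓞 M)ˣ, δ (Units.map (algebraMap (𝓞 M) M : 𝓞 M →* M) u) = lam u ^ 2 ^ c := by
  classical
  obtain ⟨b, σ, b0, hσ⟩ := ex_sig j
  haveI : Module.Finite K M := Module.Finite.of_restrictScalars_finite ℚ K M
  have n0 : finrank K M ≠ 0 := finrank_pos.ne'
  obtain ⟨c, o, ho, hc⟩ := Nat.exists_eq_two_pow_mul_odd
    (mul_ne_zero (mul_ne_zero b0 b0) n0)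
  refine ⟨c + 1, fun A m T κ _ θ ψ T0 T2 opn add fr prn I I0 IT lam q Q g hQ q2 ig θg U hU S => ?_⟩
  obtain ⟨ζ, hζ⟩ := HasEnoughRootsOfUnity.exists_primitiveRoot Qb (2 ^ A)
  have z1 := hζ.pow_eq_one
  have two : ∀ {l P}, Ov l P → l ≠ 2 → ((2 ^ A : ℕ) : 𝓞 Qb) ∉ P := fun {l P} h k m =>
    k (P022K.GW.Pl.ov_uniq h ⟨Nat.prime_two, h.2.1, h.2.1.mem_of_pow_mem A (by exact_mod_cast m)⟩)
  obtain ⟨s, hs⟩ := (inferInstance : Monoid.FG (𝓞 M)ˣ).fg_top
  let um : (𝓞 M)ˣ →* Mˣ := Units.map (algebraMap (𝓞 M) M : 𝓞 M →* M)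
  letI := Fintype.ofFinite κ
  obtain ⟨g₀, g1, g2⟩ := art T2 add fr z1 I I0 IT
  -- an element with trivial symbols and the same action on the roots of unity
  obtain ⟨g', g3, g4⟩ : ∃ g' : GK j, (∀ i, θ i g' = 1) ∧ g₀ ^ finrank K M * g'⁻¹ ∈ Gz ζ j := by
    obtain ⟨x, x1, x2, r, r', x3, x4⟩ := ex_x hB T0 (A + m) (e := absNorm I) fun d => by
      obtain ⟨P, p1, p2, p3⟩ := exists_isMaximal_dvd_of_dvd_absNorm Int.prime_two I
        (by exact_mod_cast d)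
      refine p1.ne_top (top_unique (IT ▸ sup_le (dvd_iff_le.1 p3)
        ((span_singleton_le_iff_mem _).2 (P.mem_of_dvd (Nat.cast_dvd_cast T2) ?_))))
      simpa using mem_comap.1 (p2.ge (mem_span_singleton_self 2))
    let y := algebraMap (𝓞 K) (𝓞 M) x
    have y1 : span {y} ⊔ span {(T : 𝓞 M)} = ⊤ := cop_of (fun P p1 p2 p hp d k => p1.one_notMem (by
      have := map_dvd (algebraMap (𝓞 K) (𝓞 M)) (x1 p hp d)
      rw [map_natCast, map_sub, map_one] at this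
      exact sub_sub_cancel y 1 ▸
        P.sub_mem (p2 (mem_span_singleton_self y)) (P.mem_of_dvd this k))) T0
    have y0 : y ≠ 0 := fun e => by
      rw [e, span_singleton_eq_bot.2 rfl, bot_sup_eq, span_singleton_eq_top] at y1
      obtain ⟨P, hP⟩ := P022K.GW.Pl.ex_ov Nat.prime_two
      exact (H20.below_prime j hP.2.1).ne_top (eq_top_of_isUnit_mem _
        ((below j P).mem_of_dvd (Nat.cast_dvd_cast T2) (H20.l_mem_below j hP.2.2)) y1)
    obtain ⟨g', k1, k2⟩ := art T2 add fr z1 _ (span_singleton_eq_bot.not.2 y0) y1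
    refine ⟨g', fun i => (k1 i).trans (prn i y y0 (Gx.v1_mono (Nat.le_add_left m A)
      ⟨r, not_vv.1 x3, ?_⟩) y1), ?_⟩
    · have := congrArg (fun z : 𝓞 K => algebraMap K M z) x4
      simp only [map_mul, map_sub, map_one, map_pow, map_ofNat] at this
      rw [← mul_div_assoc, Gx.coe_s, this, mul_div_cancel_left₀ _ (pow_ne_zero _ two_ne_zero)]
      exact Gx.int_s r'
    · have k3 : ∀ n : ℕ, (g₀.1 ^ n) ζ = ζ ^ absNorm I ^ n := fun n => by
        induction n with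
        | zero => simp
        | succ n h => rw [pow_succ', AlgEquiv.mul_apply, h, map_pow, g2, pow_succ', pow_mul]
      have k4 : absNorm (span {y}) = absNorm (span {x}) ^ finrank K M := by
        rw [IsFractionRing.finrank_eq (𝓞 K) K (𝓞 M) M, ← absNorm_algebraMap, map_span,
          Set.image_singleton]
      have k5 : (g₀ ^ finrank K M).1 ζ = g'.1 ζ := by
        rw [k2, Subgroup.coe_pow, k3, k4, pow_eq_pow_mod _ z1,
          ← ((x2.of_dvd (pow_dvd_pow 2 (Nat.le_add_right A m))).pow _ :), ← pow_eq_pow_mod _ z1]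
      obtain ⟨e, -, he⟩ := hζ.eq_pow_of_pow_eq_one (ξ := g'.1⁻¹ ζ)
        (by rw [← map_pow, z1, map_one])
      show (g₀ ^ finrank K M).1 (g'.1⁻¹ ζ) = ζ
      rw [← he, map_pow, k5, ← map_pow, he]
      exact g'.1.apply_symm_apply ζ
  -- the element with the prescribed values
  let F : κ ⊕ s → Gz ζ j →* Multiplicative (ZMod (2 ^ A)) :=
    Sum.elim (fun i => (θ i).comp (Gz ζ j).subtype) fun u => ku j hζ (um u)
  obtain ⟨h, hh⟩ : ∃ h : Gz ζ j, ∀ i, (F i h).toAdd =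
      2 ^ c • Sum.elim (fun i => ψ i I) (fun u : s => (lam u).toAdd) i := by
    let Θ : Gz ζ j →* Multiplicative (κ ⊕ s → ZMod (2 ^ A)) :=
      MonoidHom.mk' (fun x => Multiplicative.ofAdd fun i => (F i x).toAdd) fun x y =>
        congrArg Multiplicative.ofAdd (funext fun i => by rw [map_mul]; rfl)
    obtain ⟨h, e⟩ := dual (Subgroup.toAddSubgroup' Θ.range)
      (fun i => 2 ^ c • Sum.elim (fun i => ψ i I) (fun u : s => (lam u).toAdd) i) fun a ha => by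
        have sm : ∀ {β : Type} [Fintype β] (a : β → ZMod (2 ^ A))
            (f : β → Multiplicative (ZMod (2 ^ A))),
            (∏ i, f i ^ (a i).val).toAdd = ∑ i, a i * (f i).toAdd := fun a f => by
          rw [toAdd_prod]
          exact Finset.sum_congr rfl fun i _ => by
            rw [toAdd_pow, nsmul_eq_mul, ZMod.natCast_zmod_val]
        obtain ⟨k1, z, k2⟩ := kin hζ (hσ A ζ z1) (∏ i, θ i ^ (a (.inl i)).val)
          (um (∏ u : s, u.1 ^ (a (.inr u)).val)) fun x => Multiplicative.toAdd.injective (by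
            have := ha (Θ x).toAdd ⟨x, rfl⟩
            rw [Fintype.sum_sum_type] at this
            simp only [toAdd_mul, map_prod, map_pow, MonoidHom.finsetProd_apply,
              MonoidHom.pow_apply, sm]
            exact this)
        have k3 := k1 ⟨_, g4⟩
        simp only [map_mul, map_inv, map_pow, MonoidHom.finsetProd_apply, MonoidHom.pow_apply, g3,
          one_pow, Finset.prod_const_one, inv_one, mul_one] at k3
        have k4 := odd_kill (c := c) ho (z := ∏ i, θ i g₀ ^ (a (.inl i)).val) (by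
          rw [← hc, mul_assoc, mul_comm, mul_comm b, pow_mul, pow_mul, k3, one_pow])
        generalize hu : ∏ u : s, u.1 ^ (a (.inr u)).val = u at k2
        have k5 : (z : M) ^ 2 ^ A = (u ^ (b * b) : (𝓞 M)ˣ) := by
          rw [← Units.val_pow_eq_pow_val, ← k2, ← map_pow]; rfl
        let z' : 𝓞 M := ⟨z, IsIntegral.of_pow (NeZero.pos _) (k5 ▸ RingOfIntegers.isIntegral_coe _)⟩
        have k6 : z' ^ 2 ^ A = (u ^ (b * b) : (𝓞 M)ˣ) := RingOfIntegers.ext k5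
        obtain ⟨w, hw⟩ := (isUnit_pow_iff (NeZero.ne _)).1 (k6 ▸ Units.isUnit _)
        have k7 := odd_kill (c := c) ho (z := lam u) (by
          rw [← hc, pow_mul, ← map_pow, show u ^ (b * b) = w ^ 2 ^ A from
            Units.ext (by rw [← k6, ← hw]; rfl), map_pow, pow_self, one_pow])
        rw [← hu, map_prod] at k7
        simp only [map_pow] at k7
        replace k4 := congrArg Multiplicative.toAdd k4
        replace k7 := congrArg Multiplicative.toAdd k7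
        rw [toAdd_pow, sm, Finset.smul_sum] at k4 k7
        simp only [Fintype.sum_sum_type, Sum.elim_inl, Sum.elim_inr, mul_smul_comm, ← g1]
        rw [k4, k7, toAdd_one, add_zero]
    exact ⟨h, fun i => congrFun (congrArg Multiplicative.toAdd e) i⟩
  have gz : g ∈ Gz ζ j := (fr_root (q := 1) hQ.2.1 (two hQ q2) z1
    fun x => (pow_one x).symm ▸ ig x).trans (pow_one ζ)
  choose y hy using fun u : s => ex_root (2 ^ A) (j (um u))
  let V : Subgroup GQ := U ⊓ (GK j ⊓ MulAction.stabilizer GQ ζ) ⊓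
    ((⨅ i, kerQ j (θ i)) ⊓ ⨅ u, MulAction.stabilizer GQ (y u))
  have oV : IsOpen (V : Set GQ) := (hU.inter ((isOpen_GK j).inter (P022E.GW.Kc.stab_open ζ))).inter
    (IsOpen.inter (s := ((⨅ i, kerQ j (θ i) : Subgroup GQ) : Set GQ))
      (t := ((⨅ u, MulAction.stabilizer GQ (y u) : Subgroup GQ) : Set GQ))
      (by rw [Subgroup.coe_iInf]; exact isOpen_iInter_of_finite fun i => isOpen_kerQ j (opn i))
      (by
        rw [Subgroup.coe_iInf]
        exact isOpen_iInter_of_finite fun u => P022E.GW.Kc.stab_open (y u)))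
  obtain ⟨l, φ, hl, lS, ⟨P, p1, p2, p3⟩, ⟨v1, v2, v3⟩, v4, v5⟩ := P022K.Cheb.exists_fr
    (oV.preimage (continuous_const_mul (g.1 * h.1.1 ^ 2)⁻¹)) (g := g.1 * h.1.1 ^ 2)
    (by simpa using V.one_mem) (S ∪ T.primeFactors)
  rw [Finset.mem_union, not_or, Nat.mem_primeFactors_of_ne_zero T0] at lS
  have lT : ¬ l ∣ T := fun d => lS.2 ⟨hl, d⟩
  let u : Gz ζ j := ⟨⟨_, v2⟩, v3⟩
  let f : Gz ζ j := ⟨g, gz⟩ * h ^ 2 * u
  have e : f.1.1 = φ := mul_inv_cancel_left _ _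
  have hF : ∀ i, (F i f).toAdd =
      2 ^ (c + 1) • Sum.elim (fun i => ψ i I) (fun u : s => (lam u).toAdd) i := fun i => by
    have a1 : F i ⟨g, gz⟩ = 1 := by
      rcases i with i | i
      · exact θg i
      · exact ku_of hζ hQ.2.1 (two hQ q2) (a := i.1) rfl (fun m => (H20.below_prime j hQ.2.1).ne_top
          (eq_top_of_isUnit_mem _ m i.1.isUnit)) fun y _ => ig y
    have a2 : F i u = 1 := by
      rcases i with i | i
      · exact (mem_kerQ j (θ i) u.1).1 (Subgroup.mem_iInf.1 v4 i)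
      · exact (ku_one hζ (hy i)).2 (Subgroup.mem_iInf.1 v5 i)
    rw [map_mul (F i), map_mul (F i), a1, a2, one_mul, mul_one, map_pow (F i), toAdd_pow, hh,
      smul_smul, pow_succ']
  obtain ⟨v, hv, lv⟩ := P022E.GW.Kc.ex_below j hl.ne_zero p1 p2
  have nv : absNorm v.asIdeal = l := P022D.Sel.Inj.norm_eq v l hl lv fun x => by
    have := p3 (RingOfIntegers.mapRingHom j x)
    rw [← e, P022K.GW.Pl.fix_int j f.1.2, ← map_pow, ← map_sub] at this
    exact hv.le this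
  refine ⟨l, P, φ, h.1, (ku j hζ).flip f, ⟨hl, p1, p2⟩, lS.1, hv ▸ nv, p3, v1, fun i => ?_,
    fun b x k1 k2 => ku_tame hζ p1 (two ⟨hl, p1, p2⟩ fun k => lT (k ▸ T2)) k1 k2 hl.ne_zero
      (e ▸ p3), fun u => ?_⟩
  · rw [hv, ← fr i v (fun m => lT (Int.natCast_dvd_natCast.1 (H20.dvd_of_mem hl p1 p2 (d := T)
      (by exact_mod_cast (P022E.GW.Kc.nat_mem j hv T).1 m)))) P f.1 ⟨p1, hv, nv ▸ e ▸ p3⟩]
    exact hF (.inl i)
  · refine DFunLike.congr_fun (MonoidHom.eq_of_eqOn_denseM hs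
      (f := ((ku j hζ).flip f).comp um) (g := lam ^ 2 ^ (c + 1)) fun u hu => ?_) u
    exact Multiplicative.toAdd.injective (hF (.inr ⟨u, hu⟩))

end Vale.Agent.P004C.Al.Kn
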