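import Vale.Agent.P022.H567.Gch

/-!
# P004 C: multiplicative functions on ideals with given values at the primes
-/

set_option autoImplicit false
set_option linter.all false

open NumberField IsDedekindDomain
open scoped Classical

noncomputable section

namespace Vale.Agent.P004C.Al.Rc

open Vale.Agent.P022 Vale.Agent.P022.C

variable {K : Type} [Field K] [NumberField K] {A B : Type} [CommMonoid A] [CommMonoid B]

/-- the exponent of `v` in `I` -/
def ct (v : HeightOneSpectrum (𝓞 K)) (I : Ideal (𝓞 K)) : ℕ :=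
  (Associates.mk v.asIdeal).count (Associates.mk I).factors

/-- the multiplicative function with the values `f v` at the primes -/
def ip (f : HeightOneSpectrum (𝓞 K) → A) (I : Ideal (𝓞 K)) : A := ∏ᶠ v, f v ^ ct v I

variable {v w : HeightOneSpectrum (𝓞 K)} {I I' : Ideal (𝓞 K)} {f f' : HeightOneSpectrum (𝓞 K) → A}

theorem ct_ne (h : I ≠ ⊥) : ct v I ≠ 0 ↔ I ≤ v.asIdeal :=
  (Associates.count_ne_zero_iff_dvd h v.irreducible).trans Ideal.dvd_iff_le

theorem ct_mul (h : I ≠ ⊥) (h' : I' ≠ ⊥) : ct v (I * I') = ct v I + ct v I' := by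
  rw [ct, ← Associates.mk_mul_mk]
  exact Associates.count_mul (Associates.mk_ne_zero.2 h) (Associates.mk_ne_zero.2 h')
    v.associates_irreducible

theorem ct_self : ct v v.asIdeal = 1 := Associates.count_self v.associates_irreducible

theorem ct_of_ne (h : v ≠ w) : ct v w.asIdeal = 0 := by
  by_contra c
  exact h (HeightOneSpectrum.ext (w.isMaximal.eq_of_le v.isPrime.ne_top
    ((ct_ne w.ne_bot).1 c)).symm)

theorem ct_span {x : 𝓞 K} (h : x ≠ 0) : ordv v (x : K) = ct v (Ideal.span {x}) := by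
  rw [ordv, show v.valuation K (x : K) = v.intValuation x from v.valuation_of_algebraMap x,
    v.intValuation_if_neg h, WithZero.log_exp, neg_neg, ct]

theorem ip_fin (f : HeightOneSpectrum (𝓞 K) → A) (h : I ≠ ⊥) :
    Function.HasFiniteMulSupport fun v => f v ^ ct v I :=
  (Ideal.finite_factors h).subset fun v hv => Ideal.dvd_iff_le.2 ((ct_ne h).1 fun e => hv (by
    simp only [e, pow_zero]))

theorem ip_mul (h : I ≠ ⊥) (h' : I' ≠ ⊥) : ip f (I * I') = ip f I * ip f I' := by
  rw [ip, ip, ip, ← finprod_mul_distrib (ip_fin f h) (ip_fin f h')]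
  exact finprod_congr fun v => by rw [ct_mul h h', pow_add]

theorem ip_top : ip f ⊤ = 1 := finprod_eq_one_of_forall_eq_one fun v => by
  rw [not_not.1 ((ct_ne top_ne_bot).not.2 fun h => v.isPrime.ne_top (top_le_iff.1 h)), pow_zero]

theorem ip_one : ip f 1 = 1 := Ideal.one_eq_top (R := 𝓞 K) ▸ ip_top

theorem ip_pr : ip f v.asIdeal = f v :=
  (finprod_eq_single _ v fun w h => by rw [ct_of_ne h, pow_zero]).trans (by rw [ct_self, pow_one])

theorem ip_pow (h : I ≠ ⊥) (n : ℕ) : ip f (I ^ n) = ip f I ^ n := by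
  induction n with
  | zero => rw [pow_zero, pow_zero, ip_one]
  | succ n ih => rw [pow_succ, pow_succ, ip_mul (pow_ne_zero n h) h, ih]

theorem ip_congr (h : I ≠ ⊥) (e : ∀ v, I ≤ v.asIdeal → f v = f' v) : ip f I = ip f' I :=
  finprod_congr fun v => by
    by_cases c : ct v I = 0
    · rw [c, pow_zero, pow_zero]
    · rw [e v ((ct_ne h).1 c)]

theorem map_ip (φ : A →* B) (h : I ≠ ⊥) : φ (ip f I) = ip (fun v => φ (f v)) I := by
  rw [ip, ip, φ.map_finprod (ip_fin f h)]
  exact finprod_congr fun v => map_pow φ _ _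

theorem ip_mul' (h : I ≠ ⊥) : ip (fun v => f v * f' v) I = ip f I * ip f' I := by
  rw [ip, ip, ip, ← finprod_mul_distrib (ip_fin f h) (ip_fin f' h)]
  exact finprod_congr fun v => mul_pow _ _ _

theorem ip_span {A : Type} [CommGroup A] (f : HeightOneSpectrum (𝓞 K) → A) {x : 𝓞 K}
    (h : x ≠ 0) : ip f (Ideal.span {x}) = ∏ᶠ v, f v ^ ordv v (x : K) :=
  finprod_congr fun v => by rw [ct_span h, zpow_natCast]

/-- induction on the non zero ideals -/
theorem ind {p : Ideal (𝓞 K) → Prop} (h1 : p 1)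
    (hm : ∀ (v : HeightOneSpectrum (𝓞 K)) I, I ≠ ⊥ → p I → p (v.asIdeal * I)) (h : I ≠ ⊥) :
    p I := by
  induction I using UniqueFactorizationMonoid.induction_on_prime with
  | h₁ => exact absurd rfl h
  | h₂ I u => rwa [Ideal.isUnit_iff.1 u, ← Ideal.one_eq_top]
  | h₃ I P h0 hP ih => exact hm ⟨P, Ideal.isPrime_of_prime hP, hP.ne_zero⟩ I h0 (ih h0)

/-- multiplicative functions are determined by the values at the primes -/
theorem eq_ip {a : Ideal (𝓞 K) → A} {q : Ideal (𝓞 K) → Prop} (h1 : a 1 = 1)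
    (hq : ∀ I I', q (I * I') → q I ∧ q I')
    (hm : ∀ I I', I ≠ ⊥ → I' ≠ ⊥ → q I → q I' → a (I * I') = a I * a I')
    (hp : ∀ v, q v.asIdeal → a v.asIdeal = f v) (h : I ≠ ⊥) : q I → a I = ip f I :=
  ind (p := fun I => q I → a I = ip f I) (fun _ => h1.trans ip_one.symm) (fun v I h ih k => by
    rw [hm _ _ v.ne_bot h (hq _ _ k).1 (hq _ _ k).2, ip_mul v.ne_bot h, ip_pr, hp v (hq _ _ k).1,
      ih (hq _ _ k).2]) h

end Vale.Agent.P004C.Al.Rc
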