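import Vale.Agent.P004C.Al.Cmb3
import Vale.Agent.P004C.Al.Ip
import Vale.Agent.P027M.S.Cls

/-!
# P004 C, block AL: auxiliary characters from local characters
-/

set_option linter.all false

noncomputable section

namespace Vale.Agent.P004C.Al.Kn

open NumberField IsDedekindDomain Module Ideal
open Vale.Agent.P022.C (ordv)
open Vale.Agent.P004C.Al.Rc (ct ct_ne ct_mul ct_self ct_of_ne ct_span)
open scoped Classical

variable {M : Type} [Field M] [NumberField M] {r A : ℕ} {W : Fin (r + 1) → Ideal (𝓞 M)}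

/-- local characters with trivial product on the units give a character -/
theorem aux_of {h : ℕ} {t : 𝓞 M} (mx : ∀ i, (W i).IsMaximal) (inj : Function.Injective W)
    (cop : ∀ i, t ∉ W i) (hh : ∀ I : Ideal (𝓞 M), I ≠ ⊥ → ∃ π, I ^ h = span {π})
    (δ : Fin (r + 1) → Mˣ →* Multiplicative (ZMod (2 ^ A)))
    (tam : ∀ i (b : Mˣ) (x : 𝓞 M), (b : M) = x → x - 1 ∈ W i → δ i b = 1)
    (un : ∀ u : (𝓞 M)ˣ, ∏ i, δ i (Units.map (algebraMap (𝓞 M) M : 𝓞 M →* M) u) = 1) :
    ∃ Φ φ, Aux t A W Φ φ ∧ (∀ I I', I ≠ ⊥ → I' ≠ ⊥ → Φ (I * I') = Φ I + Φ I') ∧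
      ∀ i (v : HeightOneSpectrum (𝓞 M)), v.asIdeal = W i → ∀ b : Mˣ,
        φ i b = h • (δ i b).toAdd + ordv v (b : M) • Φ (W i) := by
  have W0 : ∀ i, W i ≠ ⊥ := fun i => Ring.ne_bot_of_isMaximal_of_not_isField (mx i)
    (RingOfIntegers.not_isField M)
  let v : Fin (r + 1) → HeightOneSpectrum (𝓞 M) := fun i => ⟨W i, (mx i).isPrime, W0 i⟩
  let d : Fin (r + 1) → M → ZMod (2 ^ A) := fun i x =>
    if k : x = 0 then 0 else (δ i (Units.mk0 x k)).toAdd
  have d1 : ∀ i (b : Mˣ), d i b = (δ i b).toAdd := fun i b => by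
    simp only [d, dif_neg b.ne_zero, Units.mk0_val]
  have d2 : ∀ i x y, x ≠ 0 → y ≠ 0 → d i (x * y) = d i x + d i y := fun i x y a b => by
    simp only [d, dif_neg a, dif_neg b, dif_neg (mul_ne_zero a b), Units.mk0_mul, map_mul,
      toAdd_mul]
  let D : 𝓞 M → ZMod (2 ^ A) := fun x => ∑ i, d i x
  have D2 : ∀ x y : 𝓞 M, x ≠ 0 → y ≠ 0 → D (x * y) = D x + D y := fun x y a b => by
    rw [← Finset.sum_add_distrib]
    exact Finset.sum_congr rfl fun i _ => (congrArg (d i) (map_mul (algebraMap (𝓞 M) M) x y)).trans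
      (d2 i _ _ (RingOfIntegers.coe_ne_zero_iff.2 a) (RingOfIntegers.coe_ne_zero_iff.2 b))
  have D1 : ∀ u : (𝓞 M)ˣ, D u = 0 := fun u => by
    rw [← toAdd_one, ← un u, toAdd_prod]
    exact Finset.sum_congr rfl fun i _ => d1 i (Units.map (algebraMap (𝓞 M) M : 𝓞 M →* M) u)
  have D3 : ∀ x y : 𝓞 M, x ≠ 0 → span {x} = span {y} → D y = D x := fun x y a e => by
    obtain ⟨u, rfl⟩ := span_singleton_eq_span_singleton.1 e
    rw [D2 x u a u.ne_zero, D1, add_zero]
  have D4 : ∀ x : 𝓞 M, x ≠ 0 → ∀ n : ℕ, D (x ^ n) = n • D x := fun x a n => by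
    induction n with
    | zero => simpa using D1 1
    | succ n k => rw [pow_succ, D2 _ _ (pow_ne_zero n a) a, k, succ_nsmul]
  choose! π hπ using hh
  have π0 : ∀ I, I ≠ ⊥ → π I ≠ 0 := fun I a e =>
    pow_ne_zero h a ((hπ I a).trans (span_singleton_eq_bot.2 e))
  have ad : ∀ I I', I ≠ ⊥ → I' ≠ ⊥ → -D (π (I * I')) = -D (π I) + -D (π I') := fun I I' a b => by
    rw [← neg_add, ← D2 _ _ (π0 I a) (π0 I' b)]
    refine congrArg _ (D3 _ _ (mul_ne_zero (π0 I a) (π0 I' b)) ?_)
    rw [← hπ _ (mul_ne_zero a b), mul_pow, hπ I a, hπ I' b, span_singleton_mul_span_singleton]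
  have pr : ∀ x : 𝓞 M, x ≠ 0 → D (π (span {x})) = h • D x := fun x a => by
    rw [← D4 x a]
    exact D3 _ _ (pow_ne_zero h a) (by
      rw [← hπ _ (span_singleton_eq_bot.not.2 a), span_singleton_pow])
  refine ⟨fun I => -D (π I), fun i x => h • d i x + ordv (v i) x • -D (π (W i)),
    ⟨mx, inj, cop, fun I I' a b _ _ => ad I I' a b, fun i x y a b => ?_, fun i x k => ?_,
      fun x I e a b c => ?_⟩, ad, fun i w e b => ?_⟩
  · rw [d2 i x y a b, P027M.S.Cls.ordv_mul _ a b, smul_add, add_smul]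
    abel
  · have n : x ∉ W i := fun m => (mx i).isPrime.one_notMem (by simpa using (W i).sub_mem m k)
    have x0 : x ≠ 0 := fun e => n (e ▸ zero_mem _)
    have := d1 i (Units.mk0 (x : M) (RingOfIntegers.coe_ne_zero_iff.2 x0))
    rw [tam i _ x rfl k, Units.val_mk0] at this
    rw [this, ct_span x0, not_not.1 ((ct_ne (v := v i) (span_singleton_eq_bot.not.2 x0)).not.2
      fun m => n (m (mem_span_singleton_self x)))]
    simp
  · have I0 : I ≠ ⊥ := fun k => a (span_singleton_eq_bot.1 (by rw [c, k, bot_mul]))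
    have k : ∀ s : Finset (Fin (r + 1)), (∀ i, ct (v i) (I * ∏ i ∈ s, W i ^ e i) =
        if i ∈ s then e i else 0) ∧
        -D (π (I * ∏ i ∈ s, W i ^ e i)) = -D (π I) + ∑ i ∈ s, e i • -D (π (W i)) := fun s => by
      induction s using Finset.induction_on with
      | empty =>
        refine ⟨fun i => ?_, by simp⟩
        simpa using (ct_ne (v := v i) I0).not.2 fun m => (mx i).ne_top
          (top_unique (b i ▸ sup_le m le_rfl))
      | insert a s ha ih =>
        rw [Finset.prod_insert ha, Finset.sum_insert ha, mul_left_comm]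
        have n : I * ∏ i ∈ s, W i ^ e i ≠ ⊥ :=
          mul_ne_zero I0 (Finset.prod_ne_zero_iff.2 fun i _ => pow_ne_zero _ (W0 i))
        obtain ⟨i1, i2⟩ := ih
        generalize I * ∏ i ∈ s, W i ^ e i = C at n i1 i2
        have : ∀ k : ℕ, (∀ i, ct (v i) (W a ^ k * C) = (if i = a then k else 0) + ct (v i) C) ∧
            -D (π (W a ^ k * C)) = k • -D (π (W a)) + -D (π C) := fun k => by
          induction k with
          | zero => simp
          | succ k ih =>
            have n' := mul_ne_zero (pow_ne_zero k (W0 a)) n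
            rw [pow_succ', mul_assoc, ad _ _ (W0 a) n', ih.2, succ_nsmul', add_assoc]
            refine ⟨fun i => ?_, rfl⟩
            rw [ct_mul (W0 a) n', ih.1]
            split_ifs with k
            · rw [k, show ct (v a) (W a) = 1 from ct_self]
              ring
            · rw [show ct (v i) (W a) = 0 from
                ct_of_ne (w := v a) fun m => k (inj (congrArg HeightOneSpectrum.asIdeal m))]
              ring
        refine ⟨fun i => ?_, by rw [(this _).2, i2, add_left_comm]⟩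
        rw [(this _).1, i1]
        by_cases k : i = a
        · simp [k, ha]
        · simp [k]
    obtain ⟨k1, k2⟩ := k Finset.univ
    rw [← c] at k1 k2
    simp only [ct_span a, k1, Finset.mem_univ, if_true, natCast_zsmul, Finset.sum_add_distrib,
      ← Finset.smul_sum]
    rw [add_left_comm, ← k2, pr x a, add_neg_cancel]
  · rw [show w = v i from HeightOneSpectrum.ext e, ← d1]

/-- passage to an extension where the primes are inert -/
theorem aux_norm {N : Type} [Field N] [NumberField N] [Algebra M N] [IsGalois M N] {t : 𝓞 M}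
    {Φ : Ideal (𝓞 M) → ZMod (2 ^ A)} {φ : Fin (r + 1) → M → ZMod (2 ^ A)} (X : Aux t A W Φ φ)
    (mx : ∀ i, ((W i).map (algebraMap (𝓞 M) (𝓞 N))).IsMaximal) :
    Aux (algebraMap (𝓞 M) (𝓞 N) t) A (fun i => (W i).map (algebraMap (𝓞 M) (𝓞 N)))
      (fun I => Φ (relNorm (𝓞 M) I)) fun i x => φ i (Algebra.norm M x) := by
  haveI : Module.Finite M N := Module.Finite.of_restrictScalars_finite ℚ M N
  have cm : ∀ i, ((W i).map (algebraMap (𝓞 M) (𝓞 N))).comap (algebraMap (𝓞 M) (𝓞 N)) = W i :=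
    fun i => ((X.max i).eq_of_le (comap_ne_top _ (mx i).ne_top) le_comap_map).symm
  have nm : ∀ x : 𝓞 N, Algebra.norm M (x : N) = Algebra.intNorm (𝓞 M) (𝓞 N) x := fun x =>
    (Algebra.algebraMap_intNorm (A := 𝓞 M) (K := M) (L := N) x).symm
  refine ⟨mx, fun i i' e => X.inj (by rw [← cm, ← cm i']; exact congrArg _ e),
    fun i m => X.cop i ((cm i).le m), fun I I' a b c d => ?_, fun i x y a b => ?_,
    fun i x k => ?_, fun x I e a b c => ?_⟩
  · rw [map_mul]
    exact X.add _ _ (relNorm_eq_bot_iff.not.2 a) (relNorm_eq_bot_iff.not.2 b)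
      (fun i => (Cm.cop_rn (X.max i) I).2 (c i)) fun i => (Cm.cop_rn (X.max i) I').2 (d i)
  · rw [map_mul]
    exact X.loc i _ _ (Algebra.norm_ne_zero_iff.2 a) (Algebra.norm_ne_zero_iff.2 b)
  · rw [nm]
    refine X.tam i _ ((cm i).le ?_)
    have e : algebraMap (𝓞 M) (𝓞 N) (Algebra.intNorm (𝓞 M) (𝓞 N) x) =
        ∏ σ : N ≃ₐ[M] N, RingOfIntegers.mapAlgEquiv σ x := RingOfIntegers.ext (by
      rw [RingOfIntegers.coe_eq_algebraMap (∏ σ : N ≃ₐ[M] N, _), map_prod]
      exact (congrArg (algebraMap M N) (nm x).symm).trans (Algebra.norm_eq_prod_automorphisms M _))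
    rw [mem_comap, map_sub, map_one, e, ← Ideal.Quotient.eq, map_prod, map_one]
    refine Finset.prod_eq_one fun σ _ => ?_
    rw [← map_one (Ideal.Quotient.mk _), Ideal.Quotient.eq,
      ← map_one (RingOfIntegers.mapAlgEquiv σ), ← map_sub]
    exact (map_le_iff_le_comap.2 fun y hy => by
      rw [mem_comap, mem_comap, AlgEquiv.commutes]
      exact mem_map_of_mem _ hy : _ ≤ comap (RingOfIntegers.mapAlgEquiv σ) _) k
  · simp only [nm]
    refine X.prd _ _ (fun i => finrank (𝓞 M) (𝓞 N) * e i) (fun k => a ?_)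
      (fun i => (Cm.cop_rn (X.max i) I).2 (b i)) ?_
    · rw [← span_singleton_eq_bot, ← relNorm_singleton, relNorm_eq_bot_iff] at k
      exact span_singleton_eq_bot.1 k
    · rw [← relNorm_singleton, c, map_mul, map_prod]
      simp only [map_pow, relNorm_algebraMap, pow_mul]

end Vale.Agent.P004C.Al.Kn
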