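import Mathlib

/-!
# P004 C: binomial moments of functions on `ZMod (2 ^ A)`
-/

open Finset

noncomputable section

namespace Vale.Agent.P004C.Cm

theorem nat_le (n : ℕ) : ‖(n : ℂ_[2])‖ ≤ 1 := IsUltrametricDist.norm_natCast_le_one _ n

theorem nm_two : ‖(2 : ℂ_[2])‖ = 1 / 2 := by
  have h : (2 : ℂ_[2]) = algebraMap ℚ_[2] ℂ_[2] ((2 : ℕ) : ℚ_[2]) := by
    rw [map_natCast]; rfl
  rw [h, norm_algebraMap', Padic.norm_p]
  norm_num

/-- the norm of a natural number is at least its inverse -/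
theorem inv_le {n : ℕ} (h : n ≠ 0) : 1 ≤ n * ‖(n : ℂ_[2])‖ := by
  obtain ⟨k, m, hm, rfl⟩ := Nat.exists_eq_two_pow_mul_odd h
  have h1 : ‖(m : ℂ_[2])‖ = 1 := by
    obtain ⟨j, rfl⟩ := hm
    have h2 : ‖(2 * j : ℂ_[2])‖ < 1 := by
      rw [norm_mul, nm_two]
      nlinarith [nat_le j, norm_nonneg (j : ℂ_[2])]
    have h3 := IsUltrametricDist.norm_add_eq_max_of_norm_ne_norm
      (x := (2 * j : ℂ_[2])) (y := 1) (by rw [norm_one]; exact h2.ne)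
    push_cast
    rw [h3, norm_one, max_eq_right h2.le]
  have h4 : (1 : ℝ) ≤ m := by exact_mod_cast hm.pos
  push_cast
  rw [norm_mul, norm_pow, nm_two, h1, mul_one, mul_right_comm, ← mul_pow]
  simpa using h4

theorem ch_pow (A : ℕ) {i : ℕ} (h : i ≠ 0) :
    ‖(((2 ^ A).choose i : ℕ) : ℂ_[2])‖ ≤ i * (1 / 2) ^ A := by
  obtain ⟨j, rfl⟩ := Nat.exists_eq_succ_of_ne_zero h
  obtain ⟨N, hN⟩ := Nat.exists_eq_succ_of_ne_zero (pow_ne_zero A two_ne_zero : 2 ^ A ≠ 0)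
  have h1 := Nat.add_one_mul_choose_eq N j
  have h2 : ‖(((2 ^ A).choose (j + 1) : ℕ) : ℂ_[2])‖ * ‖((j + 1 : ℕ) : ℂ_[2])‖ ≤ (1 / 2) ^ A := by
    rw [← norm_mul, ← Nat.cast_mul, hN, Nat.succ_eq_add_one, ← h1, ← Nat.succ_eq_add_one N, ← hN,
      Nat.cast_mul, norm_mul, Nat.cast_pow, norm_pow, Nat.cast_ofNat, nm_two]
    exact mul_le_of_le_one_right (by positivity) (nat_le _)
  have h3 := inv_le (n := j + 1) (by omega)
  have h4 : (0 : ℝ) ≤ ((j + 1 : ℕ) : ℝ) := Nat.cast_nonneg _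
  calc _ ≤ ‖(((2 ^ A).choose (j + 1) : ℕ) : ℂ_[2])‖ * (((j + 1 : ℕ) : ℝ) * ‖((j + 1 : ℕ) : ℂ_[2])‖) :=
        le_mul_of_one_le_right (norm_nonneg _) h3
    _ = ((j + 1 : ℕ) : ℝ) * (‖(((2 ^ A).choose (j + 1) : ℕ) : ℂ_[2])‖ * ‖((j + 1 : ℕ) : ℂ_[2])‖) := by
        ring
    _ ≤ _ := mul_le_mul_of_nonneg_left h2 h4

theorem sum_le {ι : Type*} (s : Finset ι) (f : ι → ℂ_[2]) {C : ℝ} (hC : 0 ≤ C)
    (h : ∀ i ∈ s, ‖f i‖ ≤ C) : ‖∑ i ∈ s, f i‖ ≤ C :=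
  IsUltrametricDist.norm_sum_le_of_forall_le_of_nonneg hC h

theorem ch_per (A r n : ℕ) :
    ‖(((2 ^ A + n).choose r : ℕ) : ℂ_[2]) - n.choose r‖ ≤ r * (1 / 2) ^ A := by
  rw [Nat.add_choose_eq, ← Finset.sum_erase_add _ _ (a := (0, r)) (by simp)]
  simp only [Nat.choose_zero_right, one_mul, Nat.cast_add, add_sub_cancel_right, Nat.cast_sum,
    Nat.cast_mul]
  refine sum_le _ _ (by positivity) fun p hp => ?_
  simp only [mem_erase, HasAntidiagonal.mem_antidiagonal] at hp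
  have h0 : p.1 ≠ 0 := fun h => hp.1 (Prod.ext h (by simpa [h] using hp.2))
  rw [norm_mul]
  refine (mul_le_of_le_one_right (norm_nonneg _) (nat_le _)).trans ((ch_pow A h0).trans ?_)
  exact mul_le_mul_of_nonneg_right (Nat.cast_le.2 (by omega)) (by positivity)

/-- Vandermonde up to a small error -/
theorem ch_add (A r : ℕ) (x y : ZMod (2 ^ A)) : ‖(((x + y).val.choose r : ℕ) : ℂ_[2]) -
    ∑ p ∈ antidiagonal r, (x.val.choose p.1 : ℂ_[2]) * y.val.choose p.2‖ ≤ r * (1 / 2) ^ A := by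
  have h1 : ∑ p ∈ antidiagonal r, (x.val.choose p.1 : ℂ_[2]) * y.val.choose p.2 =
      ((x.val + y.val).choose r : ℕ) := by
    rw [Nat.add_choose_eq]; push_cast; rfl
  rw [h1]
  have : NeZero (2 ^ A) := ⟨pow_ne_zero A two_ne_zero⟩
  rcases lt_or_ge (x.val + y.val) (2 ^ A) with h | h
  · rw [ZMod.val_add_of_lt h, sub_self, norm_zero]; positivity
  · have h2 := ZMod.val_add_val_of_le h
    rw [h2, norm_sub_rev, add_comm]
    exact ch_per A r _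

variable {A : ℕ}

instance : NeZero (2 ^ A) := ⟨pow_ne_zero A two_ne_zero⟩

/-- binomial moments -/
def mo (μ : ZMod (2 ^ A) → ℂ_[2]) (i : ℕ) : ℂ_[2] := ∑ x, μ x * (x.val.choose i : ℕ)

/-- convolution -/
def cv (μ ν : ZMod (2 ^ A) → ℂ_[2]) (z : ZMod (2 ^ A)) : ℂ_[2] := ∑ x, μ x * ν (z - x)

theorem sum_cv (μ ν F : ZMod (2 ^ A) → ℂ_[2]) :
    ∑ z, cv μ ν z * F z = ∑ x, ∑ y, μ x * ν y * F (x + y) := by
  simp only [cv, Finset.sum_mul]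
  rw [Finset.sum_comm]
  refine Finset.sum_congr rfl fun x _ => ?_
  rw [← Equiv.sum_comp (Equiv.addLeft x)]
  simp

theorem mo_le {μ : ZMod (2 ^ A) → ℂ_[2]} {C : ℝ} (h : ∀ x, ‖μ x‖ ≤ C) (i : ℕ) : ‖mo μ i‖ ≤ C := by
  refine sum_le _ _ ((norm_nonneg _).trans (h 0)) fun x _ => ?_
  rw [norm_mul]
  exact (mul_le_of_le_one_right (norm_nonneg _) (nat_le _)).trans (h x)

theorem mo_cv {μ ν : ZMod (2 ^ A) → ℂ_[2]} {C D : ℝ} (h : ∀ x, ‖μ x‖ ≤ C) (k : ∀ x, ‖ν x‖ ≤ D)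
    (r : ℕ) : ‖mo (cv μ ν) r - ∑ p ∈ antidiagonal r, mo μ p.1 * mo ν p.2‖ ≤
      C * D * (r * (1 / 2) ^ A) := by
  have hC := (norm_nonneg _).trans (h 0)
  have hD := (norm_nonneg _).trans (k 0)
  have h1 : ∑ p ∈ antidiagonal r, mo μ p.1 * mo ν p.2 = ∑ x, ∑ y, μ x * ν y *
      ∑ p ∈ antidiagonal r, (x.val.choose p.1 : ℂ_[2]) * y.val.choose p.2 := by
    simp only [mo, Finset.sum_mul_sum]
    simp only [Finset.mul_sum]
    rw [Finset.sum_comm]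
    refine Finset.sum_congr rfl fun x _ => ?_
    rw [Finset.sum_comm]
    refine Finset.sum_congr rfl fun y _ => Finset.sum_congr rfl fun p _ => by ring
  rw [h1, mo, sum_cv, ← Finset.sum_sub_distrib]
  refine sum_le _ _ (by positivity) fun x _ => ?_
  rw [← Finset.sum_sub_distrib]
  refine sum_le _ _ (by positivity) fun y _ => ?_
  rw [← mul_sub, norm_mul, norm_mul]
  exact mul_le_mul (mul_le_mul (h x) (k y) (norm_nonneg _) hC) (ch_add A r x y) (norm_nonneg _)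
    (by positivity)

/-- the leading coefficient of a product -/
theorem lead {μ ν : ZMod (2 ^ A) → ℂ_[2]} {C D ε : ℝ} (h : ∀ x, ‖μ x‖ ≤ C) (k : ∀ x, ‖ν x‖ ≤ D)
    {r : ℕ} (hε : 0 ≤ ε) (s : ∀ i < r, ‖mo μ i‖ ≤ ε) :
    ‖mo (cv μ ν) r - mo μ r * mo ν 0‖ ≤ C * D * (r * (1 / 2) ^ A) + ε * D := by
  have hD := (norm_nonneg _).trans (k 0)
  have h1 := mo_cv h k r
  rw [← Finset.sum_erase_add _ _ (a := (r, 0)) (by simp)] at h1
  have h2 : ‖∑ p ∈ (antidiagonal r).erase (r, 0), mo μ p.1 * mo ν p.2‖ ≤ ε * D := by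
    refine sum_le _ _ (by positivity) fun p hp => ?_
    simp only [mem_erase, HasAntidiagonal.mem_antidiagonal] at hp
    have h0 : p.1 < r := by
      by_contra hc
      exact hp.1 (Prod.ext (by simp; omega) (by simp; omega))
    rw [norm_mul]
    exact mul_le_mul (s _ h0) (mo_le k _) (norm_nonneg _) hε
  refine le_trans (le_of_eq ?_) ((norm_add_le _ _).trans (add_le_add h1 h2))
  congr 1
  ring

/-- a function on `ZMod (2 ^ A)` is determined by its character sums -/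
theorem eq_of_ch {μ ν : ZMod (2 ^ A) → ℂ}
    (h : ∀ ω : AddChar (ZMod (2 ^ A)) ℂ, ∑ x, μ x * ω x = ∑ x, ν x * ω x) : μ = ν := by
  refine ZMod.dft.injective (funext fun k => ?_)
  have := h (ZMod.stdAddChar.mulShift (-k))
  simpa [ZMod.dft_apply, mul_comm] using this

/-- the push forward of a series -/
def ms {X : Type*} (a : X → ℂ) (Φ : X → ZMod (2 ^ A)) (x : ZMod (2 ^ A)) : ℂ :=
  ∑' I, if Φ I = x then a I else 0

theorem ms_sum {X : Type*} {a : X → ℂ} (ha : Summable a) (Φ : X → ZMod (2 ^ A))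
    (F : ZMod (2 ^ A) → ℂ) : ∑ x, ms a Φ x * F x = ∑' I, a I * F (Φ I) := by
  have h1 : ∀ x, Summable fun I => if Φ I = x then a I else 0 := fun x =>
    (ha.indicator {I | Φ I = x}).congr fun I => by simp [Set.indicator_apply]
  simp only [ms, ← tsum_mul_right]
  rw [← Summable.tsum_finsetSum fun x _ => (h1 x).mul_right _]
  exact tsum_congr fun I => by simp

/-- smoothing -/
def sm (μ : ZMod (2 ^ A) → ℂ) (t : ℂ) (y x : ZMod (2 ^ A)) : ℂ := μ x - t * μ (x - y)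

theorem sm_sum (μ : ZMod (2 ^ A) → ℂ) (t : ℂ) (y : ZMod (2 ^ A)) (F : ZMod (2 ^ A) → ℂ) :
    ∑ x, sm μ t y x * F x = ∑ x, μ x * (F x - t * F (y + x)) := by
  simp only [sm, sub_mul, mul_sub, Finset.sum_sub_distrib]
  congr 1
  rw [← Equiv.sum_comp (Equiv.addLeft y)]
  exact Finset.sum_congr rfl fun x _ => by simp; ring

theorem sm_ch (μ : ZMod (2 ^ A) → ℂ) (t : ℂ) (y : ZMod (2 ^ A)) (ω : AddChar (ZMod (2 ^ A)) ℂ) :
    ∑ x, sm μ t y x * ω x = (1 - t * ω y) * ∑ x, μ x * ω x := by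
  rw [sm_sum, Finset.mul_sum]
  exact Finset.sum_congr rfl fun x _ => by rw [ω.map_add_eq_mul]; ring

/-- complex moments -/
def mc (μ : ZMod (2 ^ A) → ℂ) (i : ℕ) : ℂ := ∑ x, μ x * (x.val.choose i : ℕ)

theorem mo_mc (ι : ℂ →+* ℂ_[2]) (μ : ZMod (2 ^ A) → ℂ) (i : ℕ) :
    mo (fun x => ι (μ x)) i = ι (mc μ i) := by
  simp [mo, mc]

/-- comparison of the leading coefficients in `(1 - t [y]) μ₂ = μ₁ θ` -/
theorem core (ι : ℂ →+* ℂ_[2]) {μ₁ μ₂ θ : ZMod (2 ^ A) → ℂ} {t : ℂ} {y : ZMod (2 ^ A)}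
    (h : ∀ ω : AddChar (ZMod (2 ^ A)) ℂ,
      (1 - t * ω y) * ∑ x, μ₂ x * ω x = (∑ x, μ₁ x * ω x) * ∑ x, θ x * ω x)
    (ht : ‖ι t‖ ≤ 1) {s₁ s₃ C ε : ℝ} (h₁ : 0 < s₁) (h₃ : 0 < s₃) (hε : 0 ≤ ε)
    (b₁ : ∀ x, s₁ * ‖ι (μ₁ x)‖ ≤ C) (b₂ : ∀ x, s₁ * s₃ * ‖ι (μ₂ x)‖ ≤ C)
    (b₃ : ∀ x, s₃ * ‖ι (θ x)‖ ≤ C) {r : ℕ} (z₁ : ∀ i < r, s₁ * ‖ι (mc μ₁ i)‖ ≤ ε)
    (z₂ : ∀ i < r, s₁ * s₃ * ‖ι (mc μ₂ i)‖ ≤ ε) :
    |s₁ * s₃ * ‖ι (mc μ₂ r)‖ * ‖1 - ι t‖ - s₁ * ‖ι (mc μ₁ r)‖ * (s₃ * ‖ι (∑ x, θ x)‖)| ≤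
      (C * C + C) * (r * (1 / 2) ^ A) + ε * (C + 1) := by
  have hs := mul_pos h₁ h₃
  let δ : ZMod (2 ^ A) → ℂ := sm (fun x => if x = 0 then 1 else 0) t y
  have hδ : ∀ x, ‖ι (δ x)‖ ≤ 1 := fun x => by
    simp only [δ, sm, map_sub, map_mul, sub_eq_add_neg (ι _)]
    refine (IsUltrametricDist.norm_add_le_max _ _).trans (max_le ?_ ?_)
    · split_ifs <;> simp
    · split_ifs <;> simp [ht]
  have hδ0 : mc δ 0 = 1 - t := by
    have := sm_ch (fun x => if x = 0 then 1 else 0) t y 1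
    simpa [mc] using this
  have hc : ∀ μ ν : ZMod (2 ^ A) → ℂ, ∀ ω : AddChar (ZMod (2 ^ A)) ℂ,
      ∑ z, (∑ x, μ x * ν (z - x)) * ω z = (∑ x, μ x * ω x) * ∑ x, ν x * ω x := fun μ ν ω => by
    rw [Finset.sum_mul_sum]
    simp only [Finset.sum_mul]
    rw [Finset.sum_comm]
    refine Finset.sum_congr rfl fun x _ => ?_
    rw [← Equiv.sum_comp (Equiv.addLeft x)]
    exact Finset.sum_congr rfl fun y _ => by simp [ω.map_add_eq_mul]; ring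
  have he : (fun z => ∑ x, μ₂ x * δ (z - x)) = fun z => ∑ x, μ₁ x * θ (z - x) :=
    eq_of_ch fun ω => by
      rw [hc, hc, ← h, sm_ch, mul_comm]
      simp
  have he' : cv (fun x => ι (μ₂ x)) (fun x => ι (δ x)) = cv (fun x => ι (μ₁ x)) fun x => ι (θ x) :=
    funext fun z => by simpa [cv] using congrArg ι (congrFun he z)
  have k₂ := lead (μ := fun x => ι (μ₂ x)) (C := C / (s₁ * s₃)) (ε := ε / (s₁ * s₃)) (r := r)
    (fun x => (le_div_iff₀' hs).2 (b₂ x)) hδ (by positivity)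
    fun i hi => by rw [mo_mc]; exact (le_div_iff₀' hs).2 (z₂ i hi)
  have k₁ := lead (μ := fun x => ι (μ₁ x)) (ν := fun x => ι (θ x)) (C := C / s₁) (D := C / s₃)
    (ε := ε / s₁) (r := r) (fun x => (le_div_iff₀' h₁).2 (b₁ x))
    (fun x => (le_div_iff₀' h₃).2 (b₃ x)) (by positivity)
    fun i hi => by rw [mo_mc]; exact (le_div_iff₀' h₁).2 (z₁ i hi)
  rw [he', mo_mc, mo_mc, hδ0, map_sub, map_one] at k₂
  rw [mo_mc, mo_mc, show mc θ 0 = ∑ x, θ x by simp [mc]] at k₁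
  have k := (norm_sub_le _ _).trans (add_le_add k₁ k₂)
  rw [sub_sub_sub_cancel_left] at k
  have k' := (abs_norm_sub_norm_le _ _).trans k
  rw [norm_mul, norm_mul] at k'
  have := mul_le_mul_of_nonneg_left k' hs.le
  rw [← abs_of_pos hs, ← abs_mul, abs_of_pos hs] at this
  refine le_trans (le_of_eq ?_) (this.trans (le_of_eq ?_))
  · congr 1; ring
  · field_simp

end Vale.Agent.P004C.Cm
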