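import Vale.Agent.P004C.Al.St3

/-!
# P004 C, block AL: the actions on elements and divisors
-/

set_option linter.all false

open NumberField Module IsDedekindDomain
open scoped Classical

noncomputable section

namespace Vale.Agent.P004C.Al.Cb

variable {K : Type} [Field K] [NumberField K] {ι : ℂ →+* ℂ_[2]} {J : K →+* ℂ} {Ω : ℝ}
  {A : Type} [Field A] [NumberField A] [Algebra K A]

theorem ua_mul (σ σ' : A ≃ₐ[K] A) (x : Aˣ) : ua (σ * σ') x = ua σ (ua σ' x) := rfl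

theorem ua_one (x : Aˣ) : ua (1 : A ≃ₐ[K] A) x = x := rfl

theorem ta_mul (σ σ' : A ≃ₐ[K] A) (p : Dv A) : ta (σ * σ') p = ta σ (ta σ' p) :=
  funext fun P => congrArg p (HeightOneSpectrum.ext (Ideal.ext fun x => by
    show (σ * σ') • x ∈ P.asIdeal ↔ σ • σ' • x ∈ P.asIdeal
    rw [mul_smul]))

theorem ta_one (p : Dv A) : ta (1 : A ≃ₐ[K] A) p = p :=
  funext fun P => congrArg p (HeightOneSpectrum.ext (Ideal.ext fun x => by
    show (1 : A ≃ₐ[K] A) • x ∈ P.asIdeal ↔ x ∈ P.asIdeal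
    rw [one_smul]))

theorem ua_pow (σ : A ≃ₐ[K] A) (n : ℕ) (x : Aˣ) : (ua σ)^[n] x = ua (σ ^ n) x := by
  induction n with
  | zero => rfl
  | succ n ih => rw [Function.iterate_succ_apply', ih, pow_succ', ua_mul]

theorem ta_pow (σ : A ≃ₐ[K] A) (n : ℕ) (p : Dv A) : (ta σ)^[n] p = ta (σ ^ n) p := by
  induction n with
  | zero => exact (ta_one p).symm
  | succ n ih => rw [Function.iterate_succ_apply', ih, pow_succ', ta_mul]

theorem ua_cm {σ σ' : A ≃ₐ[K] A} (h : σ * σ' = σ' * σ) (x : Aˣ) :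
    ua σ (ua σ' x) = ua σ' (ua σ x) := by rw [← ua_mul, h, ua_mul]

theorem ta_cm {σ σ' : A ≃ₐ[K] A} (h : σ * σ' = σ' * σ) (p : Dv A) :
    ta σ (ta σ' p) = ta σ' (ta σ p) := by rw [← ta_mul, h, ta_mul]

theorem pj_emp (p : Dv A) : pj ∅ p = p := funext fun P => by
  simp [pj]

theorem dd_eq (S : Set (P027M.S.Pr A)) (x : Aˣ) : dd S x = pj S (dd ∅ x) :=
  congrArg (pj S) (pj_emp _).symm

theorem il_eq (L : Type) [Field L] [Algebra L A] (S : Set (P027M.S.Pr A)) :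
    IL L S = (IL L ∅).map (pj S) := by
  rw [IL, IL, Subgroup.map_map]
  exact congrArg (Subgroup.map · _) (MonoidHom.ext fun p => congrArg (pj S) (pj_emp p).symm)

theorem ul_top (m : ℕ) : UL ι J A m = Um ι J A m :=
  inf_eq_left.2 fun x _ => ⟨x, rfl⟩

theorem ul_le {L N : Type} [Field L] [Field N] [Algebra L N] [Algebra L A] [Algebra N A]
    [IsScalarTower L N A] (m : ℕ) : (UL ι J L m : Subgroup Aˣ) ≤ UL ι J N m := by
  rintro _ ⟨h, x, rfl⟩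
  exact ⟨h, Units.map (algebraMap L N : L →* N) x,
    Units.ext (IsScalarTower.algebraMap_apply L N A _).symm⟩

theorem pres_top (σ : A ≃ₐ[K] A) : Pres A σ := fun x => ⟨σ x, rfl⟩

theorem ul_st (hU : UMF) (B : Base ι J Ω) {L : Type} [Field L] [Algebra L A] {σ : A ≃ₐ[K] A}
    (h : Pres L σ) (m : ℕ) : (UL ι J L m).map (ua σ) ≤ UL ι J L m := by
  rintro _ ⟨_, ⟨a, x, rfl⟩, rfl⟩
  obtain ⟨y, e⟩ := h x
  refine ⟨(hU K ι J Ω B A).2.2.1 m σ ⟨_, a, rfl⟩, Units.mk0 y fun k => ?_, Units.ext e.symm⟩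
  rw [k, map_zero, map_eq_zero, map_eq_zero] at e
  exact x.ne_zero e

theorem dd_ua (hD : DVF) (B : Base ι J Ω) (σ : A ≃ₐ[K] A) (s : 𝓞 K) (x : Aˣ) :
    dd (Ss ι J A s) (ua σ x) = ta σ (dd (Ss ι J A s) x) := by
  rw [dd_eq, (hD K ι J Ω B A).1, (hD K ι J Ω B A).2.1, ← dd_eq]

theorem il_st (hD : DVF) (B : Base ι J Ω) {L : Type} [Field L] [NumberField L] [Algebra K L]
    [Algebra L A] [IsScalarTower K L A] {σ : A ≃ₐ[K] A} (h : Pres L σ) (s : 𝓞 K) :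
    (IL L (Ss ι J A s)).map (ta σ) ≤ IL L (Ss ι J A s) := by
  rw [il_eq]
  rintro _ ⟨_, ⟨p, a, rfl⟩, rfl⟩
  exact ⟨_, ((hD K ι J Ω B A).2.2 L).2.2.1 σ h ⟨p, a, rfl⟩, (hD K ι J Ω B A).2.1 σ s p⟩

theorem fi_anti {X : Type} [CommGroup X] {F : ℕ → Subgroup X} (h : Fi F) : Antitone F :=
  antitone_nat_of_succ_le h.le

theorem fi_tf {X : Type} [CommGroup X] {F : ℕ → Subgroup X} (h : Fi F) {m : ℕ} (hm : 2 ≤ m) {x : X}
    (hx : x ∈ F m) (e : x ^ 2 = 1) : x = 1 :=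
  h.sep x fun n => h.rt n x (fi_anti h hm hx) (e ▸ one_mem _)

/-- an automorphism whose order is the degree fixes only the base -/
theorem fix {L N : Type} [Field L] [Field N] [Algebra L N] [FiniteDimensional L N]
    {ω : N ≃ₐ[L] N} (h : orderOf ω = finrank L N) {z : N} (e : ω z = z) :
    ∃ y, algebraMap L N y = z := by
  have k := IntermediateField.finrank_fixedField_eq_card (Subgroup.zpowers ω)
  rw [Nat.card_zpowers, h,
    ← finrank_mul_finrank L (IntermediateField.fixedField (Subgroup.zpowers ω)) N] at k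
  have k1 : IntermediateField.fixedField (Subgroup.zpowers ω) = ⊥ :=
    IntermediateField.finrank_eq_one_iff.1
      (mul_right_cancel₀ finrank_pos.ne' (k.symm.trans (one_mul _).symm))
  refine IntermediateField.mem_bot.1 (k1 ▸ (IntermediateField.mem_fixedField_iff _ _).2 fun f hf => ?_)
  exact (Subgroup.zpowers_le (H := MulAction.stabilizer _ z)).2 e hf

section pair

variable {L L₂ : Type} [Field L] [NumberField L] [Field L₂] [NumberField L₂] [Algebra K L]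
  [Algebra K L₂] [Algebra L L₂] [Algebra L A] [Algebra L₂ A] [IsScalarTower K L L₂]
  [IsScalarTower K L₂ A] [IsScalarTower L L₂ A] [IsScalarTower K L A] {τ : A ≃ₐ[K] A} {s : 𝓞 K}
  {m : ℕ}

theorem pa (hD : DVF) (hP : PAI) (B : Base ι J Ω) (q : Qp ι J L L₂ τ) (s : 𝓞 K) (hm : 2 ≤ m) :
    Pa (dd (Ss ι J A s)) (ua τ) (ta τ) (UL ι J L m) (UL ι J L₂ m) (IL L (Ss ι J A s))
      (IL L₂ (Ss ι J A s)) :=
  (hP K ι J Ω B A L L₂ τ q m hm).1 _ ((hD K ι J Ω B A).2.1 τ s)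

theorem hs_ne (h0 : A0) (hD : DVF) (hP : PAI) (B : Base ι J Ω) (q : Qp ι J L L₂ τ) (s0 : s ≠ 0)
    (hm : 2 ≤ m) : hS ι J L L₂ τ (Ss ι J A s) m ≠ 0 :=
  h0 _ _ _ _ _ _ _ _ _ (pa hD hP B q s hm) (((hD K ι J Ω B A).2.2 L₂).2.2.2.1 s m s0 hm).1
    (((hD K ι J Ω B A).2.2 L).2.2.2.1 s m s0 hm).2

theorem cs_ne (hD : DVF) (B : Base ι J Ω) (s0 : s ≠ 0) (hm : 2 ≤ m) :
    cS ι J L L₂ τ (Ss ι J A s) m ≠ 0 :=
  ne_zero_of_dvd_ne_zero (((hD K ι J Ω B A).2.2 L).2.2.2.1 s m s0 hm).1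
    (Subgroup.relIndex_dvd_of_le_left _ le_sup_right)

theorem lv (hU : UMF) (hD : DVF) (hP : PAI) (B : Base ι J Ω) (q : Qp ι J L L₂ τ)
    (i : ∀ P ∈ Ps L s, Ine L₂ P) (hm : 2 ≤ m) : Lv (dd (Ss ι J A s)) (ua τ) (UL ι J L (m + 1))
      (UL ι J L₂ (m + 1)) (UL ι J L₂ m) (IL L₂ (Ss ι J A s)) := by
  have f := (hU K ι J Ω B A).1
  have p := pa hD hP B q s hm
  have b := (hP K ι J Ω B A L L₂ τ q m hm).2.1 1
  obtain ⟨-, -, -, k1, k2⟩ := hP K ι J Ω B A L L₂ τ q (m + 1) (hm.trans m.le_succ)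
  refine ⟨inf_le_inf_right _ (f.le m), ?_, p.dv, fun x h => (p.st x h).1,
    fun x h => fi_tf f hm h.1, by rw [k2 s i, k1, b, mul_one], by rw [b]; positivity⟩
  rintro _ ⟨x, h, rfl⟩
  exact ⟨f.sq m hm ⟨x, h.1, rfl⟩, pow_mem h.2 2⟩

variable {ω : A ≃ₐ[K] A} {ω₁ : L₂ ≃ₐ[L] L₂}

theorem il_le (hD : DVF) (B : Base ι J Ω) (S : Set (P027M.S.Pr A)) : IL L S ≤ IL L₂ S := by
  rw [il_eq L, il_eq L₂]
  exact Subgroup.map_mono (((hD K ι J Ω B A).2.2 L).2.2.2.2 L₂).1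

theorem ul_nr (hU : UMF) (B : Base ι J Ω) (h3 : finrank L L₂ = 3) (o : orderOf ω₁ = 3)
    (e : ∀ x, algebraMap L₂ A (ω₁ x) = ω (algebraMap L₂ A x)) (m : ℕ) :
    (UL ι J L₂ m).map (n3 (ua ω)) ≤ UL ι J L m := by
  rintro _ ⟨_, ⟨a, x, rfl⟩, rfl⟩
  have u := (hU K ι J Ω B A).2.2.1 m ω
  have : FiniteDimensional L L₂ := Module.finite_of_finrank_pos (by omega)
  have k : ω₁ (ω₁ (ω₁ x)) = x := by
    have := congrArg (· (x : L₂)) (o ▸ pow_orderOf_eq_one ω₁)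
    simpa [pow_succ] using this
  obtain ⟨y, hy⟩ := fix (o.trans h3.symm) (z := x * ω₁ x * ω₁ (ω₁ x)) (by
    rw [map_mul, map_mul, k]; ring)
  refine ⟨mul_mem (mul_mem a (u ⟨_, a, rfl⟩)) (u ⟨_, u ⟨_, a, rfl⟩, rfl⟩),
    Units.mk0 y fun k => ?_, Units.ext ?_⟩
  · rw [k, map_zero] at hy
    simpa using hy
  · show algebraMap L A y = algebraMap L₂ A x * ω (algebraMap L₂ A x) * ω (ω (algebraMap L₂ A x))
    rw [IsScalarTower.algebraMap_apply L L₂ A, hy, map_mul, map_mul, e, e, e]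

theorem il_nr (hD : DVF) (B : Base ι J Ω) (h3 : finrank L L₂ = 3) (o : orderOf ω₁ = 3)
    (e : ∀ x, algebraMap L₂ A (ω₁ x) = ω (algebraMap L₂ A x)) (s : 𝓞 K) :
    (IL L₂ (Ss ι J A s)).map (n3 (ta ω)) ≤ IL L (Ss ι J A s) := by
  rw [il_eq L, il_eq L₂]
  rintro _ ⟨_, ⟨p, a, rfl⟩, rfl⟩
  refine ⟨_, (((hD K ι J Ω B A).2.2 L).2.2.2.2 L₂).2.1 3 ω ω₁ h3 o e p a, ?_⟩
  have c := (hD K ι J Ω B A).2.1 ω s
  show _ = pj _ p * ta ω (pj _ p) * ta ω (ta ω (pj _ p))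
  rw [Finset.prod_range_succ, Finset.prod_range_succ, Finset.prod_range_one, pow_zero, ta_one,
    pow_one, pow_two, ta_mul, map_mul, map_mul, c, c, c]

end pair

end Vale.Agent.P004C.Al.Cb
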