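import Vale.Agent.P004F.Defs

/-! # P004 C, block AL, row DIC: the linear algebra over the field with two elements -/

open Matrix

noncomputable section

namespace Vale.Agent.P004C.Al.Dz

open Vale.Agent.P004F (Rb M2)

/-- the powers of `1 + T` are independent -/
theorem ind {N : ℕ} [NeZero N] {ι : Type} [Fintype ι] (n : ι → ZMod N) (a : ι → ZMod 2)
    (h : ∑ i, (Ideal.Quotient.mk _ (1 + PowerSeries.X) : Rb N) ^ (n i).val *
      ((Ideal.Quotient.mk _).comp PowerSeries.C : ZMod 2 →+* Rb N) (a i) = 0) (t : ZMod N) :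
    ∑ i, (if n i = t then a i else 0) = 0 := by
  let p : Polynomial (ZMod 2) := ∑ i, Polynomial.monomial (n i).val (a i)
  have d : p.natDegree < N := (Polynomial.natDegree_sum_le_of_forall_le _ _ (n := N - 1) fun i _ =>
    (Polynomial.natDegree_monomial_le _).trans (Nat.le_sub_one_of_lt (n i).val_lt)).trans_lt
      (Nat.sub_one_lt (NeZero.ne N))
  have e : PowerSeries.X ^ N ∣ (Polynomial.taylor 1 p : PowerSeries (ZMod 2)) := by
    rw [← Ideal.mem_span_singleton, ← Ideal.Quotient.eq_zero_iff_mem, ← h,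
      ← Polynomial.coeToPowerSeries.ringHom_apply]
    simp [p, map_sum, add_comm, mul_comm]
  have z : p = 0 := by
    rw [← Polynomial.taylor_eq_zero 1]
    ext m
    rcases lt_or_ge m N with c | c
    · simpa using PowerSeries.X_pow_dvd_iff.1 e m c
    · exact Polynomial.coeff_eq_zero_of_natDegree_lt (by
        rw [Polynomial.natDegree_taylor]; exact d.trans_le c)
  simpa [p, Polynomial.coeff_monomial, (ZMod.val_injective N).eq_iff] using
    congrArg (Polynomial.coeff · t.val) z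

theorem f2 : ∀ ω : M2 (ZMod 2), ω ≠ 1 → ω * ω * ω = 1 → ∀ B : M2 (ZMod 2), B.det = 1 →
    B * ω ≠ B ∧ ∃ u : M2 (ZMod 2), ∀ C : M2 (ZMod 2), C.det = 1 →
      ∑ r, ∑ c, u r c * C r c = if C = B ∨ C = B * ω then 1 else 0 := by
  simp only [det_fin_two]
  decide

theorem f1 : ∀ ω : M2 (ZMod 2), ω ≠ 1 → ω * ω * ω = 1 → ∀ B : M2 (ZMod 2), B * B * B = 1 →
    ∃ u : Fin 2 → ZMod 2, ∀ C : M2 (ZMod 2), C * C * C = 1 →
      ∑ r, u r * C r 0 = if C = B ∨ C = B * ω then 1 else 0 := by
  decide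

/-- the kernel of the map to matrices consists of functions invariant under `ω` -/
theorem s3 {N : ℕ} [NeZero N] {ι : Type} [Fintype ι] (A : ι → M2 (ZMod 2)) (n : ι → ZMod N)
    (inj : ∀ i i', A i = A i' → n i = n i' → i = i') (un : ∀ i, (A i).det = 1) {ω : M2 (ZMod 2)}
    (h1 : ω ≠ 1) (h3 : ω ^ 3 = 1) {d : ℕ} (hd : d = 2 ∨ d = 1 ∧ ∀ i, A i ^ 3 = 1) (z : ι → ZMod 2)
    (h : ∀ r c : Fin 2, c.val < d →
      ∑ i, (Ideal.Quotient.mk _ (1 + PowerSeries.X) : Rb N) ^ (n i).val *
        ((Ideal.Quotient.mk _).comp PowerSeries.C : ZMod 2 →+* Rb N) (z i * A i r c) = 0)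
    {i i' : ι} (hA : A i' = A i * ω) (hn : n i' = n i) : z i' = z i := by
  classical
  rw [pow_three'] at h3
  obtain ⟨u, u0, hu⟩ : ∃ u : M2 (ZMod 2), (∀ r (c : Fin 2), ¬ c.val < d → u r c = 0) ∧
      ∀ x, ∑ r, ∑ c, u r c * A x r c = if A x = A i ∨ A x = A i * ω then 1 else 0 := by
    rcases hd with rfl | ⟨rfl, hd⟩
    · obtain ⟨u, hu⟩ := (f2 ω h1 h3 _ (un i)).2
      exact ⟨u, fun r c e => absurd c.2 e, fun x => hu _ (un x)⟩
    · simp only [pow_three'] at hd
      obtain ⟨u, hu⟩ := f1 ω h1 h3 _ (hd i)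
      exact ⟨.of fun r => ![u r, 0], fun r c e => by fin_cases c <;> simp at e ⊢,
        fun x => by simpa using hu _ (hd x)⟩
  have ne : i' ≠ i := fun e => (f2 ω h1 h3 _ (un i)).1 (by rw [← hA, e])
  have s : ∑ r, ∑ c, u r c * ∑ x, (if n x = n i then z x * A x r c else 0) = 0 :=
    Finset.sum_eq_zero fun r _ => Finset.sum_eq_zero fun c _ => by
      by_cases e : c.val < d
      · rw [ind n _ (h r c e), mul_zero]
      · rw [u0 r c e, zero_mul]
  have t : ∀ x, ∑ r, ∑ c, u r c * (if n x = n i then z x * A x r c else 0) =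
      if x ∈ ({i', i} : Finset ι) then z x else 0 := fun x => by
    by_cases e : n x = n i
    · simp only [e, if_true, mul_left_comm (u _ _), ← Finset.mul_sum, hu, mul_ite, mul_one, mul_zero]
      refine if_congr ⟨fun q => ?_, fun q => ?_⟩ rfl rfl
      · rcases q with q | q
        · simp [inj _ _ q e]
        · simp [inj _ _ (q.trans hA.symm) (e.trans hn.symm)]
      · rcases Finset.mem_insert.1 q with rfl | q
        · exact .inr hA
        · exact .inl (by rw [Finset.mem_singleton.1 q])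
    · rw [if_neg (c := x ∈ _) (by
        simp only [Finset.mem_insert, Finset.mem_singleton]
        rintro (rfl | rfl) <;> contradiction)]
      simp [e]
  simp only [Finset.mul_sum] at s
  rw [Finset.sum_congr rfl fun r _ => Finset.sum_comm, Finset.sum_comm] at s
  simp only [t] at s
  rw [Finset.sum_ite_mem, Finset.univ_inter, Finset.sum_pair ne] at s
  rwa [add_eq_zero_iff_eq_neg, ZMod.neg_eq_self_mod_two] at s

end Vale.Agent.P004C.Al.Dz
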