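import Mathlib

/-!
# P004 C, block AL: the index of the rows of a matrix modulo a power of two
-/

set_option autoImplicit false

open Matrix PadicInt

namespace Vale.Agent.P004C.Al.Dj

variable {κ : Type} [Fintype κ] [DecidableEq κ]

theorem odd_det (D : Matrix κ κ ℤ) (a : ℕ) : Odd (1 - 2 ^ (a + 1) • D).det := by
  rw [← Int.not_even_iff_odd, even_iff_two_dvd]
  intro k
  have := (eq_intCast (Int.castRingHom _) _).trans ((ZMod.intCast_zmod_eq_zero_iff_dvd _ 2).2 k)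
  rw [RingHom.map_det, map_sub, map_one, map_nsmul, pow_succ',
    mul_smul, two_smul, show ∀ M : Matrix κ κ (ZMod 2), M + M = 0 from fun M =>
      Matrix.ext fun _ _ => CharTwo.add_self_eq_zero _] at this
  simp at this

theorem idx {Z : Matrix κ κ ℤ} (z0 : Z.det ≠ 0) :
    (Matrix.toLin' Zᵀ).range.toAddSubgroup.index = Z.det.natAbs := by
  have := (Matrix.toLin' Zᵀ).range.natAbs_det_equiv (LinearEquiv.ofInjective (Matrix.toLin' Zᵀ)
    (Matrix.mulVec_injective_of_det_ne_zero (by rwa [det_transpose])))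
  rw [← det_transpose, ← LinearMap.det_toLin']
  exact this.symm

theorem latZ (Z : Matrix κ κ ℤ) {s a : ℕ} (Λ : AddSubgroup (κ → ℤ)) (le : ∀ c, c ᵥ* Z ∈ Λ)
    (m : ∀ y ∈ Λ, ∃ c d : κ → ℤ, y = c ᵥ* Z + 2 ^ (s + a + 1) • d) (i1 : Λ.index = 2 ^ s) :
    ∃ o, Odd o ∧ Z.det.natAbs = o * 2 ^ s := by
  choose C D e using fun i => m _ (i1 ▸ Λ.nsmul_index_mem (Pi.single i 1))
  obtain ⟨O, hO⟩ : ∃ O : Matrix κ κ ℤ, O = 1 - 2 ^ (a + 1) • Matrix.of D := ⟨_, rfl⟩
  have e1 : Matrix.of C * Z = 2 ^ s • O := by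
    ext i j
    have := congrFun (e i) j
    simp only [hO, smul_sub, smul_smul, ← pow_add, ← add_assoc, Matrix.sub_apply, Matrix.smul_apply]
    exact eq_sub_of_add_eq (this.symm.trans (by simp [one_apply, Pi.single_apply, eq_comm]))
  have o1 : Odd O.det := hO ▸ odd_det _ a
  have z0 : Z.det ≠ 0 := fun k => by
    have := congrArg det e1
    rw [det_mul, k, mul_zero, ← Nat.cast_smul_eq_nsmul ℤ, det_smul, eq_comm, mul_eq_zero] at this
    exact this.elim (by positivity) fun k => by simp [k] at o1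
  have f1 : ∀ c, Matrix.toLin' Zᵀ c = c ᵥ* Z := fun c => mulVec_transpose _ _
  have le' : Λ.map (nsmulAddMonoidHom O.det.natAbs) ≤ (Matrix.toLin' Zᵀ).range.toAddSubgroup := by
    rintro _ ⟨y, hy, rfl⟩
    obtain ⟨c, d, rfl⟩ := m y hy
    have : O.det • (c ᵥ* Z + 2 ^ (s + a + 1) • d) ∈ (Matrix.toLin' Zᵀ).range :=
      ⟨O.det • c + (2 ^ (a + 1) • d) ᵥ* (O.adjugate * Matrix.of C), by
        rw [f1, add_vecMul, vecMul_vecMul, mul_assoc, e1, mul_smul_comm, adjugate_mul, smul_vecMul,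
          smul_add, vecMul_smul, vecMul_smul, vecMul_one, smul_comm (2 ^ s), smul_smul (2 ^ s),
          ← pow_add, add_assoc]⟩
    rw [nsmulAddMonoidHom_apply, ← natCast_zsmul]
    rcases Int.natAbs_eq O.det with k | k
    · rwa [← k]
    · rw [← neg_eq_iff_eq_neg.2 k, neg_smul]
      exact neg_mem this
  have o2 := AddSubgroup.relIndex_dvd_of_le_left Λ le'
  rw [AddSubgroup.relIndex_map_nsmul] at o2
  refine ⟨_, Odd.of_dvd_nat (Int.natAbs_odd.2 o1).pow o2, ?_⟩
  rw [← idx z0, ← i1, AddSubgroup.relIndex_mul_index]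
  rintro _ ⟨c, rfl⟩
  exact f1 c ▸ le c

theorem lat (B : Matrix κ κ ℤ_[2]) {a : ℕ} (H : AddSubgroup (κ → ZMod (2 ^ a)))
    (hH : ∀ y, y ∈ H ↔ ∃ c : κ → ℤ, y = ∑ j, c j • fun i => toZModPow a (B j i))
    (h : padicValNat 2 H.index < a) : ‖B.det‖ = (1 / 2) ^ padicValNat 2 H.index := by
  obtain ⟨s, -, hs⟩ := (Nat.dvd_prime_pow Nat.prime_two (m := a * Fintype.card κ)).1
    (H.index_dvd_card.trans (by simp [pow_mul]))
  rw [hs, padicValNat.prime_pow] at h ⊢
  obtain ⟨a, rfl⟩ := Nat.exists_eq_add_of_lt h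
  let Z : Matrix κ κ ℤ := .of fun j i => ((toZModPow _ (B j i) : ZMod (2 ^ (s + a + 1))).val : ℤ)
  let π : (κ → ℤ) →+ (κ → ZMod (2 ^ (s + a + 1))) := (Int.castAddHom _).compLeft κ
  have hπ : Function.Surjective π := fun y => ⟨fun i => ((y i).val : ℤ), by ext; simp [π]⟩
  obtain ⟨o, o2, i2⟩ := latZ Z (a := a) (H.comap π)
    (fun c => (hH _).2 ⟨c, funext fun i => by simp [π, Z, vecMul, dotProduct]⟩) (fun y hy => by
      obtain ⟨c, hc⟩ := (hH _).1 hy
      have : ∀ i, ∃ d, y i - (c ᵥ* Z) i = (2 ^ (s + a + 1) : ℕ) * d := fun i =>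
        (ZMod.intCast_zmod_eq_zero_iff_dvd _ _).1 (by
          have := congrFun hc i
          simp only [π, AddMonoidHom.compLeft_apply, Function.comp_apply, Int.coe_castAddHom] at this
          simp [this, Z, vecMul, dotProduct])
      choose d hd using this
      exact ⟨c, d, funext fun i => by simpa [sub_eq_iff_eq_add'] using hd i⟩)
    ((H.index_comap_of_surjective hπ).trans hs)
  have n1 : ‖(Z.det : ℤ_[2])‖ = (1 / 2) ^ s := by
    have : ‖(Z.det.natAbs : ℤ_[2])‖ = (1 / 2) ^ s := by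
      rw [i2, Nat.cast_mul, norm_mul, norm_natCast_eq_one_iff.2 (Nat.coprime_two_left.2 o2), one_mul,
        Nat.cast_pow, norm_pow, norm_p]
      simp
    rcases Int.natAbs_eq Z.det with k | k <;> rw [k] <;> simpa using this
  have n2 : ‖B.det - Z.det‖ ≤ (2 : ℕ) ^ (-(s + a + 1 : ℕ) : ℤ) := by
    rw [norm_le_pow_iff_mem_span_pow, ← ker_toZModPow, RingHom.mem_ker, map_sub, sub_eq_zero,
      map_intCast, ← eq_intCast (Int.castRingHom _), RingHom.map_det, RingHom.map_det]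
    exact congrArg det (Matrix.ext fun j i => by simp [Z])
  rw [← n1, ← norm_neg (Z.det : ℤ_[2])]
  rw [sub_eq_add_neg] at n2
  refine norm_eq_of_norm_add_lt_right (n2.trans_lt ?_)
  rw [norm_neg, n1, _root_.zpow_neg, zpow_natCast, ← inv_pow, one_div]
  exact pow_lt_pow_right_of_lt_one₀ (by norm_num) (by norm_num) h

end Vale.Agent.P004C.Al.Dj
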