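import Vale.Agent.P004C.Al.St
import Vale.Agent.P004C.As.Val
import Vale.Agent.P004C.As.Ray

/-!
# P004 C, block AL: ideals as divisors, ray classes
-/

set_option linter.unusedSectionVars false

open NumberField Module IsDedekindDomain Ideal
open scoped Classical

noncomputable section

namespace Vale.Agent.P004C.Al.Dj

open Gx
open Vale.Agent.P027M.S (Pr)
open Vale.Agent.P027M.S.Cls (ordv_of)
open Vale.Agent.P022K.Exi (od od_one)

variable {K : Type} [Field K] [NumberField K] {ι : ℂ →+* ℂ_[2]} {J : K →+* ℂ} (A : Type) {L : Type}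
  [Field A] [NumberField A] [Field L] [NumberField L] [Algebra K A] [Algebra K L] [Algebra L A]
  [IsScalarTower K L A] {r m : ℕ} {W : Fin (r + 1) → Ideal (𝓞 L)} {I I' : Ideal (𝓞 L)}

/-- the divisor of an ideal -/
def dI (I : Ideal (𝓞 L)) : Dv A :=
  fun P => .ofAdd (multiplicity P.asIdeal (I.map (algebraMap (𝓞 L) (𝓞 A))) : ℤ)

/-- the inclusion -/
abbrev iu : Lˣ →* Aˣ := Units.map (algebraMap L A : L →* A)

variable {A}

theorem map_ne (h : I ≠ ⊥) : I.map (algebraMap (𝓞 L) (𝓞 A)) ≠ ⊥ :=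
  (map_eq_bot_iff_of_injective (FaithfulSMul.algebraMap_injective _ _)).not.2 h

theorem dI_mul (h : I ≠ ⊥) (h' : I' ≠ ⊥) : dI A (I * I') = dI A I * dI A I' := funext fun P => by
  rw [Pi.mul_apply, dI, dI, dI, ← ofAdd_add, Ideal.map_mul, multiplicity_mul P.prime
    (.of_prime_left P.prime (mul_ne_zero (map_ne h) (map_ne h'))), Nat.cast_add]

theorem dI_one {P : Pr A} : dI A I P = 1 ↔ ¬I.map (algebraMap (𝓞 L) (𝓞 A)) ≤ P.asIdeal := by
  rw [dI, ofAdd_eq_one, Nat.cast_eq_zero, multiplicity_eq_zero, dvd_iff_le]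

theorem dI_inj (h : I ≠ ⊥) (h' : I' ≠ ⊥) (e : dI A I = dI A I') : I = I' := by
  have k : ∀ {I I' : Ideal (𝓞 L)}, I ≠ ⊥ → I' ≠ ⊥ → dI A I = dI A I' →
      I'.map (algebraMap (𝓞 L) (𝓞 A)) ≤ I.map (algebraMap (𝓞 L) (𝓞 A)) := fun h h' e =>
    dvd_iff_le.1 ((UniqueFactorizationMonoid.dvd_iff_emultiplicity_le (map_ne h)).2 fun p hp => by
      rw [(FiniteMultiplicity.of_prime_left hp (map_ne h)).emultiplicity_eq_multiplicity,
        (FiniteMultiplicity.of_prime_left hp (map_ne h')).emultiplicity_eq_multiplicity]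
      exact Nat.cast_le.2 (Int.ofNat_inj.1 (congrArg Multiplicative.toAdd
        (congrFun e ⟨p, isPrime_of_prime hp, hp.ne_zero⟩))).le)
  exact map_injective_of_faithfullyFlat ((k h' h e.symm).antisymm (k h h' e))

theorem od_int' {x : Lˣ} {y : 𝓞 L} (e : (x : L) = y) (P : Pr A) :
    od P (iu A x) = dI A (span {y}) P := by
  have y0 : algebraMap (𝓞 L) (𝓞 A) y ≠ 0 := by
    rw [map_ne_zero_iff _ (FaithfulSMul.algebraMap_injective _ _)]
    rintro rfl
    exact x.ne_zero e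
  refine congrArg Multiplicative.ofAdd (ordv_of ?_)
  rw [map_span, Set.image_singleton, ← P.intValuation_eq_exp_neg_multiplicity y0,
    ← P.valuation_of_algebraMap (K := A)]
  exact congrArg _ (congrArg (algebraMap L A) e)

theorem od_div {x : Lˣ} {y z : 𝓞 L} (hz : z ≠ 0) (e : (x : L) * z = y) (P : Pr A) :
    od P (iu A x) * dI A (span {z}) P = dI A (span {y}) P := by
  rw [← od_int' (x := .mk0 (z : L) (by exact_mod_cast hz)) rfl, ← map_mul, ← map_mul]
  exact od_int' e P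

theorem od_v {x : Lˣ} (hm : 1 ≤ m) (h : V1 ι J m (x : L)) {P : Pr A} (hP : Av ι J P.asIdeal) :
    od P (iu A x) = 1 := by
  have k : ∀ y : L, y ∈ Ov ι J L → P.valuation A (algebraMap L A y) ≤ 1 := fun y hy => by
    obtain ⟨s, h1, h2⟩ := (Ds.ov_map (N := A)).2 hy
    have a : P.valuation A (algebraMap K A s) = 1 :=
      P.valuation_eq_one_iff_notMem.2 fun c => hP.2 ⟨s, h1, c⟩
    have b : P.valuation A (algebraMap K A s * algebraMap L A y) ≤ 1 :=
      P.valuation_le_one (K := A) ⟨_, h2⟩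
    rwa [map_mul, a, one_mul] at b
  refine od_one.2 ((k _ (v1_mem h)).antisymm ?_)
  have := k _ (v1_unit hm h).2
  rwa [map_inv₀, map_inv₀, inv_le_one₀ ((Valuation.pos_iff _).2 (iu A x).ne_zero)] at this

/-- the part of an ideal which is prime to a set of primes -/
theorem strip {T : Set (Ideal (𝓞 L))} (hT : ∀ Q ∈ T, Q.IsMaximal) (I : Ideal (𝓞 L)) (h : I ≠ ⊥) :
    ∃ I0 I1, I = I0 * I1 ∧ (∀ Q ∈ T, ¬I0 ≤ Q) ∧ I1 ∈ Submonoid.closure T := by
  induction I using UniqueFactorizationMonoid.induction_on_prime with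
  | h₁ => exact absurd rfl h
  | h₂ I u => exact ⟨I, 1, (mul_one _).symm, fun Q q k => (hT Q q).ne_top
      (top_unique (isUnit_iff.1 u ▸ k)), one_mem _⟩
  | h₃ I p a b ih =>
    obtain ⟨I0, I1, rfl, c, d⟩ := ih a
    by_cases k : p ∈ T
    · exact ⟨I0, p * I1, mul_left_comm _ _ _, c, mul_mem (Submonoid.subset_closure k) d⟩
    · refine ⟨p * I0, I1, (mul_assoc _ _ _).symm, fun Q q l => ?_, d⟩
      exact ((hT Q q).isPrime.mul_le.1 l).elim (fun l => k
        (((isPrime_of_prime b).isMaximal b.ne_zero).eq_of_le (hT Q q).ne_top l ▸ q)) (c Q q)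

theorem w_ne (h : I.IsMaximal) : I ≠ ⊥ :=
  Ring.ne_bot_of_isMaximal_of_not_isField h (RingOfIntegers.not_isField L)

theorem dI_cl {T : Set (Ideal (𝓞 L))} (hT : ∀ Q ∈ T, Q.IsMaximal) (h : I ∈ Submonoid.closure T)
    {P : Pr A} (hP : ∀ Q ∈ T, ¬Q.map (algebraMap (𝓞 L) (𝓞 A)) ≤ P.asIdeal) :
    I ≠ ⊥ ∧ dI A I P = 1 := by
  induction h using Submonoid.closure_induction with
  | mem Q q => exact ⟨w_ne (hT Q q), dI_one.2 (hP Q q)⟩
  | one => exact ⟨one_ne_zero, dI_one.2 fun k => P.isPrime.ne_top (by simpa [Ideal.map_top] using k)⟩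
  | mul a b _ _ c d => exact ⟨mul_ne_zero c.1 d.1, by rw [dI_mul c.1 d.1, Pi.mul_apply, c.2, d.2,
      mul_one]⟩

theorem dI_cop {Q : Ideal (𝓞 L)} (h : I ⊔ Q = ⊤) {P : Pr A}
    (hP : Q.map (algebraMap (𝓞 L) (𝓞 A)) ≤ P.asIdeal) : dI A I P = 1 :=
  dI_one.2 fun k => P.isPrime.ne_top (top_unique (by
    rw [← Ideal.map_top (algebraMap (𝓞 L) (𝓞 A)), ← h, Ideal.map_sup]
    exact sup_le k hP))

theorem ex_W (hW : ∀ i, (W i).IsMaximal) (h : I ≠ ⊥) (h' : I' ≠ ⊥) (e : ∀ P : Pr A,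
    (∀ i, ¬(W i).map (algebraMap (𝓞 L) (𝓞 A)) ≤ P.asIdeal) → dI A I P = dI A I' P) :
    ∃ e e' : Fin (r + 1) → ℕ, I * ∏ i, W i ^ e i = I' * ∏ i, W i ^ e' i := by
  have hT : ∀ Q ∈ Set.range W, Q.IsMaximal := Set.forall_mem_range.2 hW
  obtain ⟨I0, I1, rfl, a, b⟩ := strip hT I h
  obtain ⟨I0', I1', rfl, a', b'⟩ := strip hT I' h'
  have : I0 = I0' := dI_inj (A := A) (left_ne_zero_of_mul h) (left_ne_zero_of_mul h')
    (funext fun P => by
      by_cases k : ∃ i, (W i).map (algebraMap (𝓞 L) (𝓞 A)) ≤ P.asIdeal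
      · obtain ⟨i, k⟩ := k
        have c : ∀ I0, ¬I0 ≤ W i → dI A I0 P = 1 := fun I0 a => dI_cop (not_not.1 fun n =>
          a (le_sup_left.trans ((hW i).eq_of_le n le_sup_right).ge)) k
        rw [c _ (a _ ⟨i, rfl⟩), c _ (a' _ ⟨i, rfl⟩)]
      · have c := dI_cl hT b (Set.forall_mem_range.2 (not_exists.1 k))
        have c' := dI_cl hT b' (Set.forall_mem_range.2 (not_exists.1 k))
        simpa [dI_mul (left_ne_zero_of_mul h) c.1, dI_mul (left_ne_zero_of_mul h') c'.1, c.2, c'.2]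
          using e P (not_exists.1 k))
  obtain ⟨f, rfl⟩ := Submonoid.mem_closure_range_iff_of_fintype.1 b
  obtain ⟨f', rfl⟩ := Submonoid.mem_closure_range_iff_of_fintype.1 b'
  exact ⟨f', f, by rw [this, mul_right_comm]⟩

theorem pj_eq {S : Set (Pr A)} {p q : Dv A} : pj S p = pj S q ↔ ∀ P ∉ S, p P = q P := by
  have : ∀ (p : Dv A) P, pj S p P = if P ∈ S then 1 else p P := fun p P => by
    simp only [pj, MonoidHom.pi_apply]
    split_ifs <;> rfl
  refine ⟨fun h P n => by simpa [this, n] using congrFun h P, fun h => funext fun P => ?_⟩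
  rw [this, this]
  exact ite_congr rfl (fun _ => rfl) (h P)

/-- **equivalence of ideals is equality of divisors** -/
theorem ev_iff (hW : ∀ i, (W i).IsMaximal) (hm : 1 ≤ m) (h : I ≠ ⊥) (h' : I' ≠ ⊥) (p : Pv ι J I)
    (p' : Pv ι J I') {x : Lˣ} : Ev ι J W m I I' x ↔ V1 ι J m (x : L) ∧
      pj (Sw ι J A W) (dI A I) = dd (Sw ι J A W) (iu A x) * pj (Sw ι J A W) (dI A I') := by
  refine and_congr_right fun hx => ?_
  rw [dd, MonoidHom.comp_apply, ← map_mul, pj_eq]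
  have s0 : ∀ {z : 𝓞 L}, z ≠ 0 → span {z} ≠ ⊥ := span_singleton_eq_bot.not.2
  constructor
  · rintro ⟨y, z, e, e', y0, z0, a, b⟩ P n
    have c := fun e : Fin (r + 1) → ℕ => dI_cl (A := A) (Set.forall_mem_range.2 hW)
      (Submonoid.mem_closure_range_iff_of_fintype.2 ⟨e, rfl⟩) (P := P)
      (Set.forall_mem_range.2 fun i k => n (.inr ⟨i, k⟩))
    have := congrArg (dI A · P) b
    simp only [dI_mul (mul_ne_zero (s0 z0) h) (c e).1, dI_mul (mul_ne_zero (s0 y0) h') (c e').1,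
      dI_mul (s0 z0) h, dI_mul (s0 y0) h', Pi.mul_apply, (c _).2, mul_one, ← od_div z0 a P] at this
    rw [mul_comm (od P _), mul_assoc, mul_right_inj] at this
    exact this
  · intro k
    obtain ⟨y, z, z0, a⟩ := IsFractionRing.div_surjective (𝓞 L) (x : L)
    replace z0 := nonZeroDivisors.ne_zero z0
    replace a : (x : L) * z = y := by
      rw [← a]
      exact div_mul_cancel₀ _ (RingOfIntegers.coe_ne_zero_iff.2 z0)
    have y0 : y ≠ 0 := by
      rintro rfl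
      exact mul_ne_zero x.ne_zero (by exact_mod_cast z0) a
    obtain ⟨e, e', b⟩ := ex_W (A := A) hW (mul_ne_zero (s0 z0) h) (mul_ne_zero (s0 y0) h')
      fun P n => by
        rw [dI_mul (s0 z0) h, dI_mul (s0 y0) h', Pi.mul_apply, Pi.mul_apply, ← od_div z0 a P,
          mul_comm (od P _), mul_assoc, mul_right_inj]
        by_cases v : Av ι J P.asIdeal
        · have c : ∀ I : Ideal (𝓞 L), Pv ι J I → dI A I P = 1 := fun I ⟨s, h1, h2⟩ =>
            dI_one.2 fun k => v.2 ⟨s, h1, by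
              rw [IsScalarTower.algebraMap_apply (𝓞 K) (𝓞 L) (𝓞 A)]
              exact k (mem_map_of_mem _ h2)⟩
          rw [c I p, c I' p', od_v hm hx v, mul_one]
        · exact k P fun s => s.elim v fun ⟨i, s⟩ => n i s
    exact ⟨y, z, e, e', y0, z0, a, b⟩

/-- inverses of ray classes -/
theorem inv_cl {Ω : ℝ} (B : Base ι J Ω) {T : Ideal (𝓞 L)} (hT : T ≠ ⊥) (h : I ≠ ⊥) :
    ∃ (C : Ideal (𝓞 L)) (x : Lˣ), C ≠ ⊥ ∧ C ⊔ T = ⊤ ∧ V1 ι J m (x : L) ∧
      pj (Sw ι J A W) (dI A I) * pj (Sw ι J A W) (dI A C) = dd (Sw ι J A W) (iu A x) := by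
  obtain ⟨I0, I1, rfl, a, b⟩ := strip (T := {Q | Av ι J Q}) (fun _ q => q.1) I h
  have h0 := left_ne_zero_of_mul h
  have p : Pv ι J I0 := pv_of fun Q q l e => a Q ⟨q.isMaximal fun z => h0 (le_bot_iff.1 (z ▸ l)),
    fun ⟨s, h1, h2⟩ => not_vv.2 h1 (e.le h2)⟩ l
  obtain ⟨w, w1, w2⟩ := ((As.val K ι J Ω B).2.2 L).2.2.2.1 I0 0 m p (zero_mem (Ov ι J L))
  rw [sub_zero] at w2
  obtain ⟨C, ⟨c1, -⟩, c2, x, x0, x1, x2⟩ := As.Ra.inv_ex (f := As.Qm ι J L m) (fun z => by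
    have : (2 : 𝓞 L) ^ m ∈ As.Qm ι J L m := by
      change Vi ι J (algebraMap _ _ _ / _)
      rw [map_pow, map_ofNat, div_self (pow_ne_zero _ two_ne_zero)]
      exact one_mem (Ov ι J L)
    simp [z] at this) hT ⟨h0, (eq_top_iff_one _).2 (by
      simpa using sub_mem (mem_sup_right (S := I0) (show w ∈ As.Qm ι J L m from w2))
        (mem_sup_left w1))⟩
  refine ⟨C, .mk0 (x : L) (by exact_mod_cast x0), c1, c2, x1, ?_⟩
  rw [dd, MonoidHom.comp_apply, ← map_mul, pj_eq]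
  intro P n
  have c := dI_cl (A := A) (fun _ q => q.1) b (P := P) fun Q q k => n (.inl ⟨P.isMaximal,
    fun ⟨s, h1, h2⟩ => q.2 ⟨s, h1, (q.1.eq_of_le (comap_ne_top _ P.isPrime.ne_top)
      (map_le_iff_le_comap.1 k)).ge (by
        rwa [mem_comap, ← IsScalarTower.algebraMap_apply])⟩⟩)
  rw [MonoidHom.pi_apply, od_int' (y := x) rfl, x2, dI_mul h0 c.1, dI_mul h0 c1]
  simp [c.2]

end Vale.Agent.P004C.Al.Dj
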