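import Vale.Agent.P004C.Al.Dj0
import Vale.Agent.P004C.Al.Dj1

/-!
# P004 C, block AL: counting ray classes, coordinates of congruence subgroups
-/

set_option linter.unusedSectionVars false

open NumberField Module IsDedekindDomain Ideal
open scoped Classical

noncomputable section

namespace Vale.Agent.P004C.Al.Dj

open Gx
open Vale.Agent.P027M.S (Pr)

variable {K : Type} [Field K] [NumberField K] {ι : ℂ →+* ℂ_[2]} {J : K →+* ℂ} {A L : Type}
  [Field A] [NumberField A] [Field L] [NumberField L] [Algebra K A] [Algebra K L] [Algebra L A]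
  [IsScalarTower K L A] {r m n a : ℕ} {W : Fin (r + 1) → Ideal (𝓞 L)} {I I' : Ideal (𝓞 L)}

variable (ι J L) in
/-- the elements which are `1` modulo `v ^ m` -/
def Vs (hm : 1 ≤ m) : Subgroup Lˣ where
  carrier := {x | V1 ι J m (x : L)}
  one_mem' := v1_one
  mul_mem' := v1_mul
  inv_mem' h := by simpa using v1_inv hm h

theorem mem_UL (hm : 1 ≤ m) {x : Lˣ} : iu A x ∈ UL ι J L m ↔ V1 ι J m (x : L) := by
  rw [UL, Subgroup.mem_inf, and_iff_left ⟨x, rfl⟩, show Um ι J A m = Vs ι J A hm from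
    (Vs ι J A hm).closure_eq]
  refine Iff.trans ?_ (Ds.ov_map (N := A))
  rw [map_div₀, map_sub, map_one, map_pow, map_ofNat]
  rfl

theorem UL_eq (hm : 1 ≤ m) : UL ι J L m = (Vs ι J L hm).map (iu A) := by
  ext x
  refine ⟨fun h => ?_, ?_⟩
  · obtain ⟨y, rfl⟩ := h.2
    exact ⟨y, (mem_UL hm).1 h, rfl⟩
  · rintro ⟨y, h, rfl⟩
    exact (mem_UL hm).2 h

theorem ev_one (hW : ∀ i, (W i).IsMaximal) (hm : 1 ≤ m) {x : Lˣ} : Ev ι J W m 1 1 (x : L) ↔
    V1 ι J m (x : L) ∧ dd (Sw ι J A W) (iu A x) = 1 := by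
  have p : Pv ι J (1 : Ideal (𝓞 L)) := ⟨1, by simp, by simp⟩
  rw [ev_iff (A := A) hW hm one_ne_zero one_ne_zero p p, right_eq_mul]

theorem dI_mem {S : Set (Pr A)} (h : I ≠ ⊥) : pj S (dI A I) ∈ IL L S :=
  ⟨_, Subgroup.subset_closure ⟨I, h, rfl⟩, rfl⟩

theorem dd_le {S : Set (Pr A)} : (UL ι J L m).map (dd S) ≤ IL L S := by
  rintro _ ⟨_, ⟨-, x, rfl⟩, rfl⟩
  obtain ⟨y, z, z0, a⟩ := IsFractionRing.div_surjective (𝓞 L) (x : L)
  replace z0 := nonZeroDivisors.ne_zero z0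
  replace a : (x : L) * z = y := by
    rw [← a]
    exact div_mul_cancel₀ _ (RingOfIntegers.coe_ne_zero_iff.2 z0)
  have y0 : y ≠ 0 := by
    rintro rfl
    exact mul_ne_zero x.ne_zero (by exact_mod_cast z0) a
  rw [← Subgroup.mul_mem_cancel_right _ (dI_mem (span_singleton_eq_bot.not.2 z0)), dd,
    MonoidHom.comp_apply, ← map_mul]
  exact (congrArg (pj S · ∈ IL L S) (funext (od_div z0 a))).mpr
    (dI_mem (span_singleton_eq_bot.not.2 y0))

/-- **the number of ray classes** -/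
theorem cls {Ω : ℝ} (B : Base ι J Ω) {t : 𝓞 L} (hW : ∀ i, (W i).IsMaximal) (t0 : t ≠ 0) (t2 : 2 ∣ t)
    (hm : 1 ≤ m) {R : Finset (Ideal (𝓞 L))} (h : Rp ι J W m t R) :
    ((UL ι J L m).map (dd (Sw ι J A W))).relIndex (IL L (Sw ι J A W)) = R.card := by
  set H := (UL ι J L m).map (dd (Sw ι J A W))
  let F : Ideal (𝓞 L) → Dv A ⧸ H := fun I => QuotientGroup.mk' H (pj (Sw ι J A W) (dI A I))
  have pv : ∀ I : Ideal (𝓞 L), I ⊔ span {t} = ⊤ → Pv ι J I := fun I k => pv_two (top_unique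
    (k.ge.trans (sup_le_sup_left (span_singleton_le_span_singleton.2 t2) _)))
  have ev : ∀ I I' : Ideal (𝓞 L), I ≠ ⊥ → I' ≠ ⊥ → I ⊔ span {t} = ⊤ → I' ⊔ span {t} = ⊤ →
      (F I' = F I ↔ ∃ x, Ev ι J W m I I' x) := fun I I' a a' b b' => by
    refine QuotientGroup.eq.trans ⟨?_, fun ⟨x, k⟩ => ?_⟩
    · rintro ⟨_, k, e⟩
      obtain ⟨x, rfl⟩ := k.2
      exact ⟨x, (ev_iff hW hm a a' (pv _ b) (pv _ b')).2 ⟨(mem_UL hm).1 k, by
        rw [e, inv_mul_cancel_comm]⟩⟩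
    · lift x to Lˣ using (v1_unit hm k.1).1.isUnit
      obtain ⟨k1, k2⟩ := (ev_iff (A := A) hW hm a a' (pv _ b) (pv _ b')).1 k
      exact ⟨_, (mem_UL hm).2 k1, by rw [k2, inv_mul_cancel_comm_assoc]⟩
  have iv : ∀ I : Ideal (𝓞 L), I ≠ ⊥ → ∃ C, C ≠ ⊥ ∧ C ⊔ span {t} * ∏ i, W i = ⊤ ∧ (F I)⁻¹ = F C :=
    fun I a => by
      obtain ⟨C, x, c1, c2, c3, c4⟩ := inv_cl (A := A) (W := W) (m := m) B
        (T := span {t} * ∏ i, W i) (mul_ne_zero (span_singleton_eq_bot.not.2 t0)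
          (Finset.prod_ne_zero_iff.2 fun i _ => w_ne (hW i))) a
      refine ⟨C, c1, c2, inv_eq_of_mul_eq_one_right ?_⟩
      rw [← map_mul, c4]
      exact (QuotientGroup.eq_one_iff _).2 ⟨_, (mem_UL hm).2 c3, rfl⟩
  have sj : ∀ p ∈ IL L (Sw ι J A W), ∃ I, I ≠ ⊥ ∧ QuotientGroup.mk' H p = F I := by
    rintro _ ⟨p, hp, rfl⟩
    induction hp using Subgroup.closure_induction with
    | mem _ k =>
      obtain ⟨I, a, rfl⟩ := k
      exact ⟨I, a, rfl⟩
    | one => exact ⟨1, one_ne_zero, congrArg (fun p => QuotientGroup.mk' H (pj _ p)) (funext fun P =>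
        (dI_one.2 fun k => P.isPrime.ne_top (by simpa [Ideal.map_top] using k)).symm)⟩
    | mul _ _ _ _ a b =>
      obtain ⟨I, a, e⟩ := a
      obtain ⟨I', b, e'⟩ := b
      exact ⟨I * I', mul_ne_zero a b, by simp only [F, dI_mul a b, map_mul, e, e']⟩
    | inv _ _ a =>
      obtain ⟨I, a, e⟩ := a
      obtain ⟨C, c, -, e'⟩ := iv I a
      exact ⟨C, c, by rw [map_inv, map_inv, e, e']⟩
  rw [← QuotientGroup.ker_mk' H, Subgroup.relIndex_ker, ← Set.ncard_coe_finset,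
    ← Set.InjOn.ncard_image (f := F) fun I a I' a' e => ?_]
  · refine congrArg Set.ncard (Set.ext fun q => ⟨?_, ?_⟩)
    · rintro ⟨p, hp, rfl⟩
      obtain ⟨I, a, e⟩ := sj p hp
      obtain ⟨C, c, -, e1⟩ := iv I a
      obtain ⟨C', c1, c2, e2⟩ := iv C c
      have c3 : C' ⊔ span {t} = ⊤ := top_unique (c2.ge.trans (sup_le_sup_left mul_le_left _))
      obtain ⟨I', ⟨b, x⟩, -⟩ := h.ex C' c1 c3 fun i => top_unique (c2.ge.trans (sup_le_sup_left
        (mul_le_right.trans (le_of_dvd (Finset.dvd_prod_of_mem _ (Finset.mem_univ i)))) _))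
      exact ⟨I', b, by rw [(ev _ _ c1 (h.cop _ b).1 c3 (h.cop _ b).2.1).2 x, e, ← e2, ← e1, inv_inv]⟩
    · rintro ⟨I, a, rfl⟩
      exact ⟨_, dI_mem (h.cop I a).1, rfl⟩
  · obtain ⟨b, c, d⟩ := h.cop I a
    exact (h.ex I b c d).unique ⟨a, 1, ev_refl I⟩
      ⟨a', (ev _ _ b (h.cop _ a').1 c (h.cop _ a').2.1).1 e.symm⟩

section coord

variable {ρ : K →+* ℚ_[2]} (hρ : ∀ x, ι (J x) = algebraMap ℚ_[2] ℂ_[2] (ρ x))
  {b : Basis (Fin n) K L} (hb : Vb ι J b)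

include hρ in
theorem n_rho (x : K) : ‖ι (J x)‖ = ‖ρ x‖ := by rw [hρ, norm_algebraMap']

/-- coordinates -/
def cz : Ov ι J L →+ (Fin n → ℤ_[2]) := .mk' (fun z i =>
  ⟨ρ (b.repr z i), n_rho hρ _ ▸ (hb _).1 z.2 i⟩) fun _ _ => funext fun _ => Subtype.ext (by
    simp only [Subring.coe_add, map_add, Finsupp.add_apply]
    rfl)

/-- coordinates modulo `2 ^ a` -/
def th (hm : 1 ≤ m) (ha : a ≤ m) : Vs ι J L hm →* Multiplicative (Fin n → ZMod (2 ^ a)) :=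
  .mk' (fun x => .ofAdd fun i => PadicInt.toZModPow a (cz hρ hb ⟨((x : Lˣ) - 1) / 2 ^ m, x.2⟩ i))
    fun x y => by
      have e : (⟨(((x * y : Vs ι J L hm) : Lˣ) - 1) / 2 ^ m, (x * y).2⟩ : Ov ι J L) =
          ⟨_, x.2⟩ + ⟨_, y.2⟩ + 2 ^ m • (⟨_, x.2⟩ * ⟨_, y.2⟩) := Subtype.ext (by
        push_cast
        rw [nsmul_eq_mul]
        push_cast
        field_simp
        ring)
      have z : ((2 ^ m : ℕ) : ZMod (2 ^ a)) = 0 := (ZMod.natCast_eq_zero_iff _ _).2 (pow_dvd_pow 2 ha)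
      rw [← ofAdd_add, e]
      refine congrArg _ (funext fun i => ?_)
      simp only [map_add, map_nsmul, Pi.add_apply, Pi.smul_apply]
      rw [nsmul_eq_mul, z, zero_mul, add_zero]

theorem th_ker (hm : 1 ≤ m) (ha : a ≤ m) (x : Vs ι J L hm) :
    th hρ hb hm ha x = 1 ↔ V1 ι J (m + a) ((x : Lˣ) : L) := by
  rw [V1, hb, pow_add, ← div_div, div_eq_inv_mul _ (2 ^ a : L), show (2 ^ a : L)⁻¹ =
    algebraMap K L (2 ^ a)⁻¹ by simp [map_ofNat], ← Algebra.smul_def, map_smul]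
  refine (ofAdd_eq_one.trans funext_iff).trans (forall_congr' fun i => ?_)
  rw [Pi.zero_apply, ← RingHom.mem_ker, PadicInt.ker_toZModPow,
    ← PadicInt.norm_le_pow_iff_mem_span_pow, n_rho hρ, Finsupp.smul_apply, smul_eq_mul, map_mul,
    norm_mul, map_inv₀, map_pow, map_ofNat, norm_inv, norm_pow,
    show ‖(2 : ℚ_[2])‖ = ((2 : ℕ) : ℝ)⁻¹ from Padic.norm_p, inv_mul_le_iff₀ (by positivity), mul_one,
    zpow_neg, zpow_natCast, inv_pow]
  rfl

theorem th_sj (hm : 1 ≤ m) (ha : a ≤ m) : Function.Surjective (th hρ hb hm ha) := fun y => by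
  have u : b.equivFun.symm (fun i => ((y.toAdd i).val : K)) ∈ Ov ι J L := (hb _).2 fun i => by
    rw [← Basis.equivFun_apply, LinearEquiv.apply_symm_apply, map_natCast, map_natCast]
    exact IsUltrametricDist.norm_natCast_le_one _ _
  have v := (v1_iff (m := m)).2 ⟨_, u, rfl⟩
  refine ⟨⟨.mk0 _ (v1_unit hm v).1, v⟩, congrArg Multiplicative.ofAdd (funext fun i => ?_)⟩
  refine (congrArg _ (Subtype.ext ?_)).trans ((map_natCast (PadicInt.toZModPow a) _).trans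
    (ZMod.natCast_zmod_val (y.toAdd i)))
  change ρ (b.repr ((1 + 2 ^ m * _ - 1) / 2 ^ m) i) = _
  rw [add_sub_cancel_left, mul_div_cancel_left₀ _ (pow_ne_zero _ two_ne_zero),
    ← Basis.equivFun_apply, LinearEquiv.apply_symm_apply, map_natCast, PadicInt.coe_natCast]

end coord

theorem i2_fin {κ X : Type} [Fintype κ] [CommGroup X] (H : AddSubgroup (κ → ℤ)) [H.FiniteIndex]
    {φ : Multiplicative (κ → ℤ) →* X} (h : Function.Injective φ) :
    i2 (H.toSubgroup.map φ) = 2 ^ Fintype.card κ := by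
  rw [i2, sq, Subgroup.map_map, show (powMonoidHom 2).comp φ = φ.comp (powMonoidHom 2) from
    MonoidHom.ext fun x => (map_pow φ x 2).symm, ← Subgroup.map_map,
    Subgroup.relIndex_map_map_of_injective _ _ h, ← Module.finrank_pi ℤ,
    ← H.finrank_eq_of_finiteIndex, ← AddSubgroup.relIndex_map_nsmul]
  rfl

theorem nrm_nat {k : ℕ} (h : k ≠ 0) : ‖(k : ℂ_[2])‖ = (1 / 2) ^ v2 k := by
  rw [← map_natCast (algebraMap ℚ_[2] ℂ_[2]), norm_algebraMap',
    Padic.norm_eq_zpow_neg_valuation (Nat.cast_ne_zero.2 h), Padic.valuation_natCast]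
  simp

end Vale.Agent.P004C.Al.Dj
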