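import Vale.Agent.P022K.Ex.Kum

/-!
# P004 C, block AL: the Kummer pairing over the cyclotomic extension
-/

set_option linter.all false

noncomputable section

namespace Vale.Agent.P004C.Al.Kn

open NumberField IsDedekindDomain
open Vale.Agent.P022 Vale.Agent.P022.H916
open Vale.Agent.P027M.S (Inert)
open Vale.Agent.P022K.Exi (pw_add pw_inj ex_log ex_root root_ne pow_self)

/-- double annihilator -/
theorem dual {ι : Type} [Fintype ι] {N : ℕ} [NeZero N] (A : AddSubgroup (ι → ZMod N))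
    (w : ι → ZMod N) (h : ∀ a : ι → ZMod N, (∀ x ∈ A, ∑ i, a i * x i = 0) → ∑ i, a i * w i = 0) :
    w ∈ A := by
  classical
  let f : (ι → ZMod N) → AddChar (ι → ZMod N) ℂ := fun a =>
    (ZMod.stdAddChar (N := N)).compAddMonoidHom
      (AddMonoidHom.mk' (fun x : ι → ZMod N => ∑ i, a i * x i) fun x y => by
        simp only [Pi.add_apply, mul_add, Finset.sum_add_distrib])
  have e : ∀ a x, f a x = ZMod.stdAddChar (N := N) (∑ i, a i * x i) := fun a x => rfl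
  have hf : Function.Injective f := fun a b k => funext fun i => by
    have k0 := DFunLike.congr_fun k (Pi.single i 1)
    rw [e, e] at k0
    simpa [Pi.single_apply] using ZMod.injective_stdAddChar k0
  have hs := (Fintype.bijective_iff_injective_and_card f).2 ⟨hf, (AddChar.card_eq ..).symm⟩
  by_contra k
  obtain ⟨χ, hχ⟩ := (AddChar.exists_apply_ne_zero (a := (QuotientAddGroup.mk w : _ ⧸ A))).2
    fun m => k ((QuotientAddGroup.eq_zero_iff w).1 m)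
  obtain ⟨a, ha⟩ := hs.2 (χ.compAddMonoidHom (QuotientAddGroup.mk' A))
  refine hχ ((DFunLike.congr_fun ha w).symm.trans ?_)
  rw [e, h a fun x hx => ZMod.injective_stdAddChar ?_, AddChar.map_zero_eq_one]
  rw [← e, ha, AddChar.map_zero_eq_one]
  show χ (QuotientAddGroup.mk x) = 1
  rw [(QuotientAddGroup.eq_zero_iff x).2 hx, AddChar.map_zero_eq_one]

variable {N : ℕ} [NeZero N] {ζ : Qb} {P : Ideal (𝓞 Qb)}

/-- roots which are congruent are equal -/
theorem root_eq (hP : P.IsPrime) (hN : (N : 𝓞 Qb) ∉ P) {y z : 𝓞 Qb} (e : z ^ N = y ^ N)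
    (hy : y ∉ P) (h : z - y ∈ P) : z = y := by
  by_contra k
  have h1 := Commute.geom_sum₂_mul (Commute.all z y) N
  rw [e, sub_self, mul_eq_zero, sub_eq_zero, or_iff_left k] at h1
  have h2 := congrArg (Ideal.Quotient.mk P) h1
  simp only [map_sum, map_mul, map_pow, Ideal.Quotient.eq.2 h, map_zero] at h2
  rw [geom_sum₂_self, ← map_pow, ← map_natCast (Ideal.Quotient.mk P), ← map_mul,
    Ideal.Quotient.eq_zero_iff_mem] at h2
  exact (hP.mem_or_mem h2).elim hN fun m => hy (hP.mem_of_pow_mem _ m)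

theorem fr_root (hP : P.IsPrime) (hN : (N : 𝓞 Qb) ∉ P) (hζ : ζ ^ N = 1) {g : GQ} {q : ℕ}
    (hg : ∀ x : 𝓞 Qb, g • x - x ^ q ∈ P) : g ζ = ζ ^ q := by
  let z : 𝓞 Qb := ⟨ζ, IsIntegral.of_pow (NeZero.pos N) (hζ ▸ isIntegral_one)⟩
  have e : z ^ N = 1 := RingOfIntegers.ext hζ
  have e' : (z ^ q) ^ N = 1 := by rw [← pow_mul, mul_comm, pow_mul, e, one_pow]
  exact congrArg (fun x : 𝓞 Qb => (x : Qb)) (root_eq hP hN (y := z ^ q) (z := g • z)
    (by rw [← smul_pow', e, e', smul_one])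
    (fun m => hP.one_notMem (e' ▸ P.pow_mem_of_mem m N (NeZero.pos N))) (hg z))

theorem pw_nsmul (hζ : ζ ^ N = 1) (a : ℕ) (k : ZMod N) : ζ ^ (a • k).val = (ζ ^ a) ^ k.val := by
  induction a with
  | zero => simp
  | succ a h => rw [succ_nsmul, pw_add hζ, h, pow_succ, mul_pow]

variable {K : Type} [Field K] [NumberField K] {j : K →+* Qb}

variable (j ζ) in
/-- the group of the cyclotomic extension -/
def Gz : Subgroup (GK j) := (MulAction.stabilizer GQ ζ).subgroupOf (GK j)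

theorem mem_Gz {g : GK j} : g ∈ Gz ζ j ↔ g.1 ζ = ζ := Iff.rfl

theorem ex_law (hζ : IsPrimitiveRoot ζ N) (b : Kˣ) (g : Gz ζ j) :
    ∃ a : ZMod N, ∀ y : Qb, y ^ N = j b → g.1.1 y = ζ ^ a.val * y := by
  obtain ⟨β, hβ⟩ := ex_root N (j b)
  obtain ⟨a, ha⟩ := ex_log hζ (root_ne hβ) (γ := g.1.1 β) (by rw [← map_pow, hβ, g.1.2 b])
  refine ⟨a, fun y hy => ?_⟩
  obtain ⟨c, rfl⟩ := ex_log hζ (root_ne hβ) (hy.trans hβ.symm)
  rw [map_mul, map_pow, mem_Gz.1 g.2, ha]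
  ring

variable (hζ : IsPrimitiveRoot ζ N)

variable (j) in
/-- the Kummer pairing -/
def ku : Kˣ →* Gz ζ j →* Multiplicative (ZMod N) :=
  MonoidHom.mk' (fun b => MonoidHom.mk'
    (fun g => Multiplicative.ofAdd (ex_law hζ b g).choose) fun g h => by
      obtain ⟨y, hy⟩ := ex_root N (j b)
      refine congrArg Multiplicative.ofAdd (pw_inj hζ (root_ne hy) ?_)
      rw [← (ex_law hζ b _).choose_spec y hy, pw_add hζ.pow_eq_one, Subgroup.coe_mul,
        Subgroup.coe_mul, AlgEquiv.mul_apply, (ex_law hζ b h).choose_spec y hy, map_mul, map_pow,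
        mem_Gz.1 g.2, (ex_law hζ b g).choose_spec y hy]
      exact mul_left_comm _ _ _ |>.trans (mul_assoc _ _ _).symm)
    fun b c => MonoidHom.ext fun g => by
      obtain ⟨y, hy⟩ := ex_root N (j b)
      obtain ⟨z, hz'⟩ := ex_root N (j c)
      have e : (y * z) ^ N = j (b * c : Kˣ) := by rw [mul_pow, hy, hz', Units.val_mul, map_mul]
      refine congrArg Multiplicative.ofAdd (pw_inj hζ (root_ne e) ?_)
      rw [← (ex_law hζ _ g).choose_spec _ e, pw_add hζ.pow_eq_one, map_mul,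
        (ex_law hζ b g).choose_spec y hy, (ex_law hζ c g).choose_spec z hz']
      exact mul_mul_mul_comm _ _ _ _

theorem ku_law (b : Kˣ) (g : Gz ζ j) {y : Qb} (hy : y ^ N = j b) :
    g.1.1 y = ζ ^ (ku j hζ b g).toAdd.val * y := (ex_law hζ b g).choose_spec y hy

theorem ku_one {b : Kˣ} {g : Gz ζ j} {y : Qb} (hy : y ^ N = j b) :
    ku j hζ b g = 1 ↔ g.1.1 y = y := by
  refine ⟨fun e => by rw [ku_law hζ b g hy, e]; simp, fun e => ?_⟩
  exact pw_inj (a := (ku j hζ b g).toAdd) (b := 0) hζ (root_ne hy)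
    (by rw [← ku_law hζ b g hy, e]; simp)

/-- an element which does not move the residue of a root -/
theorem ku_of (hP : P.IsPrime) (hN : (N : 𝓞 Qb) ∉ P) {b : Kˣ} {a : 𝓞 K} (hb : (b : K) = a)
    (ha : a ∉ below j P) {g : Gz ζ j} (h : ∀ y : 𝓞 Qb, y ^ N = RingOfIntegers.mapRingHom j a →
      g.1.1 • y - y ∈ P) : ku j hζ b g = 1 := by
  obtain ⟨y, hy⟩ := ex_root N (j b)
  have e' : y ^ N = RingOfIntegers.mapRingHom j a := by rw [hy, hb]; rfl
  let z : 𝓞 Qb := ⟨y, IsIntegral.of_pow (NeZero.pos N) (e' ▸ RingOfIntegers.isIntegral_coe _)⟩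
  have e : z ^ N = RingOfIntegers.mapRingHom j a := RingOfIntegers.ext e'
  exact (ku_one hζ hy).2 (congrArg (fun x : 𝓞 Qb => (x : Qb)) (root_eq hP hN (y := z)
    (z := g.1.1 • z) (by rw [← smul_pow', e, P022K.GW.Pl.fix_int j g.1.2])
    (fun m => ha (show _ ∈ P from e ▸ P.pow_mem_of_mem m N (NeZero.pos N))) (h z e)))

/-- the pairing with a Frobenius element is tame -/
theorem ku_tame (hP : P.IsPrime) (hN : (N : 𝓞 Qb) ∉ P) {b : Kˣ} {a : 𝓞 K} (hb : (b : K) = a)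
    (ha : a - 1 ∈ below j P) {g : Gz ζ j} {q : ℕ} (hq : q ≠ 0)
    (h : ∀ x : 𝓞 Qb, g.1.1 • x - x ^ q ∈ P) : ku j hζ b g = 1 := by
  obtain ⟨q, rfl⟩ := Nat.exists_eq_succ_of_ne_zero hq
  have h1 := (fr_root hP hN hζ.pow_eq_one h).symm.trans (mem_Gz.1 g.2)
  rw [pow_succ, mul_eq_right₀ (hζ.ne_zero (NeZero.ne N)), hζ.pow_eq_one_iff_dvd] at h1
  obtain ⟨k, rfl⟩ := h1
  refine ku_of hζ hP hN hb (fun m => (H20.below_prime j hP).one_notMem (by
    simpa using (below j P).sub_mem m ha)) fun y hy => ?_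
  have h2 : y ^ N - 1 ∈ P := by
    rw [hy, ← map_one (RingOfIntegers.mapRingHom j), ← map_sub]
    exact ha
  have h3 := P.add_mem (h y) (P.mul_mem_right y
    (P.mem_of_dvd (sub_one_dvd_pow_sub_one (y ^ N) k) h2))
  rwa [← pow_mul, sub_one_mul, ← pow_succ, sub_add_sub_cancel] at h3

/-- **Kummer independence** (Sah's argument) -/
theorem kin {σ : GK j} {b : ℕ} (hσ : σ.1 ζ = ζ ^ (b + 1)) (θ : GK j →* Multiplicative (ZMod N))
    (u : Kˣ) (h : ∀ g : Gz ζ j, θ g * ku j hζ u g = 1) :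
    (∀ g : Gz ζ j, θ g ^ b = 1) ∧ ∃ z : Kˣ, u ^ (b * b) = z ^ N := by
  have pw : ∀ τ : GQ, ∃ e : ℕ, τ ζ = ζ ^ e := fun τ => by
    obtain ⟨i, -, e⟩ := hζ.eq_pow_of_pow_eq_one (ξ := τ ζ)
      (by rw [← map_pow, hζ.pow_eq_one, map_one])
    exact ⟨i, e.symm⟩
  have k1 : ∀ g : Gz ζ j, ku j hζ u g ^ b = 1 := fun g => by
    obtain ⟨y, hy⟩ := ex_root N (j u)
    have m : σ * g * σ⁻¹ ∈ Gz ζ j := by
      obtain ⟨e, he⟩ := pw σ.1⁻¹
      show σ.1 (g.1.1 (σ.1⁻¹ ζ)) = ζ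
      rw [he, map_pow, mem_Gz.1 g.2, ← he]
      exact σ.1.apply_symm_apply ζ
    have e1 : ku j hζ u ⟨_, m⟩ = ku j hζ u g ^ (b + 1) := by
      refine pw_inj (a := (ku j hζ u ⟨_, m⟩).toAdd) (b := (b + 1) • (ku j hζ u g).toAdd) hζ
        (root_ne hy) ?_
      rw [← ku_law hζ u _ hy, pw_nsmul hζ.pow_eq_one, ← hσ]
      show σ.1 (g.1.1 (σ.1⁻¹ y)) = _
      rw [ku_law hζ u g (y := σ.1⁻¹ y) (by rw [← map_pow, hy]; exact σ⁻¹.2 _), map_mul, map_pow]
      exact congrArg _ (σ.1.apply_symm_apply y)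
    have e2 := h ⟨_, m⟩
    rw [e1, map_mul, map_mul, map_inv, mul_inv_cancel_comm, pow_succ', ← mul_assoc, h,
      one_mul] at e2
    exact e2
  refine ⟨fun g => by rw [eq_inv_of_mul_eq_one_left (h g), inv_pow, k1, inv_one], ?_⟩
  obtain ⟨y, hy⟩ := ex_root N (j (u ^ b : Kˣ))
  have y0 := root_ne hy
  have z0 := hζ.ne_zero (NeZero.ne N)
  have k2 : ∀ τ : GK j, ∃ a : ZMod N, τ.1 y = ζ ^ a.val * y := fun τ =>
    ex_log hζ y0 (by rw [← map_pow, hy, τ.2])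
  obtain ⟨s, hs⟩ := k2 σ
  obtain ⟨z, hz⟩ := fixed j (x := y ^ b / ζ ^ s.val) fun τ => by
    obtain ⟨a, ha⟩ := k2 τ
    obtain ⟨e, he⟩ := pw τ.1
    have m : (τ * σ)⁻¹ * (σ * τ) ∈ Gz ζ j := by
      show (τ.1 * σ.1)⁻¹ (σ.1 (τ.1 ζ)) = ζ
      refine (τ.1 * σ.1).injective (((τ.1 * σ.1).apply_symm_apply _).trans ?_)
      rw [AlgEquiv.mul_apply, hσ, he, map_pow, map_pow, hσ, he, ← pow_mul, ← pow_mul, mul_comm]
    have e1 := (ku_one hζ (g := ⟨_, m⟩) hy).1 (by rw [map_pow]; exact k1 _)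
    have e2 : σ.1 (τ.1 y) = τ.1 (σ.1 y) :=
      ((τ.1 * σ.1).apply_symm_apply _).symm.trans (congrArg (τ.1 * σ.1) e1)
    rw [ha, hs, map_mul, map_mul, hs, ha, map_pow, hσ] at e2
    have t0 : τ.1 (ζ ^ s.val) ≠ 0 := (map_ne_zero _).2 (pow_ne_zero _ z0)
    rw [map_div₀, map_pow, ha, div_eq_div_iff t0 (pow_ne_zero _ z0)]
    refine mul_right_cancel₀ (mul_ne_zero (pow_ne_zero a.val z0) y0) ?_
    linear_combination y ^ b * e2
  have e : z ^ N = (u ^ (b * b) : Kˣ) := j.injective (by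
    rw [map_pow, hz, div_pow, ← pow_mul ζ, mul_comm s.val, pow_mul ζ, hζ.pow_eq_one, one_pow,
      div_one, ← pow_mul, mul_comm b, pow_mul, hy, ← map_pow, pow_mul,
      Units.val_pow_eq_pow_val (u ^ b)])
  refine ⟨Units.mk0 z fun k => (u ^ (b * b)).ne_zero ?_, Units.ext e.symm⟩
  rw [← e, k, zero_pow (NeZero.ne N)]

omit [NeZero N] in
/-- an element with a fixed action on the roots of unity of two power order -/
theorem ex_sig (j : K →+* Qb) : ∃ (b : ℕ) (σ : GK j), b ≠ 0 ∧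
    ∀ (A : ℕ) (ζ : Qb), ζ ^ 2 ^ A = 1 → σ.1 ζ = ζ ^ (b + 1) := by
  haveI := P022K.GW.Pl.cpt
  haveI : Finite (GQ ⧸ GK j) := (GK j).quotient_finite_of_isOpen (isOpen_GK j)
  haveI : (GK j).FiniteIndex := Subgroup.finiteIndex_of_finite_quotient
  obtain ⟨P, hP⟩ := P022K.GW.Pl.ex_ov Nat.prime_three
  obtain ⟨φ, hφ⟩ := P022D.W.exists_phi hP.1 hP.2.1 hP.2.2
  have d0 := (GK j).normalCore.index_ne_zero_of_finite (G := GQ)
  have h3 := Nat.one_lt_pow d0 (show 1 < 3 by norm_num)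
  refine ⟨3 ^ (GK j).normalCore.index - 1, ⟨_, (GK j).normalCore_le
    ((GK j).normalCore.pow_index_mem φ)⟩, by omega, fun A ζ h => ?_⟩
  rw [Nat.sub_add_cancel h3.le]
  refine fr_root hP.2.1 (fun m => ?_) h
    (P022K.GW.Pl.pw (P022K.GW.Pl.fr_dec hP.2.1 three_ne_zero hφ) hφ _)
  rw [Nat.cast_pow] at m
  exact absurd (P022K.GW.Pl.ov_uniq hP ⟨Nat.prime_two, hP.2.1, hP.2.1.mem_of_pow_mem _ m⟩)
    (by norm_num)

end Vale.Agent.P004C.Al.Kn
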