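import Vale.Agent.P004C.Al.St2
import Vale.Agent.P004C.Al.Gpd
import Vale.Agent.P004C.Al.Cmb1

/-!
# P004 C, block AL: tools for the factorisation of the series `Ls`
-/

set_option linter.all false

open NumberField Module IsDedekindDomain
open scoped Classical

noncomputable section

namespace Vale.Agent.P004C.Al.Lf

open Vale.Agent.P022 (Qb GQ GK below)
open Vale.Agent.P027M.S (Pr Inert)
open Vale.Agent.P027M.M (ze)
open Vale.Agent.P022E.GW (Ov)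
open Vale.Agent.P022K

section

variable {M N : Type} [Field M] [NumberField M] [Field N] [NumberField N] [Algebra M N]
  {j : M →+* Qb} {j' : N →+* Qb} {θ : GQ → ℂ}

/-- every maximal ideal lies below a place -/
theorem ex_pl (j : M →+* Qb) {p : Ideal (𝓞 M)} (hp : p.IsMaximal) :
    ∃ l P, Ov l P ∧ below j P = p := by
  obtain ⟨P, hP, e⟩ := P022.H916.exists_above j p hp.isPrime
  obtain ⟨l, hl, h⟩ := GW.Pl.prime_in hp.isPrime _ (Ideal.absNorm_eq_zero_iff.not.2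
    (Eu.prime_iff.2 hp).ne_zero) (Ideal.absNorm_mem _)
  rw [← e, below, Ideal.mem_comap, map_natCast] at h
  exact ⟨l, P, ⟨hl, hP, h⟩, e⟩

/-- a Frobenius element at a place -/
theorem ex_fr (j : M →+* Qb) {l : ℕ} {P : Ideal (𝓞 Qb)} (h : Ov l P) :
    ∃ g ∈ GK j, ∀ x : 𝓞 Qb, g • x - x ^ Ideal.absNorm (below j P) ∈ P := by
  obtain ⟨g, hg⟩ := P022.H916.exists_frob j h.2.1 h.1 h.2.2
  exact ⟨g, g.2, hg⟩

theorem cm_ext {a b : Ideal (𝓞 M) → ℂ} (ha : Cm a) (hb : Cm b) (h0 : a ⊥ = b ⊥)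
    (h : ∀ p : Ideal (𝓞 M), p.IsMaximal → a p = b p) (I : Ideal (𝓞 M)) : a I = b I := by
  induction I using UniqueFactorizationMonoid.induction_on_prime with
  | h₁ => exact h0
  | h₂ I u => rw [isUnit_iff_eq_one.1 u, ha.one, hb.one]
  | h₃ I Q _ q ih => rw [ha.mul, hb.mul, ih, h Q (Eu.prime_iff.1 q)]

theorem th_pow (hm : ∀ g ∈ GK j, ∀ h ∈ GK j, θ (g * h) = θ g * θ h) (h1 : θ 1 = 1) {g : GQ}
    (hg : g ∈ GK j) (n : ℕ) : θ (g ^ n) = θ g ^ n := by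
  induction n with
  | zero => rw [pow_zero, pow_zero, h1]
  | succ n ih => rw [pow_succ, pow_succ, hm _ (pow_mem hg n) _ hg, ih]

/-- **restriction of characters is composition with the norm** -/
theorem res (e : ∀ x, j' (algebraMap M N x) = j x)
    (hm : ∀ g ∈ GK j, ∀ h ∈ GK j, θ (g * h) = θ g * θ h) (h1 : θ 1 = 1)
    (hr : ∀ l P, Ov l P → Rm j θ P → Rm j' θ P) {χ : Ideal (𝓞 M) → ℂ} {η : Ideal (𝓞 N) → ℂ}
    (hχ : Ic j θ χ) (hη : Ic j' θ η) (I : Ideal (𝓞 N)) : η I = χ (Ideal.relNorm (𝓞 M) I) := by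
  refine cm_ext (b := fun I => χ (Ideal.relNorm (𝓞 M) I)) hη.cm
    ⟨by rw [map_one, hχ.cm.one], fun I I' => by rw [map_mul, hχ.cm.mul]⟩
    (by rw [Ideal.relNorm_bot, hχ.bot, hη.bot]) (fun Q hQ => ?_) I
  obtain ⟨l, P, hP, rfl⟩ := ex_pl j' hQ
  have n := Eu.norm_max (M := M) (below j' P)
  rw [← Rc.below_dw e] at n
  show _ = χ _
  rw [n, hχ.cm.pow]
  by_cases r : Rm j θ P
  · rw [hη.ram l P hP (hr l P hP r), hχ.ram l P hP r,
      zero_pow (Ideal.inertiaDeg_pos (below j' P) (𝓞 M)).ne']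
  obtain ⟨g, hg, fg⟩ := ex_fr j hP
  obtain ⟨g', hg', fg'⟩ := ex_fr j' hP
  have le := Rc.gk_le e
  rw [hη.unr l P hP (fun ⟨t, a, b⟩ => r ⟨t, le a, b⟩) g' hg' fg', hχ.unr l P hP r g hg fg,
    ← th_pow hm h1 hg]
  set f := (below j' P).inertiaDeg (𝓞 M)
  have a : Ideal.absNorm (below j' P) = Ideal.absNorm (below j P) ^ f := by
    rw [← Ideal.absNorm_relNorm (𝓞 M) (𝓞 N), n, map_pow]
  have q : Ideal.absNorm (below j P) ≠ 0 := fun z => by
    have := Ideal.absNorm_eq_zero_iff.1 z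
    have k : (l : 𝓞 M) ∈ below j P := by
      rw [below, Ideal.mem_comap, map_natCast]; exact hP.2.2
    rw [this, Ideal.mem_bot] at k
    exact hP.1.ne_zero (by exact_mod_cast k)
  have i : Inert P (g' * (g ^ f)⁻¹) := fun x => by
    obtain ⟨y, rfl⟩ : ∃ y : 𝓞 Qb, x = (g ^ f) • y := ⟨(g ^ f)⁻¹ • x, by rw [smul_inv_smul]⟩
    have := P.sub_mem (fg' y) (a ▸ GW.Pl.pw (GW.Pl.fr_dec hP.2.1 q fg) fg f y)
    rw [sub_sub_sub_cancel_right] at this
    simpa [mul_smul] using this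
  have m := mul_mem (le hg') (inv_mem (pow_mem hg f))
  have k : θ (g' * (g ^ f)⁻¹) = 1 := by_contra fun k => r ⟨_, m, i, k⟩
  rw [← one_mul (θ (g ^ f)), ← k, ← hm _ m _ (pow_mem hg f), inv_mul_cancel_right]

theorem cop_rn (w : Ideal (𝓞 M)) (I : Ideal (𝓞 N)) (h0 : I ≠ ⊥) :
    Ideal.relNorm (𝓞 M) I ⊔ w = ⊤ ↔ I ⊔ w.map (algebraMap (𝓞 M) (𝓞 N)) = ⊤ := by
  constructor
  · intro k
    have := congrArg (Ideal.map (algebraMap (𝓞 M) (𝓞 N))) k
    rw [Ideal.map_sup, Ideal.map_top] at this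
    exact eq_top_iff.2 (this ▸ sup_le_sup_right
      (Ideal.map_le_iff_le_comap.2 (Ideal.relNorm_le_comap _ I)) _)
  · induction I using UniqueFactorizationMonoid.induction_on_prime with
    | h₁ => exact absurd rfl h0
    | h₂ I u => intro _; rw [Ideal.isUnit_iff.1 u, Ideal.relNorm_top, top_sup_eq]
    | h₃ I Q n q ih =>
      intro k
      rw [map_mul]
      refine Cm.mul_cop.2 ⟨?_, ih n (Cm.mul_cop.1 k).2⟩
      have := Eu.prime_iff.1 q
      rw [Eu.norm_max, ← Ideal.isCoprime_iff_sup_eq]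
      refine IsCoprime.pow_left (Ideal.isCoprime_iff_sup_eq.2 (by_contra fun z => ?_))
      have := (inferInstance : (Q.under (𝓞 M)).IsMaximal).eq_of_le z le_sup_left
      exact q.not_unit (Ideal.isUnit_iff.2 (top_le_iff.1 ((Cm.mul_cop.1 k).1.ge.trans
        (sup_le le_rfl (Ideal.map_le_iff_le_comap.2 (le_sup_right.trans this.ge))))))

end

variable {K : Type} [Field K] [NumberField K] {ι : ℂ →+* ℂ_[2]} {J : K →+* ℂ} {Ω : ℝ}
  {M N : Type} [Field M] [NumberField M] [Field N] [NumberField N] [Algebra K M] [Algebra K N]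
  [Algebra M N] [IsScalarTower K M N] {h e : ℕ} {lam : Ideal (𝓞 K) → ℂ}

/-- the terms of `Ls` -/
def tm (s : 𝓞 K) (lam : Ideal (𝓞 K) → ℂ) (χ : Ideal (𝓞 M) → ℂ) (I : Ideal (𝓞 M)) : ℂ :=
  if I ⊔ Ideal.span {algebraMap (𝓞 K) (𝓞 M) s} = ⊤ then χ I * lam (Ideal.relNorm (𝓞 K) I) else 0

theorem ls_eq (s : 𝓞 K) (χ : Ideal (𝓞 M) → ℂ) : Ls s lam χ = ∑' I, tm s lam χ I := rfl

variable {s : 𝓞 K} {χ : Ideal (𝓞 M) → ℂ}

theorem tm_mul (ψ : Ideal (𝓞 M) → ℂ) (I : Ideal (𝓞 M)) :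
    tm s lam χ I * ψ I = tm s lam (fun I => χ I * ψ I) I := by
  unfold tm
  split_ifs
  · ring
  · rw [zero_mul]

theorem tm_ne {I : Ideal (𝓞 M)} (n : tm s lam χ I ≠ 0) : χ I ≠ 0 := fun z => n (by
  unfold tm
  rw [z, zero_mul, ite_self])

theorem tm_bot (L : La J h e lam) : tm s lam χ ⊥ = 0 := by
  unfold tm
  rw [Ideal.relNorm_bot, L.1, mul_zero, ite_self]

theorem tm_cm (B : Base ι J Ω) (L : La J h e lam) (hχ : Cm χ) : Cm (tm s lam χ) where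
  one := by
    unfold tm
    rw [if_pos (by rw [Ideal.one_eq_top, top_sup_eq]), map_one, hχ.one, (Cm.la_cm B L).one, mul_one]
  mul I I' := by
    unfold tm
    rw [map_mul, hχ.mul, (Cm.la_cm B L).mul]
    by_cases a : I ⊔ Ideal.span {algebraMap (𝓞 K) (𝓞 M) s} = ⊤
    · by_cases b : I' ⊔ Ideal.span {algebraMap (𝓞 K) (𝓞 M) s} = ⊤
      · rw [if_pos a, if_pos b, if_pos (Cm.mul_cop.2 ⟨a, b⟩)]; ring
      · rw [if_neg b, if_neg fun k => b (Cm.mul_cop.1 k).2, mul_zero]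
    · rw [if_neg a, if_neg fun k => a (Cm.mul_cop.1 k).1, zero_mul]

theorem tm_le (B : Base ι J Ω) (L : La J h e lam) (h1 : ∀ I, ‖χ I‖ ≤ 1) {r : ℝ} (hr : r ≤ h * e)
    (I : Ideal (𝓞 M)) : ‖tm s lam χ I‖ ≤ (Ideal.absNorm I : ℝ) ^ (-r) := by
  unfold tm
  split_ifs
  · rw [norm_mul]
    exact (mul_le_of_le_one_left (norm_nonneg _) (h1 I)).trans (Cm.la_le B L hr I)
  · rw [norm_zero]; positivity

theorem tm_rn (L : La J h e lam) (I : Ideal (𝓞 N)) :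
    tm s lam χ (Ideal.relNorm (𝓞 M) I) = tm s lam (fun I => χ (Ideal.relNorm (𝓞 M) I)) I := by
  by_cases z : I = ⊥
  · rw [z, Ideal.relNorm_bot, tm_bot L, tm_bot L]
  unfold tm
  rw [Ideal.relNorm_relNorm]
  refine if_congr ?_ rfl rfl
  rw [cop_rn _ I z, Ideal.map_span, Set.image_singleton, ← IsScalarTower.algebraMap_apply]

theorem two_le {a : ℕ} (hh : 0 < h) (ha : 1 ≤ a) : (2 : ℝ) ≤ h * ((2 ^ a : ℕ) : ℝ) := by
  have : 1 * 2 ^ 1 ≤ h * 2 ^ a := Nat.mul_le_mul hh (Nat.pow_le_pow_right two_pos ha)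
  exact_mod_cast this

/-- **cyclic extensions**: `ψ` cuts out `N / M` -/
theorem cyc (B : Base ι J Ω) [IsGalois M N] {d a : ℕ} (hd : finrank M N = d) (hh : 0 < h)
    (ha : 1 ≤ a) (L : La J h (2 ^ a) lam) {ψ : Ideal (𝓞 M) → ℂ} (hχ : Cm χ) (hψ : Cm ψ)
    (h1 : ∀ I, ‖χ I‖ ≤ 1) (h2 : ∀ I, ‖ψ I‖ ≤ 1)
    (g : ∀ P : Ideal (𝓞 M), P.IsMaximal → χ P ≠ 0 → Gp N ψ P) :
    (Ls s lam fun I : Ideal (𝓞 N) => χ (Ideal.relNorm (𝓞 M) I)) =
      ∏ i ∈ Finset.range d, Ls s lam fun I => χ I * ψ I ^ i := by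
  have := (eul_cyc (M' := N) hd hψ h2 (tm_cm (s := s) B L hχ) (tm_bot L) one_lt_two
    (tm_le B L h1 (two_le hh ha)) fun P hP n => g P hP (tm_ne n)).2.2
  rw [ls_eq, ← tsum_congr (tm_rn L), this]
  exact Finset.prod_congr rfl fun i _ => tsum_congr (tm_mul fun I => ψ I ^ i)

section

variable {j : M →+* Qb} {θ : GQ → ℂ}

/-- the values are bounded -/
theorem ic_le (hχ : Ic j θ χ) (h1 : ∀ g ∈ GK j, ‖θ g‖ ≤ 1) (I : Ideal (𝓞 M)) : ‖χ I‖ ≤ 1 := by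
  induction I using UniqueFactorizationMonoid.induction_on_prime with
  | h₁ => rw [Ideal.zero_eq_bot, hχ.bot, norm_zero]; exact zero_le_one
  | h₂ I u => rw [isUnit_iff_eq_one.1 u, hχ.cm.one, norm_one]
  | h₃ I Q _ q ih =>
    rw [hχ.cm.mul, norm_mul]
    refine mul_le_one₀ ?_ (norm_nonneg _) ih
    obtain ⟨l, P, hP, rfl⟩ := ex_pl j (Eu.prime_iff.1 q)
    by_cases r : Rm j θ P
    · rw [hχ.ram l P hP r, norm_zero]; exact zero_le_one
    · obtain ⟨g, hg, fg⟩ := ex_fr j hP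
      rw [hχ.unr l P hP r g hg fg]
      exact h1 g hg

end

/-- the standard character of `ZMod n` -/
def zc (n : ℕ) [NeZero n] : Multiplicative (ZMod n) →* ℂ :=
  (ZMod.stdAddChar (N := n)).toMonoidHom

theorem zc_eq (n : ℕ) [NeZero n] (x : ZMod n) : zc n (.ofAdd x) = ze n x.val := by
  show ZMod.stdAddChar x = _
  conv_lhs => rw [← ZMod.natCast_zmod_val x, ← Int.cast_natCast]
  rw [ZMod.stdAddChar_coe]
  rfl

theorem zc_inj (n : ℕ) [NeZero n] : Function.Injective (zc n) := fun x y k =>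
  ZMod.injective_stdAddChar k

theorem ze_norm (n : ℕ) [NeZero n] (x : ZMod n) : ‖ze n x.val‖ = 1 := by
  rw [← zc_eq]
  exact AddChar.norm_apply (ZMod.stdAddChar (N := n)) x

theorem ze_add (n : ℕ) [NeZero n] (x y : ZMod n) : ze n (x + y).val = ze n x.val * ze n y.val := by
  rw [← zc_eq, ← zc_eq, ← zc_eq, ← map_mul]; rfl

theorem ze_one (n : ℕ) [NeZero n] (x : ZMod n) : ze n x.val = 1 ↔ x = 0 := by
  rw [← zc_eq, ← map_one (zc n), (zc_inj n).eq_iff]; rfl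

theorem ze_prim (n : ℕ) [NeZero n] (x : ZMod n) :
    IsPrimitiveRoot (ze n x.val) (orderOf (Multiplicative.ofAdd x)) := by
  rw [← zc_eq, ← orderOf_injective (zc n) (zc_inj n)]
  exact IsPrimitiveRoot.orderOf _

end Vale.Agent.P004C.Al.Lf
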