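import Vale.Agent.P004C.Al.St
import Vale.Agent.P004C.Al.Gbx

/-!
# P004 C, block AL: the logarithm above `v`
-/

set_option linter.unusedSectionVars false

open NumberField Module Filter Topology
open scoped Classical

noncomputable section

namespace Vale.Agent.P004C.Al.Lg

open Gx

theorem dvd_iff (m : ℕ) (z : ℤ_[2]) : 2 ^ m ∣ z ↔ ‖z‖ ≤ (1 / 2) ^ m := by
  have := PadicInt.norm_le_pow_iff_mem_span_pow z m
  rw [Ideal.mem_span_singleton, Nat.cast_ofNat, Nat.cast_ofNat, zpow_neg, zpow_natCast] at this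
  rw [← this, one_div, inv_pow]

theorem ex_lim (z : ℕ → ℤ_[2]) (h : ∀ k, 2 ^ (k + 1) ∣ z (k + 1) - z k) :
    ∃ l, ∀ k, 2 ^ (k + 1) ∣ l - z k := by
  have c : CauchySeq z := cauchySeq_of_le_geometric (1 / 2) 1 (by norm_num) fun k => by
    rw [dist_comm, dist_eq_norm, one_mul]
    exact (dvd_iff _ _).1 ((pow_dvd_pow 2 k.le_succ).trans (h k))
  obtain ⟨l, hl⟩ := cauchySeq_tendsto_of_complete c
  refine ⟨l, fun k => (dvd_iff _ _).2 (le_of_tendsto (hl.sub_const (z k)).norm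
    (eventually_atTop.2 ⟨k, fun j hj => (dvd_iff _ _).1 ?_⟩))⟩
  induction j, hj using Nat.le_induction with
  | base => simp
  | succ j hj ih =>
    have := dvd_add ((pow_dvd_pow 2 (Nat.succ_le_succ hj)).trans (h j)) ih
    rwa [sub_add_sub_cancel] at this

theorem eq_zero {z : ℤ_[2]} (h : ∀ k, 2 ^ (k + 1) ∣ z) : z = 0 :=
  norm_le_zero_iff.1 (ge_of_tendsto' (tendsto_pow_atTop_nhds_zero_of_lt_one (r := (1 / 2 : ℝ))
    (by norm_num) (by norm_num)) fun k => (dvd_iff _ _).1 ((pow_dvd_pow 2 k.le_succ).trans (h k)))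

variable {K : Type} [Field K] [NumberField K] {ι : ℂ →+* ℂ_[2]} {J : K →+* ℂ}
  {L : Type} [Field L] [NumberField L] [Algebra K L] {n m : ℕ} {x y a : L}

variable (ι J) in
/-- coordinates in `ℤ₂` -/
structure Co (c : L → Fin n → ℤ_[2]) : Prop where
  add : ∀ x ∈ Ov ι J L, ∀ y ∈ Ov ι J L, c (x + y) = c x + c y
  two : ∀ x ∈ Ov ι J L, ∀ m : ℕ, c (2 ^ m * x) = (2 : ℤ_[2]) ^ m • c x
  dvd : ∀ x ∈ Ov ι J L, ∀ m : ℕ, (∀ i, 2 ^ m ∣ c x i) → ∃ a ∈ Ov ι J L, x = 2 ^ m * a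
  den : ∀ y : Fin n → ℤ_[2], ∃ a ∈ Ov ι J L, ∀ i, 2 ∣ c a i - y i

theorem ex_co (ρ : K →+* ℚ_[2]) (hρ : ∀ x, ι (J x) = algebraMap ℚ_[2] ℂ_[2] (ρ x))
    (b : Basis (Fin n) K L) (hb : Vb ι J b) : ∃ c : L → Fin n → ℤ_[2], Co ι J c := by
  have e : ∀ x, ‖ι (J x)‖ = ‖ρ x‖ := fun x => by
    rw [hρ]; exact PadicComplex.norm_extends' 2 _
  have h : ∀ x : L, x ∈ Ov ι J L ↔ ∀ i, ‖ρ (b.repr x i)‖ ≤ 1 := fun x => by
    simpa only [e, mem_Ov] using hb x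
  let c : L → Fin n → ℤ_[2] := fun x i => if k : ‖ρ (b.repr x i)‖ ≤ 1 then ⟨_, k⟩ else 0
  have hc : ∀ x ∈ Ov ι J L, ∀ i, (c x i : ℚ_[2]) = ρ (b.repr x i) := fun x k i =>
    congrArg Subtype.val (dif_pos ((h x).1 k i))
  have p2 : ∀ (m : ℕ) (x : L) i, ρ (b.repr (2 ^ m * x) i) = 2 ^ m * ρ (b.repr x i) := fun m x i => by
    have : (2 : L) ^ m * x = ((2 : K) ^ m) • x := by simp [Algebra.smul_def, map_ofNat]
    simp [this, map_ofNat]
  have t2 : ∀ (m : ℕ), ∀ x ∈ Ov ι J L, 2 ^ m * x ∈ Ov ι J L := fun m x k =>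
    mul_mem (pow_mem (ofNat_mem _ 2) m) k
  refine ⟨c, fun x hx y hy => funext fun i => Subtype.ext ?_,
    fun x hx m => funext fun i => Subtype.ext ?_, fun x hx m k => ?_, fun y => ?_⟩
  · simp [hc _ (add_mem hx hy), hc _ hx, hc _ hy]
  · show (c (2 ^ m * x) i : ℚ_[2]) = ((2 ^ m * c x i : ℤ_[2]) : ℚ_[2])
    rw [hc _ (t2 m x hx), p2, PadicInt.coe_mul, PadicInt.coe_pow, hc _ hx]
    rfl
  · have ex : x = 2 ^ m * (x / 2 ^ m) := by field_simp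
    refine ⟨x / 2 ^ m, (h _).2 fun i => ?_, ex⟩
    obtain ⟨w, hw⟩ := k i
    have := congrArg (fun z : ℤ_[2] => (z : ℚ_[2])) hw
    simp only [hc _ hx, PadicInt.coe_mul, PadicInt.coe_pow] at this
    rw [ex, p2] at this
    have e2 : ((2 : ℤ_[2]) : ℚ_[2]) = 2 := rfl
    rw [e2] at this
    rw [mul_left_cancel₀ (pow_ne_zero m two_ne_zero) this]
    exact w.2
  · have r : ∀ i, b.repr (∑ j, ((y j).zmodRepr : K) • b j) i = (y i).zmodRepr := fun i => by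
      simp [Finsupp.single_apply]
    have k : ∑ j, ((y j).zmodRepr : K) • b j ∈ Ov ι J L := (h _).2 fun i => by
      rw [r, map_natCast]; exact IsUltrametricDist.norm_natCast_le_one _ _
    refine ⟨_, k, fun i => ?_⟩
    have : c (∑ j, ((y j).zmodRepr : K) • b j) i = (y i).zmodRepr :=
      Subtype.ext (by rw [hc _ k, r]; simp)
    have s := (y i).sub_zmodRepr_mem
    rw [PadicInt.maximalIdeal_eq_span_p, Ideal.mem_span_singleton] at s
    rw [this, ← dvd_neg, neg_sub]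
    exact_mod_cast s

/-- the approximations of the logarithm -/
def ak (x : L) (k : ℕ) : L := (x ^ 2 ^ k - 1) / 2 ^ (k + 2)

theorem ak_succ (x : L) (k : ℕ) : ak x (k + 1) = ak x k * (1 + 2 ^ (k + 1) * ak x k) := by
  simp only [ak, pow_succ, pow_mul]
  field_simp
  ring

theorem ak_mul (x y : L) (k : ℕ) :
    ak (x * y) k = ak x k + ak y k + 2 ^ (k + 1) * (2 * (ak x k * ak y k)) := by
  simp only [ak, pow_succ, mul_pow]
  field_simp
  ring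

theorem ak_mem (h : V1 ι J 2 x) (k : ℕ) : ak x k ∈ Ov ι J L := by
  induction k with
  | zero => simpa [ak, mem_Ov, V1] using h
  | succ k ih =>
    exact ak_succ x k ▸ mul_mem ih (add_mem (one_mem _) (mul_mem (pow_mem (ofNat_mem _ 2) _) ih))

theorem ak_un (h : V1 ι J 2 x) (k : ℕ) : ∃ u, V1 ι J 1 u ∧ ak x k = ak x 0 * u := by
  induction k with
  | zero => exact ⟨1, v1_one, (mul_one _).symm⟩
  | succ k ih =>
    obtain ⟨u, hu, e⟩ := ih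
    exact ⟨u * (1 + 2 ^ (k + 1) * ak x k), v1_mul hu (v1_mono k.succ_pos
      (v1_iff.2 ⟨_, ak_mem h k, rfl⟩)), by rw [ak_succ, ← mul_assoc, ← e]⟩

theorem v1_ak : V1 ι J (m + 2) x ↔ ∃ a ∈ Ov ι J L, ak x 0 = 2 ^ m * a :=
  v1_iff.trans (exists_congr fun a => and_congr_right fun _ => by
    simp only [ak, pow_zero, pow_one, zero_add]
    rw [div_eq_iff (by norm_num), sub_eq_iff_eq_add']
    exact Eq.congr_right (by ring))

variable {c : L → Fin n → ℤ_[2]}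

theorem Co.cong (C : Co ι J c) (hx : x ∈ Ov ι J L) (ha : a ∈ Ov ι J L) (m : ℕ) (i : Fin n) :
    2 ^ m ∣ c (x + 2 ^ m * a) i - c x i := by
  rw [C.add _ hx _ (mul_mem (pow_mem (ofNat_mem _ 2) _) ha), C.two _ ha]
  simp

theorem Co.ex_log (C : Co ι J c) : ∃ ℓ : L → Fin n → ℤ_[2], ∀ x, V1 ι J 2 x → ∀ i k,
    2 ^ (k + 1) ∣ ℓ x i - c (ak x k) i := by
  have : ∀ (x : L) (i : Fin n), ∃ l : ℤ_[2], V1 ι J 2 x → ∀ k, 2 ^ (k + 1) ∣ l - c (ak x k) i :=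
    fun x i => by
      by_cases h : V1 ι J 2 x
      · obtain ⟨l, hl⟩ := ex_lim (fun k => c (ak x k) i) fun k => by
          have := C.cong (ak_mem h k) (mul_mem (ak_mem h k) (ak_mem h k)) (k + 1) i
          rwa [show ak x k + 2 ^ (k + 1) * (ak x k * ak x k) = ak x (k + 1) by
            rw [ak_succ]; ring] at this
        exact ⟨l, fun _ => hl⟩
      · exact ⟨0, fun k => absurd k h⟩
  choose ℓ h using this
  exact ⟨ℓ, fun x hx i => h x i hx⟩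

section

variable {ℓ : L → Fin n → ℤ_[2]} (C : Co ι J c)
  (H : ∀ x, V1 ι J 2 x → ∀ i k, 2 ^ (k + 1) ∣ ℓ x i - c (ak x k) i)
include C H

theorem lg_add (hx : V1 ι J 2 x) (hy : V1 ι J 2 y) : ℓ (x * y) = ℓ x + ℓ y :=
  funext fun i => sub_eq_zero.1 (eq_zero fun k => by
    have h1 := H _ (v1_mul hx hy) i k
    have h4 := C.cong (add_mem (ak_mem hx k) (ak_mem hy k))
      (mul_mem (ofNat_mem _ 2) (mul_mem (ak_mem hx k) (ak_mem hy k))) (k + 1) i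
    rw [← ak_mul, C.add _ (ak_mem hx k) _ (ak_mem hy k)] at h4
    have := dvd_sub (dvd_sub (dvd_add h1 h4) (H _ hx i k)) (H _ hy i k)
    simp only [Pi.add_apply] at this ⊢
    rwa [show ∀ p q r s t u : ℤ_[2], p - q + (q - (r + s)) - (t - r) - (u - s) = p - (t + u) from
      fun _ _ _ _ _ _ => by ring] at this)

theorem lg_iff (hx : V1 ι J 2 x) (m : ℕ) : V1 ι J (m + 2) x ↔ ∀ i, 2 ^ m ∣ ℓ x i := by
  obtain ⟨u, hu, e⟩ := ak_un hx m
  have k : ∀ i, 2 ^ m ∣ ℓ x i ↔ 2 ^ m ∣ c (ak x m) i := fun i =>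
    dvd_iff_dvd_of_dvd_sub ((pow_dvd_pow 2 m.le_succ).trans (H x hx i m))
  simp only [k, v1_ak]
  refine ⟨fun ⟨a, ha, e'⟩ i => ?_, fun h => ?_⟩
  · rw [e, e', mul_assoc, C.two _ (mul_mem ha (v1_mem hu))]
    simp
  · obtain ⟨a, ha, e'⟩ := C.dvd _ (ak_mem hx m) m h
    obtain ⟨n0, hi⟩ := v1_unit le_rfl hu
    exact ⟨a * u⁻¹, mul_mem ha hi, by rw [← mul_assoc, ← e', e, mul_inv_cancel_right₀ n0]⟩

theorem lg_step (ha : a ∈ Ov ι J L) (m : ℕ) (i : Fin n) :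
    2 ^ (m + 1) ∣ ℓ (1 + 2 ^ (m + 2) * a) i - 2 ^ m * c a i := by
  have hx : V1 ι J 2 (1 + 2 ^ (m + 2) * a) := v1_mono (by omega) (v1_iff.2 ⟨a, ha, rfl⟩)
  obtain ⟨u, hu, e⟩ := ak_un hx m
  obtain ⟨w, hw, rfl⟩ := v1_iff.1 hu
  have e0 : ak (1 + 2 ^ (m + 2) * a) 0 = 2 ^ m * a := by
    simp only [ak, pow_zero, pow_one, zero_add]
    field_simp
    ring
  have h1 := H _ hx i m
  have h2 := C.cong (mul_mem (pow_mem (ofNat_mem _ 2) m) ha) (mul_mem ha hw) (m + 1) i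
  rw [e, e0, show (2 : L) ^ m * a * (1 + 2 ^ 1 * w) = 2 ^ m * a + 2 ^ (m + 1) * (a * w) by ring] at h1
  have := dvd_add h1 h2
  rwa [sub_add_sub_cancel, C.two _ ha] at this

theorem lg_den (y : Fin n → ℤ_[2]) (m : ℕ) : ∃ x, V1 ι J 2 x ∧ ∀ i, 2 ^ m ∣ ℓ x i - y i := by
  induction m with
  | zero => exact ⟨1, v1_one, by simp⟩
  | succ m ih =>
    obtain ⟨x, hx, h⟩ := ih
    choose w hw using h
    obtain ⟨a, ha, k⟩ := C.den (-w)
    have h1 : V1 ι J 2 (1 + 2 ^ (m + 2) * a) := v1_mono (by omega) (v1_iff.2 ⟨a, ha, rfl⟩)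
    refine ⟨_, v1_mul hx h1, fun i => ?_⟩
    have := dvd_add (lg_step C H ha m i) (pow_succ (2 : ℤ_[2]) m ▸ mul_dvd_mul_left (2 ^ m) (k i))
    rw [lg_add C H hx h1, Pi.add_apply, add_sub_right_comm, hw i]
    rwa [show ∀ p q r : ℤ_[2], p - q * r + q * (r - (-w) i) = q * w i + p from
      fun _ _ _ => by simp only [Pi.neg_apply]; ring] at this

end

theorem ex_e (s : 𝓞 K) (hs : ‖ι (J s)‖ = 1) (m : ℕ) :
    ∃ j, V1 ι J m (algebraMap K L s ^ (j + 1)) := by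
  have := fin_two (M := L) m
  let u := algebraMap (𝓞 K) (𝓞 L) s
  obtain ⟨n0, hi⟩ := inv_Ov (ι := ι) (J := J) (a := u) ⟨s, hs, Ideal.mem_span_singleton_self _⟩
  obtain ⟨i, j, hij, e⟩ := Set.Finite.exists_lt_map_eq_of_forall_mem
    (f := fun i : ℕ => Ideal.Quotient.mk (Ideal.span {(2 : 𝓞 L) ^ m}) (u ^ i))
    (fun _ => Set.mem_univ _) Set.finite_univ
  obtain ⟨k, rfl⟩ := Nat.exists_eq_add_of_lt hij
  obtain ⟨d, hd⟩ := Ideal.mem_span_singleton'.1 (Ideal.Quotient.eq.1 e.symm)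
  have e' : (d : L) * 2 ^ m = (u : L) ^ (i + k + 1) - (u : L) ^ i :=
    congrArg (fun z : 𝓞 L => (z : L)) hd
  have n' := RingOfIntegers.coe_ne_zero_iff.2 n0
  refine ⟨k, v1_iff.2 ⟨d * (u : L)⁻¹ ^ i, mul_mem (int_Ov d) (pow_mem hi i), ?_⟩⟩
  show (u : L) ^ (k + 1) = _
  rw [inv_pow]
  field_simp
  linear_combination -e'

/-- approximation by integers which are prime to `t` -/
theorem approx (hx : V1 ι J 2 x) (m : ℕ) (t : 𝓞 L) (ht : t ≠ 0) : ∃ x' : 𝓞 L,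
    V1 ι J m ((x' : L) * x⁻¹) ∧ V1 ι J 2 (x' : L) ∧ Ideal.span {x'} ⊔ Ideal.span {t} = ⊤ := by
  obtain ⟨a, ⟨s, h1, h2⟩, ex⟩ := v1_iff.1 hx
  have hv : (vv ι J).IsMaximal := vv_prime.isMaximal fun h =>
    two_ne_zero (Ideal.mem_bot.1 (h.le two_vv))
  have nb : (Ideal.span {t}).comap (algebraMap (𝓞 K) (𝓞 L)) ≠ ⊥ := fun h =>
    ht (Ideal.span_singleton_eq_bot.1 (Ideal.eq_bot_of_comap_eq_bot h))
  obtain ⟨I, hI, eI⟩ := Ideal.eq_prime_pow_mul_coprime nb (vv ι J)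
  obtain ⟨f, fI, fv⟩ := Set.not_subset.1 fun h : I ≤ vv ι J => hv.ne_top (sup_eq_left.2 h ▸ hI)
  obtain ⟨j, hj⟩ := ex_e (ι := ι) (J := J) (L := L) (s * f) (by simp [h1, not_vv.1 fv]) m
  let w : 𝓞 L := algebraMap (𝓞 K) (𝓞 L) (s * f) ^ j * ⟨_, h2⟩
  let x' : 𝓞 L := 1 + 2 * (2 * (algebraMap (𝓞 K) (𝓞 L) f * w))
  have e : (x' : L) = 1 + 2 ^ 2 * (algebraMap K L (s * f : 𝓞 K) ^ (j + 1) * a) := by
    show 1 + 2 * (2 * (algebraMap K L f * (algebraMap K L (s * f : 𝓞 K) ^ j *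
      (algebraMap K L s * a)))) = _
    simp only [map_mul]
    ring
  have ha : a ∈ Ov ι J L := ⟨s, h1, h2⟩
  obtain ⟨n0, hi⟩ := v1_unit (by norm_num) hx
  obtain ⟨d, hd, ed⟩ := v1_iff.1 hj
  refine ⟨x', v1_iff.2 ⟨2 ^ 2 * (d * a) * x⁻¹, mul_mem (mul_mem (pow_mem (ofNat_mem _ 2) 2)
    (mul_mem hd ha)) hi, ?_⟩, v1_iff.2 ⟨_, mul_mem (v1_mem hj) ha, e⟩, ?_⟩
  · rw [e, ed]
    field_simp
    linear_combination -ex
  · by_contra k
    obtain ⟨Q, hQ, le⟩ := Ideal.exists_le_maximal _ k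
    have x1 : x' ∈ Q := le (Ideal.mem_sup_left (Ideal.mem_span_singleton_self _))
    have p := hQ.isPrime
    have := (Ideal.comap_isPrime (algebraMap (𝓞 K) (𝓞 L)) Q).mul_le.1
      (eI ▸ Ideal.comap_mono (le_sup_right.trans le))
    refine hQ.ne_top ((Ideal.eq_top_iff_one _).2 ((Q.add_mem_iff_left ?_).1 x1))
    rcases this with h | h
    · rcases Nat.eq_zero_or_pos (Multiset.count (vv ι J) (UniqueFactorizationMonoid.normalizedFactors
        ((Ideal.span {t}).comap (algebraMap (𝓞 K) (𝓞 L))))) with z | z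
      · rw [z, pow_zero, Ideal.one_eq_top, top_le_iff, Ideal.comap_eq_top_iff] at h
        exact absurd h hQ.ne_top
      · exact Q.mul_mem_right _ (map_ofNat (algebraMap (𝓞 K) (𝓞 L)) 2 ▸
          (Ideal.IsPrime.le_of_pow_le h) two_vv)
    · exact Q.mul_mem_left _ (Q.mul_mem_left _ (Q.mul_mem_right _ (h fI)))

end Vale.Agent.P004C.Al.Lg

namespace Vale.Agent.P004C.Al

open Gx Lg

theorem log_row (kv : KV) : LOG := fun K _ _ ι J Ω B L _ _ _ => by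
  obtain ⟨ρ, hρ⟩ := kv K ι J Ω B
  obtain ⟨b, hb⟩ := vb_ex (ι := ι) (J := J) (M := L) rfl
  obtain ⟨c, C⟩ := ex_co ρ hρ b hb
  obtain ⟨ℓ, H⟩ := C.ex_log
  refine ⟨ℓ, fun x y => lg_add C H, fun x m h => lg_iff C H h m, fun y m t ht => ?_⟩
  obtain ⟨x, hx, h⟩ := lg_den C H y m
  obtain ⟨x', h1, h2, h3⟩ := approx hx (m + 2) t ht
  refine ⟨x', h2, h3, fun i => ?_⟩
  have v := v1_mono (by omega : 2 ≤ m + 2) h1
  have := lg_add C H v hx
  rw [inv_mul_cancel_right₀ (v1_unit (by norm_num) hx).1] at this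
  rw [this, Pi.add_apply, add_sub_assoc]
  exact dvd_add ((lg_iff C H v m).1 h1 i) (h i)

end Vale.Agent.P004C.Al
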