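import Vale.Agent.P004C.Al.Ip
import Vale.Agent.P022K.GW.Pl
import Vale.Agent.P022.H565.Fre
import Vale.Agent.P022.H651.FCH

/-!
# P004 C: Frobenius elements and norms of ideals
-/

set_option autoImplicit false
set_option linter.all false

open NumberField IsDedekindDomain
open scoped Classical

noncomputable section

namespace Vale.Agent.P004C.Al.Rc

open Vale.Agent.P022 Vale.Agent.P022.C Vale.Agent.P022K

variable {M M' : Type} [Field M] [NumberField M] [Field M'] [NumberField M'] [Algebra M M']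
  {j : M →+* Qb} {j' : M' →+* Qb} (e : ∀ x, j' (algebraMap M M' x) = j x)

theorem ex_fri {v : HeightOneSpectrum (𝓞 M)} {P : Ideal (𝓞 Qb)} (hP : P.IsPrime)
    (hb : below j P = v.asIdeal) : ∃ g, FrI j v P g := by
  obtain ⟨l, hl, m⟩ := H565.exists_prime_mem v
  exact GW.Pl.ex_fri j ⟨hl, hP, (H651.natCast_mem_below j).1 (hb ▸ m)⟩ hb

/-- an element acting as a power of the Frobenius -/
theorem fr_pow {A : Type} [CommGroup A] {θ : GK j →* A} {v : HeightOneSpectrum (𝓞 M)}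
    (hv : ∀ P : Ideal (𝓞 Qb), P.IsPrime → below j P = v.asIdeal → ∀ g, InI j P g → θ g = 1)
    {P P₀ : Ideal (𝓞 Qb)} {g g₀ : GK j} (h₀ : FrI j v P₀ g₀) (hP : P.IsPrime)
    (hb : below j P = v.asIdeal) {f : ℕ}
    (hg : ∀ x : 𝓞 Qb, g.1 • x - x ^ Ideal.absNorm v.asIdeal ^ f ∈ P) : θ g = θ g₀ ^ f := by
  obtain ⟨g₁, h₁⟩ := ex_fri hP hb
  rw [H565.fre_unique j θ v hv _ _ _ _ h₀ h₁, ← map_pow, ← mul_inv_eq_one, ← map_inv, ← map_mul]
  refine hv P hP hb _ fun x => ?_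
  obtain ⟨y, rfl⟩ : ∃ y : 𝓞 Qb, x = (g₁.1 ^ f) • y := ⟨(g₁.1 ^ f)⁻¹ • x, by rw [smul_inv_smul]⟩
  have := P.sub_mem (hg y) (GW.Pl.pw (GW.Pl.fr_dec hP
    (Ideal.absNorm_eq_zero_iff.not.2 v.ne_bot) h₁.2.2) h₁.2.2 f y)
  rw [sub_sub_sub_cancel_right] at this
  simpa [mul_smul] using this

/-- the prime below -/
def dw (M : Type) [Field M] [NumberField M] [Algebra M M'] (w : HeightOneSpectrum (𝓞 M')) :
    HeightOneSpectrum (𝓞 M) := w.under (𝓞 M)

theorem dw_eq (w : HeightOneSpectrum (𝓞 M')) : (dw M w).asIdeal = w.asIdeal.under (𝓞 M) := rfl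

theorem rel_pr (w : HeightOneSpectrum (𝓞 M')) : Ideal.relNorm (𝓞 M) w.asIdeal =
    (dw M w).asIdeal ^ w.asIdeal.inertiaDeg (𝓞 M) :=
  have := w.isMaximal
  Ideal.relNorm_eq_pow_of_isMaximal _ (w.asIdeal.under (𝓞 M))

theorem abs_pr (w : HeightOneSpectrum (𝓞 M')) : Ideal.absNorm w.asIdeal =
    Ideal.absNorm (dw M w).asIdeal ^ w.asIdeal.inertiaDeg (𝓞 M) := by
  rw [← Ideal.absNorm_relNorm (𝓞 M) (𝓞 M'), rel_pr, map_pow]

include e

theorem gk_le : GK j' ≤ GK j := fun g h x => by rw [← e, h]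

theorem below_dw (P : Ideal (𝓞 Qb)) : below j P = (below j' P).under (𝓞 M) := by
  ext x
  rw [below, below, Ideal.mem_comap, Ideal.under_def, Ideal.mem_comap, Ideal.mem_comap,
    show RingOfIntegers.mapRingHom j' (algebraMap _ _ x) = RingOfIntegers.mapRingHom j x from
      RingOfIntegers.ext (e x)]

variable {A : Type} [CommGroup A] {θ : GK j →* A}

theorem un_res {w : HeightOneSpectrum (𝓞 M')}
    (hv : ∀ P : Ideal (𝓞 Qb), P.IsPrime → below j P = (dw M w).asIdeal → ∀ g, InI j P g → θ g = 1)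
    (P : Ideal (𝓞 Qb)) (hP : P.IsPrime) (hb : below j' P = w.asIdeal) (g : GK j')
    (hg : InI j' P g) : θ (Subgroup.inclusion (gk_le e) g) = 1 :=
  hv P hP (by rw [below_dw e, hb, dw_eq]) _ hg

theorem fr_norm {w : HeightOneSpectrum (𝓞 M')}
    (hv : ∀ P : Ideal (𝓞 Qb), P.IsPrime → below j P = (dw M w).asIdeal → ∀ g, InI j P g → θ g = 1)
    {P P' : Ideal (𝓞 Qb)} {g : GK j} {g' : GK j'} (h : FrI j (dw M w) P g) (h' : FrI j' w P' g') :
    θ (Subgroup.inclusion (gk_le e) g') = θ g ^ w.asIdeal.inertiaDeg (𝓞 M) :=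
  fr_pow hv h h'.1 (by rw [below_dw e, h'.2.1, dw_eq]) (abs_pr (M := M) w ▸ h'.2.2)

/-- restriction of characters is composition with the norm -/
theorem ip_norm {fr : HeightOneSpectrum (𝓞 M) → GK j} (hfr : ∀ v, ∃ P, FrI j v P (fr v))
    {fr' : HeightOneSpectrum (𝓞 M') → GK j'} (hfr' : ∀ v, ∃ P, FrI j' v P (fr' v))
    {I : Ideal (𝓞 M')} (h0 : I ≠ ⊥) (hu : ∀ w : HeightOneSpectrum (𝓞 M'), I ≤ w.asIdeal →
      ∀ P : Ideal (𝓞 Qb), P.IsPrime → below j P = (dw M w).asIdeal → ∀ g, InI j P g → θ g = 1) :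
    ip (fun v => θ (fr v)) (Ideal.relNorm (𝓞 M) I) =
      ip (fun w => θ (Subgroup.inclusion (gk_le e) (fr' w))) I := by
  refine eq_ip (a := fun I => ip (fun v => θ (fr v)) (Ideal.relNorm (𝓞 M) I))
    (q := fun I => ∀ w : HeightOneSpectrum (𝓞 M'), I ≤ w.asIdeal →
      ∀ P : Ideal (𝓞 Qb), P.IsPrime → below j P = (dw M w).asIdeal → ∀ g, InI j P g → θ g = 1)
    (by rw [map_one, ip_one]) (fun I I' h => ⟨fun w k => h w (Ideal.mul_le_left.trans k),
      fun w k => h w (Ideal.mul_le_right.trans k)⟩) (fun I I' a b _ _ => by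
      rw [map_mul, ip_mul (Ideal.relNorm_eq_bot_iff.not.2 a) (Ideal.relNorm_eq_bot_iff.not.2 b)])
    (fun w h => ?_) h0 hu
  obtain ⟨P, hP⟩ := hfr (dw M w)
  obtain ⟨P', hP'⟩ := hfr' w
  rw [rel_pr, ip_pow (dw M w).ne_bot, ip_pr, fr_norm e (h w le_rfl) hP hP']

end Vale.Agent.P004C.Al.Rc
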