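import Vale.Agent.P004C.Al.Eul

/-!
# P004 C: an absolutely convergent Euler product is not zero
-/

set_option autoImplicit false
set_option linter.all false

open Ideal
open scoped Classical

noncomputable section

namespace Vale.Agent.P004C.Al.Rc

variable {O : Type} [CommRing O] [IsDedekindDomain O] {a : Ideal O → ℂ}

theorem sieve (h : Cm a) (hs : Summable a) (S : Finset (Ideal O)) (hS : ∀ P ∈ S, Prime P) :
    (∑' I, a I) * ∏ P ∈ S, (1 - a P) = ∑' I, if ∀ P ∈ S, ¬P ∣ I then a I else 0 := by
  induction S using Finset.induction_on with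
  | empty => simp
  | insert P S hP ih =>
    have pP := hS P (Finset.mem_insert_self _ _)
    have pS : ∀ Q ∈ S, Prime Q := fun Q hQ => hS Q (Finset.mem_insert_of_mem hQ)
    set b := fun I => if ∀ Q ∈ S, ¬Q ∣ I then a I else 0 with hb
    have fb : Summable b := (hs.indicator {I | ∀ Q ∈ S, ¬Q ∣ I}).congr fun I => by
      simp only [hb, Set.indicator_apply, Set.mem_setOf_eq]
    have fc : Summable fun J => if P ∣ J then b J else 0 :=
      (fb.indicator {J | P ∣ J}).congr fun I => by
        simp only [Set.indicator_apply, Set.mem_setOf_eq]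
    have e1 : ∀ I, b (P * I) = a P * b I := fun I => by
      have : (∀ Q ∈ S, ¬Q ∣ P * I) ↔ ∀ Q ∈ S, ¬Q ∣ I := forall₂_congr fun Q hQ => by
        rw [(pS Q hQ).dvd_mul, or_iff_right fun d => hP ?_]
        rwa [← associated_iff_eq.1 (((pS Q hQ).dvd_prime_iff_associated pP).1 d)]
      simp only [hb, this, h.mul, mul_ite, mul_zero]
    have e2 : ∑' J, (if P ∣ J then b J else 0) = a P * ∑' I, b I := by
      rw [← tsum_mul_left, ← tsum_congr e1, ← (mul_right_injective₀ pP.ne_zero).tsum_eq
        (f := fun J => if P ∣ J then b J else 0) fun J k => by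
          obtain ⟨c, e⟩ : P ∣ J := by
            by_contra n
            exact k (if_neg n)
          exact ⟨c, e.symm⟩]
      exact tsum_congr fun I => if_pos (dvd_mul_right _ _)
    rw [Finset.prod_insert hP, mul_left_comm, ih pS, sub_mul, one_mul, ← e2, ← fb.tsum_sub fc]
    refine tsum_congr fun J => ?_
    by_cases d : P ∣ J <;> simp [hb, d]

theorem sum_ne (h : Cm a) (h0 : a ⊥ = 0) (hs : Summable fun I => ‖a I‖) : ∑' I, a I ≠ 0 := by
  intro z
  obtain ⟨T, hT⟩ := ((tendsto_tsum_compl_atTop_zero fun I => ‖a I‖).eventually_lt_const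
    one_pos).exists
  have e := sieve h hs.of_norm (T.biUnion fun I => (UniqueFactorizationMonoid.factors I).toFinset)
    fun P hP => by
      obtain ⟨I, -, k⟩ := Finset.mem_biUnion.1 hP
      exact UniqueFactorizationMonoid.prime_of_factor P (Multiset.mem_toFinset.1 k)
  generalize hS : (T.biUnion fun I => (UniqueFactorizationMonoid.factors I).toFinset) = S at e
  have pS : ∀ P ∈ S, Prime P := fun P hP => by
    obtain ⟨I, -, k⟩ := Finset.mem_biUnion.1 (hS ▸ hP)
    exact UniqueFactorizationMonoid.prime_of_factor P (Multiset.mem_toFinset.1 k)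
  have fb : Summable fun I => if ∀ Q ∈ S, ¬Q ∣ I then a I else 0 :=
    (hs.of_norm.indicator {I | ∀ Q ∈ S, ¬Q ∣ I}).congr fun I => by
      simp only [Set.indicator_apply, Set.mem_setOf_eq]
  rw [z, zero_mul, fb.tsum_eq_add_tsum_ite 1, if_pos fun P hP => (pS P hP).not_dvd_one, h.one,
    eq_comm, add_eq_zero_iff_neg_eq] at e
  refine hT.not_ge (le_of_le_of_eq ?_ (tsum_subtype {I | I ∉ T} fun I => ‖a I‖).symm)
  rw [← norm_one (α := ℂ), ← norm_neg, e]
  refine tsum_of_norm_bounded (hs.indicator _).hasSum fun I => ?_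
  by_cases m : I ∈ T
  · rw [Set.indicator_of_notMem (by simpa using m)]
    split_ifs with c k
    · simp
    · by_cases b : I = ⊥
      · simp [b, h0]
      obtain ⟨P, hP⟩ := UniqueFactorizationMonoid.exists_mem_factors b
        fun u => c (isUnit_iff_eq_one.1 u)
      exact (k P (hS ▸ Finset.mem_biUnion.2 ⟨I, m, Multiset.mem_toFinset.2 hP⟩)
        (UniqueFactorizationMonoid.dvd_of_mem_factors hP)).elim
    · simp
  · rw [Set.indicator_of_mem (by simpa using m)]
    split_ifs <;> simp

end Vale.Agent.P004C.Al.Rc
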