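import Vale.Agent.P004C.Al.St
import Vale.Agent.P004F.Defs

/-!
# P004 C, block AL: Galois rows and the export
-/

open NumberField Module IsDedekindDomain PowerSeries
open scoped Classical

noncomputable section

namespace Vale.Agent.P004C.Al

open Vale.Agent.P022 (Qb GQ GK below)
open Vale.Agent.P027M.S (Pr Inert)
open Vale.Agent.P027M.M (ze)
open Vale.Agent.P022D.W (dec)
open Vale.Agent.P022E.GW (Ov)
open Vale.Agent.P022K.G2 (In)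
open Vale.Agent.P004F (Rb Cc)

section

variable {M : Type} [Field M] [NumberField M] (j : M →+* Qb) (θ : GQ → ℂ)

/-- a character of exponent `n` of the group of `M` -/
structure Gc (n : ℕ) : Prop where
  mul : ∀ g ∈ GK j, ∀ h ∈ GK j, θ (g * h) = θ g * θ h
  pos : 0 < n
  pow : ∀ g ∈ GK j, θ g ^ n = 1
  opn : ∃ W : Subgroup GQ, IsOpen (W : Set GQ) ∧ ∀ g ∈ GK j, g ∈ W → θ g = 1

/-- ramified at `P` -/
def Rm (P : Ideal (𝓞 Qb)) : Prop := ∃ g ∈ GK j, Inert P g ∧ θ g ≠ 1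

/-- the primitive character on ideals -/
structure Ic (χ : Ideal (𝓞 M) → ℂ) : Prop where
  cm : Cm χ
  bot : χ ⊥ = 0
  ram : ∀ l P, Ov l P → Rm j θ P → χ (below j P) = 0
  unr : ∀ l P, Ov l P → ¬ Rm j θ P → ∀ g ∈ GK j,
    (∀ x : 𝓞 Qb, g • x - x ^ Ideal.absNorm (below j P) ∈ P) → χ (below j P) = θ g

/-- a cyclic layer of degree `2 * 2 ^ k`, totally ramified at the primes of `c` -/
structure Lw (c k : ℕ) (e : GQ → ZMod (2 * 2 ^ k)) : Prop where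
  odd : Odd c
  one : 1 < c
  add : ∀ g ∈ GK j, ∀ h ∈ GK j, e (g * h) = e g + e h
  opn : ∃ W : Subgroup GQ, IsOpen (W : Set GQ) ∧ ∀ g ∈ GK j, g ∈ W → e g = 0
  unr : ∀ l P, Ov l P → ¬ l ∣ c → ∀ g ∈ GK j, Inert P g → e g = 0
  ram : ∀ l P, Ov l P → l ∣ c → ∃ t ∈ GK j, Inert P t ∧ e t = 1

/-- the cocycles which vanish at `P` -/
def Zc (T : Finset ℕ) (ρ : GQ → Matrix (Fin 2) (Fin 2) (ZMod 2)) (N : ℕ) (χ : GQ → ℕ)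
    (P : Ideal (𝓞 Qb)) : Set (GQ → Fin 2 → Rb N) :=
  {x | Cc (GK j) T (fun g => (Ideal.Quotient.mk _ (1 + X) : Rb N) ^ χ g •
    (ρ g).map ((Ideal.Quotient.mk _).comp C : ZMod 2 →+* Rb N)) x ∧ ∀ g ∈ dec P, x g = 0}

end

section

variable {K : Type} [Field K] [NumberField K] (ι : ℂ →+* ℂ_[2]) (J : K →+* ℂ) (j : K →+* Qb)
  (ρ : GQ → Matrix (Fin 2) (Fin 2) (ZMod 2))

/-- `P` lies above `v` -/
def Ab (P : Ideal (𝓞 Qb)) : Prop := Ov 2 P ∧ ∀ x : 𝓞 K, x ∈ below j P ↔ ‖ι (J x)‖ < 1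

/-- the primes of `s` are inert in the last step of the layer -/
structure Ts (c k : ℕ) (e : GQ → ZMod (2 * 2 ^ k)) (S : Finset ℕ) (s : 𝓞 K) : Prop where
  one : ρ 1 = 1
  mul : ∀ g h, ρ (g * h) = ρ g * ρ h
  two : 2 ∈ S
  cop : ∀ l ∈ S, ¬ l ∣ c
  unr : ∀ g ∈ In (S : Set ℕ), ρ g = 1
  uni : ‖ι (J s)‖ = 1
  ine : ∀ l Q, Ov l Q → s ∈ below j Q →
    l ∈ S ∧ ∃ g ∈ dec Q, g ∈ GK j ∧ ρ g = 1 ∧ e g = 2 ^ k

/-- the fields of the residual representation -/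
structure Cb {M M₃ : Type} [Field M] [Field M₃] [Algebra K M] [Algebra M M₃] (jM : M →+* Qb)
    (j₃ : M₃ →+* Qb) (e₃ : GQ → ZMod 3) : Prop where
  cM : ∀ x, jM (algebraMap K M x) = j x
  c3 : ∀ x, j₃ (algebraMap M M₃ x) = jM x
  gM : ∀ g, g ∈ GK jM ↔ g ∈ GK j ∧ ρ g ^ 3 = 1
  g3 : ∀ g, g ∈ GK j₃ ↔ g ∈ GK j ∧ ρ g = 1
  add : ∀ g ∈ GK jM, ∀ h ∈ GK jM, e₃ (g * h) = e₃ g + e₃ h
  ker : ∀ g ∈ GK jM, e₃ g = 0 ↔ ρ g = 1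
  onto : ∃ g ∈ GK jM, ρ g ≠ 1

end

/-- existence and reciprocity -/
def ICX : Prop := ∀ (M : Type) [Field M] [NumberField M] (j : M →+* Qb) θ n, Gc j θ n →
  (∃ χ, Ic j θ χ) ∧ ∀ χ, Ic j θ χ → (∀ I, ‖χ I‖ ≤ 1) ∧ (IsEmpty (M →+* ℝ) → ∀ x : 𝓞 M, x ≠ 0 →
    (∀ (v : Pr M) l P, Ov l P → below j P = v.asIdeal → Rm j θ P →
      v.valuation M ((x : M) - 1) < v.valuation M ((n : M) ^ 2)) → χ (Ideal.span {x}) = 1)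

/-- quadratic steps -/
def ETA : Prop := ∀ (L L₂ : Type) [Field L] [NumberField L] [Field L₂] [NumberField L₂]
  [Algebra L L₂] (j : L →+* Qb) (j₂ : L₂ →+* Qb) θ (c : ℕ), IsEmpty (L →+* ℝ) →
  (∀ x, j₂ (algebraMap L L₂ x) = j x) → finrank L L₂ = 2 → Gc j θ 2 →
  (∀ g, g ∈ GK j₂ ↔ g ∈ GK j ∧ θ g = 1) → Odd c → (∀ l P, Ov l P → (Rm j θ P ↔ l ∣ c)) →
  (∀ η, Ic j θ η → Eta L₂ η c) ∧ (∀ l P, Ov l P → ¬ l ∣ c → (∃ g ∈ dec P, g ∈ GK j ∧ θ g ≠ 1) →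
    Ine L₂ (below j P)) ∧ ∀ p : Ideal (𝓞 L), p.IsMaximal → ∃ l P, Ov l P ∧ below j P = p

/-- the faithful characters of a layer -/
def LF2 : Prop := ∀ (K M N : Type) [Field K] [NumberField K] [Field M] [NumberField M] [Field N]
  [NumberField N] [Algebra K M] [Algebra K N] [Algebra M N] [IsScalarTower K M N]
  (ι : ℂ →+* ℂ_[2]) (J : K →+* ℂ) (Ω : ℝ), Base ι J Ω → ∀ (j : M →+* Qb) (j' : N →+* Qb) c k e,
  (∀ x, j' (algebraMap M N x) = j x) → Lw j c k e → (∀ g, g ∈ GK j' ↔ g ∈ GK j ∧ 2 * e g = 0) →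
  ∀ χ η, Ic j (fun g => ze (2 * 2 ^ k) (e g).val) χ → Ic j' (fun g => ze (2 * 2 ^ k) (e g).val) η →
  ∀ (s : 𝓞 K) (h a : ℕ) lam, 0 < h → 1 ≤ a → La J h (2 ^ a) lam →
  Ls s lam η = ∏ i ∈ Finset.range (2 ^ k), Ls s lam fun I => χ I ^ (2 * i + 1)

/-- the cubic step -/
def LF3 : Prop := ∀ (K M N : Type) [Field K] [NumberField K] [Field M] [NumberField M] [Field N]
  [NumberField N] [Algebra K M] [Algebra K N] [Algebra M N] [IsScalarTower K M N]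
  (ι : ℂ →+* ℂ_[2]) (J : K →+* ℂ) (Ω : ℝ), Base ι J Ω → ∀ (j : M →+* Qb) (j' : N →+* Qb) θ k
  (e : GQ → ZMod 3), (∀ x, j' (algebraMap M N x) = j x) → Gc j θ (2 ^ k) →
  (∀ g ∈ GK j, ∀ h ∈ GK j, e (g * h) = e g + e h) → (∀ g, g ∈ GK j' ↔ g ∈ GK j ∧ e g = 0) →
  (∃ g ∈ GK j, e g ≠ 0) → ∀ χ χ' ψ, Ic j θ χ → Ic j' θ χ' →
  Ic j (fun g => ze 3 (e g).val) ψ → ∀ (s : 𝓞 K) (h a i : ℕ) lam, 0 < h → 1 ≤ a →
  La J h (2 ^ a) lam → (Ls s lam fun I => χ' I ^ (i + 1)) = (Ls s lam fun I => χ I ^ (i + 1)) *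
    (Ls s lam fun I => χ I ^ (i + 1) * ψ I) * Ls s lam fun I => χ I ^ (i + 1) * ψ I ^ 2

/-- steps which are unramified at `v` -/
def DIS : Prop := ∀ (K M N : Type) [Field K] [NumberField K] [Field M] [NumberField M] [Field N]
  [NumberField N] [Algebra K M] [Algebra K N] [Algebra M N] [IsScalarTower K M N]
  (ι : ℂ →+* ℂ_[2]) (J : K →+* ℂ) (Ω : ℝ), Base ι J Ω → ∀ j' : N →+* Qb,
  (∀ P, Ab ι J (j'.comp (algebraMap K N)) P → ∀ g ∈ GK (j'.comp (algebraMap M N)), Inert P g →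
    g ∈ GK j') →
  (∀ (n : ℕ) (b : Basis (Fin n) K M) (n' : ℕ) (b' : Basis (Fin n') K N), Vb ι J b → Vb ι J b' →
    dv ι J b' = dv ι J b ^ finrank M N) ∧
  ∀ τ : N ≃ₐ[M] N, finrank M N = 2 → τ ≠ 1 → ∃ θ : N, Vi ι J θ ∧ θ + τ θ = 1

/-- **the dictionary** -/
def DIC : Prop := ∀ (K A : Type) [Field K] [NumberField K] [Field A] [NumberField A] [Algebra K A]
  (ι : ℂ →+* ℂ_[2]) (J : K →+* ℂ) (Ω : ℝ), Base ι J Ω → ∀ (j : K →+* Qb) (jA : A →+* Qb) P ρ c k e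
  S s, (∀ x, jA (algebraMap K A x) = j x) → Ab ι J j P → Lw j c k e → Ts ι J j ρ c k e S s →
  (∀ g, g ∈ GK jA ↔ g ∈ GK j ∧ ρ g = 1 ∧ e g = 0) → ∀ (ω : A ≃ₐ[K] A), ∀ g₃ ∈ GK j, ρ g₃ ≠ 1 →
  ρ g₃ ^ 3 = 1 → e g₃ = 0 → (∀ x, jA (ω x) = g₃ (jA x)) → ∀ d m : ℕ,
  (d = 2 ∨ d = 1 ∧ ∀ g ∈ GK j, ρ g ^ 3 = 1) → 2 ≤ m →
  ∃ κ : Aˣ → Fin d → Zc j (S ∪ c.primeFactors) ρ (2 * 2 ^ k) (fun g => (e g).val) P,
    ∀ x ∈ Um ι J A (m + 1), ∀ y ∈ Um ι J A (m + 1),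
      dd (Ss ι J A s) x ∈ sq (IL A (Ss ι J A s)) → dd (Ss ι J A s) y ∈ sq (IL A (Ss ι J A s)) →
      n3 (ua ω) x ∈ sq (Um ι J A m) → n3 (ua ω) y ∈ sq (Um ι J A m) → κ x = κ y →
      x / y ∈ sq (Um ι J A m)

/-- **the export** -/
def ALX : Prop := ∀ (K M M₃ : Type) [Field K] [NumberField K] [Field M] [NumberField M] [Field M₃]
  [NumberField M₃] [Algebra K M] [Algebra K M₃] [Algebra M M₃] [IsScalarTower K M M₃]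
  (ι : ℂ →+* ℂ_[2]) (J : K →+* ℂ) (Ω : ℝ), Base ι J Ω → ∀ (j : K →+* Qb) (jM : M →+* Qb)
  (j₃ : M₃ →+* Qb) P ρ c k e e₃ S s, Ab ι J j P → Lw j c k e → Ts ι J j ρ c k e S s →
  Cb j ρ jM j₃ e₃ → ∀ (n : ℕ) (b : Basis (Fin n) K M) (n₃ : ℕ) (b₃ : Basis (Fin n₃) K M₃),
  Vb ι J b → Vb ι J b₃ → ∀ χ ψ, Ic jM (fun g => ze (2 * 2 ^ k) (e g).val) χ →
  Ic jM (fun g => ze 3 (e₃ g).val) ψ →
  Finite (Zc j (S ∪ c.primeFactors) ρ (2 * 2 ^ k) (fun g => (e g).val) P) →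
  Nat.card (Zc j (S ∪ c.primeFactors) ρ (2 * 2 ^ k) (fun g => (e g).val) P) ^ n < 2 ^ 2 ^ k →
  ∀ h : ℕ, 0 < h → ∃ a e0 : ℕ,
    2 ^ a ≤ Nat.card (Zc j (S ∪ c.primeFactors) ρ (2 * 2 ^ k) (fun g => (e g).val) P) ^ n ∧
    ∀ e', e0 ≤ e' → ∀ lam, La J h (2 ^ e') lam →
      sc Ω (dv ι J b) n (2 * h * 2 ^ e') ^ 2 ^ k <
        2 ^ (a + 1) * sc Ω (dv ι J b₃) n₃ (2 * h * 2 ^ e') ^ 2 ^ k *
          ∏ i ∈ Finset.range (2 ^ k), ‖ι (Ls s lam fun I => χ I ^ (2 * i + 1) * ψ I)‖ *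
            ‖ι (Ls s lam fun I => χ I ^ (2 * i + 1) * ψ I ^ 2)‖

end Vale.Agent.P004C.Al
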