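import Vale.Agent.P004C.Al.St2

/-!
# P004 C, block AL: three steps of the export
-/

open NumberField Module IsDedekindDomain
open scoped Classical

noncomputable section

namespace Vale.Agent.P004C.Al

open Vale.Agent.P022 (Qb GQ GK below)
open Vale.Agent.P027M.M (ze)

/-- `σ` maps `L` to itself -/
def Pres {K A : Type} [Field K] [Field A] [Algebra K A] (L : Type) [Field L] [Algebra L A]
    (σ : A ≃ₐ[K] A) : Prop := ∀ x : L, ∃ y : L, σ (algebraMap L A x) = algebraMap L A y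

/-- **the relative class numbers are bounded when the rank is one or two** -/
def BD1 : Prop := ∀ (K : Type) [Field K] [NumberField K] (ι : ℂ →+* ℂ_[2]) (J : K →+* ℂ) (Ω : ℝ),
  Base ι J Ω → ∀ (A L L₂ : Type) [Field A] [NumberField A] [Field L] [NumberField L] [Field L₂]
  [NumberField L₂] [Algebra K A] [Algebra K L] [Algebra K L₂] [Algebra L L₂] [Algebra L A]
  [Algebra L₂ A] [IsScalarTower K L L₂] [IsScalarTower K L₂ A] [IsScalarTower L L₂ A]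
  [IsScalarTower K L A] (γ : A ≃ₐ[K] A) (k : ℕ) (s : 𝓞 K), Qp ι J L L₂ (γ ^ 2 ^ k) → Pres L₂ γ →
  s ≠ 0 → (∀ P ∈ Ps L s, Ine L₂ P) → (finrank K L = 2 ^ k ∨ finrank K L = 2 * 2 ^ k ∧
    ∃ σ : A ≃ₐ[K] A, σ * σ = 1 ∧ σ * γ = γ * σ ∧ Pres L₂ σ ∧ ∀ m, 2 ≤ m →
      i2 (Em (dd ∅) (ua (γ ^ 2 ^ k)) (UL ι J L₂ m) ⊓ (ua σ).eqLocus (MonoidHom.id _)) =
        2 ^ 2 ^ k) →
  ∃ C, ∀ m, 3 ≤ m → v2 (hS ι J L L₂ (γ ^ 2 ^ k) (Ss ι J A s) m) ≤ C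

/-- **the cubic step** -/
def CUB : Prop := ∀ (K : Type) [Field K] [NumberField K] (ι : ℂ →+* ℂ_[2]) (J : K →+* ℂ) (Ω : ℝ),
  Base ι J Ω → ∀ (A L L₂ N : Type) [Field A] [NumberField A] [Field L] [NumberField L] [Field L₂]
  [NumberField L₂] [Field N] [NumberField N] [Algebra K A] [Algebra K L] [Algebra K L₂]
  [Algebra K N] [Algebra L L₂] [Algebra L N] [Algebra L A] [Algebra L₂ A] [Algebra N A]
  [IsScalarTower K L L₂] [IsScalarTower K L₂ A] [IsScalarTower L L₂ A] [IsScalarTower K L A]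
  [IsScalarTower K N A] [IsScalarTower L N A] (γ ω : A ≃ₐ[K] A) (k : ℕ) (s : 𝓞 K)
  (ω₁ : N ≃ₐ[L] N) (ω₂ : A ≃ₐ[L₂] A), Qp ι J L L₂ (γ ^ 2 ^ k) → Qp ι J N A (γ ^ 2 ^ k) →
  γ * ω = ω * γ → Pres N γ → Pres L₂ γ → finrank L N = 3 → orderOf ω₁ = 3 →
  (∀ x, algebraMap N A (ω₁ x) = ω (algebraMap N A x)) → finrank L₂ A = 3 → orderOf ω₂ = 3 →
  (∀ x, ω₂ x = ω x) → s ≠ 0 → (∀ P ∈ Ps L s, Ine L₂ P) → (∀ P ∈ Ps N s, Ine A P) → ∀ m, 2 ≤ m →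
  ∀ (Z : Type) [Finite Z] (κ : Aˣ → Z), (∀ x ∈ Um ι J A (m + 1), ∀ y ∈ Um ι J A (m + 1),
    dd (Ss ι J A s) x ∈ sq (IL A (Ss ι J A s)) → dd (Ss ι J A s) y ∈ sq (IL A (Ss ι J A s)) →
    n3 (ua ω) x ∈ sq (Um ι J A m) → n3 (ua ω) y ∈ sq (Um ι J A m) → κ x = κ y →
    x / y ∈ sq (Um ι J A m)) → Nat.card Z < 2 ^ 2 ^ k →
  ∃ b, 2 ^ b ≤ Nat.card Z ∧ v2 (hS ι J N A (γ ^ 2 ^ k) (Ss ι J A s) (m + 1)) ≤
      b + v2 (hS ι J L L₂ (γ ^ 2 ^ k) (Ss ι J A s) (m + 1)) ∧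
    v2 (cS ι J L L₂ (γ ^ 2 ^ k) (Ss ι J A s) (m + 1)) ≤
      v2 (cS ι J N A (γ ^ 2 ^ k) (Ss ι J A s) (m + 1))

/-- **the last step of a layer** -/
def PAR : Prop := ∀ (K : Type) [Field K] [NumberField K] (ι : ℂ →+* ℂ_[2]) (J : K →+* ℂ) (Ω : ℝ),
  Base ι J Ω → ∀ (A L L₂ : Type) [Field A] [NumberField A] [Field L] [NumberField L] [Field L₂]
  [NumberField L₂] [Algebra K A] [Algebra K L] [Algebra K L₂] [Algebra L L₂] [Algebra L₂ A]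
  [IsScalarTower K L L₂] (j : K →+* Qb) (jL : L →+* Qb) (j₂ : L₂ →+* Qb) (jA : A →+* Qb) ρ c k e S s
  (R : Matrix (Fin 2) (Fin 2) (ZMod 2) → Prop) (t : GQ) (τ : A ≃ₐ[K] A),
  (∀ x, jL (algebraMap K L x) = j x) → (∀ x, j₂ (algebraMap L L₂ x) = jL x) →
  (∀ x, jA (algebraMap L₂ A x) = j₂ x) → Lw j c k e → Ts ι J j ρ c k e S s → R 1 →
  (∀ g, g ∈ GK jL ↔ g ∈ GK j ∧ R (ρ g) ∧ 2 * e g = 0) →
  (∀ g, g ∈ GK j₂ ↔ g ∈ GK j ∧ R (ρ g) ∧ e g = 0) → t ∈ GK j → ρ t = 1 → e t = 2 ^ k →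
  (∀ x, jA (τ x) = t (jA x)) →
  Qp ι J L L₂ τ ∧ Ax ι J L L₂ ∧ (∀ P ∈ Ps L s, Ine L₂ P) ∧
    ∃ η, Ic jL (fun g => ze (2 * 2 ^ k) (e g).val) η ∧ Eta L₂ η c

end Vale.Agent.P004C.Al
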